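import Vale.Agent.P110.SP2

namespace Vale.Agent.P110

open Complex Real Finset MeasureTheory Filter Topology

lemma lip_of_deriv {f f' : ℝ → ℝ} (hf : ∀ y, HasDerivAt f (f' y) y) {K : ℝ}
    (hK : ∀ y ∈ Set.Icc (0:ℝ) 1, |f' y| ≤ K) :
    ∀ y ∈ Set.Icc (0:ℝ) 1, ∀ y' ∈ Set.Icc (0:ℝ) 1, |f y - f y'| ≤ K * |y - y'| := by
  have key : ∀ y ∈ Set.Icc (0:ℝ) 1, ∀ y' ∈ Set.Icc (0:ℝ) 1, y' ≤ y →
      |f y - f y'| ≤ K * |y - y'| := by
    intro y hy y' hy' h
    obtain ⟨ξ, h1, h2, e⟩ := mvt hf h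
    rw [e, abs_mul]
    exact mul_le_mul_of_nonneg_right (hK ξ ⟨hy'.1.trans h1, h2.trans hy.2⟩) (abs_nonneg _)
  intro y hy y' hy'
  rcases le_total y' y with h | h
  · exact key y hy y' hy' h
  · rw [abs_sub_comm, abs_sub_comm y]; exact key y' hy' y hy h

lemma prof_exists {ε g : ℝ} (hε : 0 < ε) (hg : 0 < g) :
    ∃ (P T T1 : ℝ → ℝ) (K r0 : ℝ), Prof P T T1 K (g ^ 2) r0 ∧ T 0 = 0 ∧ T 1 ≤ 1 + ε := by
  set L := 2 * g ^ 2 with hL
  have hL0 : 0 < L := by positivity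
  obtain ⟨p, hp⟩ := exists_nat_ge (L / ε)
  set n := 2 * (p + 1) with hn
  have hnr : (n : ℝ) = 2 * (p + 1) := by rw [hn]; push_cast; ring
  have hn2 : (2 : ℝ) ≤ n := by rw [hnr]; linarith [(Nat.cast_nonneg p : (0:ℝ) ≤ p)]
  have hev : Even n := ⟨p + 1, by omega⟩
  have lin : ∀ y : ℝ, HasDerivAt (fun y : ℝ => 2 * y - 1) 2 y := fun y => by
    simpa using ((hasDerivAt_id y).const_mul 2).sub_const 1
  have habs : ∀ y ∈ Set.Icc (0:ℝ) 1, ∀ k : ℕ, |(2 * y - 1) ^ k| ≤ 1 := by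
    intro y hy k
    rw [abs_pow]
    exact pow_le_one₀ (abs_nonneg _) (abs_le.2 ⟨by linarith [hy.1], by linarith [hy.2]⟩)
  refine ⟨fun y => y ^ 2 / 2 + L / (2 * (n + 1)) * ((2 * y - 1) ^ (n + 2) / (2 * (n + 2)) + y),
    fun y => y + L / (2 * (n + 1)) * ((2 * y - 1) ^ (n + 1) + 1),
    fun y => 1 + L * (2 * y - 1) ^ n, 1 + L + 2 * n * L, 1 / (8 * n), ⟨?_, ?_, ?_, ?_, ?_, ?_, ?_, ?_,
      by positivity⟩, ?_, ?_⟩
  · intro y
    have := (((hasDerivAt_id y).pow 2).div_const 2).add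
      (((((lin y).pow (n + 2)).div_const (2 * (n + 2))).add (hasDerivAt_id y)).const_mul
        (L / (2 * (n + 1))))
    refine this.congr_deriv ?_
    simp only [id, Nat.add_succ_sub_one]
    push_cast; field_simp
  · intro y
    have := (hasDerivAt_id y).add
      ((((lin y).pow (n + 1)).add_const 1).const_mul (L / (2 * (n + 1))))
    refine this.congr_deriv ?_
    simp only [Nat.add_succ_sub_one]
    push_cast; field_simp; ring
  · intro y
    have := hev.pow_nonneg (2 * y - 1)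
    nlinarith
  · intro y hy
    have := (abs_le.1 (habs y hy n)).2
    have : 0 ≤ 2 * n * L := by positivity
    nlinarith
  · apply lip_of_deriv (f' := fun y => L * (n * (2 * y - 1) ^ (n - 1) * 2))
    · intro y
      exact (((lin y).pow n).const_mul L).const_add 1
    · intro y hy
      rw [abs_mul L, abs_of_pos hL0, abs_mul ((n : ℝ) * _), abs_mul (n : ℝ), abs_of_nonneg (Nat.cast_nonneg n),
        abs_of_pos (by norm_num : (0:ℝ) < 2)]
      have := habs y hy (n - 1)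
      have h2 : L * (n * |(2 * y - 1) ^ (n - 1)| * 2) ≤ L * (n * 1 * 2) := by gcongr
      nlinarith
  · intro y hy h
    have hn0 : (0 : ℝ) < n := by linarith
    have : 1 / 2 ≤ (2 * y - 1) ^ n := by
      rcases h with h | h
      · have b := one_add_mul_le_pow (a := -2 * y) (by linarith [hy.2]) n
        have e : (2 * y - 1) ^ n = (1 + -2 * y) ^ n := by
          rw [← hev.neg_pow]; congr 1; ring
        have : n * y ≤ 1 / 4 := by
          have := mul_le_mul_of_nonneg_left h hn0.le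
          have e : n * (2 * (1 / (8 * (n : ℝ)))) = 1 / 4 := by field_simp; ring
          linarith
        rw [e]; linarith
      · have b := one_add_mul_le_pow (a := 2 * y - 2) (by linarith [hy.1]) n
        have e : (2 * y - 1) ^ n = (1 + (2 * y - 2)) ^ n := by congr 1; ring
        have : n * (1 - y) ≤ 1 / 4 := by
          have := mul_le_mul_of_nonneg_left (show 1 - y ≤ 2 * (1 / (8 * (n : ℝ))) by linarith) hn0.le
          have e : n * (2 * (1 / (8 * (n : ℝ)))) = 1 / 4 := by field_simp; ring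
          linarith
        rw [e]; linarith
    nlinarith
  · positivity
  · rw [div_le_div_iff₀ (by positivity) (by norm_num)]; linarith
  · have : Odd (n + 1) := hev.add_one
    simp [this.neg_one_pow]
  · have e : (2 * (1:ℝ) - 1) = 1 := by norm_num
    simp only [e, one_pow]
    rw [div_le_iff₀ hε] at hp
    have : L / (2 * (n + 1)) * (1 + 1) ≤ ε := by
      rw [div_mul_eq_mul_div, div_le_iff₀ (by positivity), hnr]
      nlinarith [(Nat.cast_nonneg p : (0:ℝ) ≤ p)]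
    linarith

lemma ev_sqrt (C : ℝ) {η : ℝ} (hη : 0 < η) : ∀ᶠ M : ℕ in atTop, C / √(M : ℝ) ≤ η := by
  have h : Tendsto (fun M : ℕ => √(M : ℝ)) atTop atTop :=
    Real.tendsto_sqrt_atTop.comp tendsto_natCast_atTop_atTop
  exact (h.const_div_atTop C).eventually (ge_mem_nhds hη)

structure SPD (ε : ℝ) (P T amp Leg : ℝ → ℝ) (φ0 K : ℝ) : Prop where
  dP : ∀ y, HasDerivAt P (T y) y
  mono : ∀ a b, a ≤ b → T a ≤ T b
  T0 : T 0 = 0
  T1_ge : 1 ≤ T 1
  T1_le : T 1 ≤ 1 + ε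
  K_pos : 1 ≤ K
  lip : ∀ y ∈ Set.Icc (0:ℝ) 1, ∀ y' ∈ Set.Icc (0:ℝ) 1, |T y - T y'| ≤ K * |y - y'|
  amp_nonneg : ∀ u, 0 ≤ amp u
  amp_le : ∀ u, amp u ≤ 1
  amp_supp : ∀ u, amp u ≠ 0 → 0 < u ∧ u < T 1
  main : ∀ c lam : ℝ, 0 < c → 0 < lam → ∀ᶠ M : ℕ in atTop, ∀ y0 u : ℝ, 0 ≤ y0 → y0 ≤ 1 →
    (∀ y ∈ Set.Icc (0:ℝ) 1, |c * (T y - u)| ≤ 1 - lam) →
    ‖((√(c / M) : ℝ) : ℂ) * ∑ i ∈ range M, ee (ph P c M y0 u i)
      - (amp u : ℂ) * ee (φ0 + c * M * Leg u)‖ ≤ ε

theorem sp_exists {ε : ℝ} (hε : 0 < ε) : ∃ P T amp Leg φ0 K, SPD ε P T amp Leg φ0 K := by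
  classical
  obtain ⟨P, T, T1, K, r0, h, hT0, hT1⟩ := prof_exists hε (g := 8 / ε) (by positivity)
  obtain ⟨Φ, hΦ1, hΦ⟩ := fresnel
  obtain ⟨φ0, rfl⟩ := exists_ee hΦ1
  have hr0 := h.r0_pos
  have hr1 := h.r0_le
  have ivt : ∀ u, ∃ ys, (T r0 ≤ u ∧ u ≤ T (1 - r0)) → r0 ≤ ys ∧ ys ≤ 1 - r0 ∧ T ys = u := by
    intro u
    by_cases hu : T r0 ≤ u ∧ u ≤ T (1 - r0)
    · obtain ⟨y, hy, e⟩ := intermediate_value_Icc (f := T) (a := r0) (b := 1 - r0) (by linarith)
        (fun x _ => (h.dT x).continuousAt.continuousWithinAt) hu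
      exact ⟨y, fun _ => ⟨hy.1, hy.2, e⟩⟩
    · exact ⟨0, fun h' => absurd h' hu⟩
  choose ys hys using ivt
  refine ⟨P, T, fun u => if T r0 ≤ u ∧ u ≤ T (1 - r0) then 1 / √(T1 (ys u)) else 0,
    fun u => P (ys u) - u * ys u, φ0, K, h.dP, fun a b => h.mono, hT0, ?_, hT1, h.K_pos, ?_, ?_, ?_,
    ?_, ?_⟩
  · have := h.grow (a := 0) (b := 1) (by norm_num); linarith
  · apply lip_of_deriv h.dT
    intro y hy
    rw [abs_of_nonneg (by linarith [h.one_le y])]; exact h.le_K y hy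
  · intro u; split_ifs <;> positivity
  · intro u
    split_ifs
    · have := Real.one_le_sqrt.2 (h.one_le (ys u))
      rw [div_le_one (by linarith)]; exact this
    · norm_num
  · intro u hu
    split_ifs at hu with h1
    · have a := h.grow (a := 0) (b := r0) hr0.le
      have b := h.grow (a := 1 - r0) (b := 1) (by linarith)
      constructor <;> linarith [h1.1, h1.2]
    · exact absurd rfl hu
  intro c lam hc hlam
  set a := √c with ha
  have ha0 : 0 < a := Real.sqrt_pos.2 hc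
  have hca : c = a ^ 2 := (Real.sq_sqrt hc.le).symm
  set R := 16 / (a * ε) with hR
  have hR0 : 0 < R := by positivity
  filter_upwards [ev_sqrt (a * (8 / ε)) hlam, ev_sqrt (8 / ε / a) hr0, ev_sqrt (4 * a) (half_pos hε),
    ev_sqrt (c * R / 2) hlam, ev_sqrt (2 * R) hr0, ev_sqrt 2 hR0,
    ev_sqrt (a + 21 * a * R * (c * K * (8 * R ^ 3 + 2 * R))) (half_pos hε),
    eventually_gt_atTop 0] with M e1 e2 e3 e4 e5 e6 e7 hM y0 u hy0 hy1 hu
  have hMr : (0 : ℝ) < M := by exact_mod_cast hM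
  set s := √(M : ℝ) with hs
  have hs0 : 0 < s := Real.sqrt_pos.2 hMr
  have hMs : (M : ℝ) = s ^ 2 := (Real.sq_sqrt hMr.le).symm
  have hsq : √(c / M) = a / s := Real.sqrt_div hc.le _
  rw [hsq]
  split_ifs with hcase
  · obtain ⟨y1, y2, y3⟩ := hys u hcase
    have := h.caseA hΦ (c := c) (lam := lam) (y0 := y0) (ys := ys u) ha0 hca hR0 hs0 hMs hy0 hy1
      (by rw [y3]; exact hu) y1 y2 (by rw [← div_div]; exact e4) e5
      (by rw [div_le_iff₀ hs0] at e6; exact e6)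
    rw [y3] at this
    rw [ee_add, ← mul_assoc]
    refine this.trans ?_
    have : 8 / (a * R) = ε / 2 := by rw [hR]; field_simp; ring
    linarith
  · have := h.caseB (c := c) (lam := lam) (y0 := y0) (u := u) ha0 hca (by positivity) rfl hs0 hMs
      hy0 hy1 hu (by
        by_contra hcon; push Not at hcon; exact hcase hcon) e1 (by
        rw [div_div] at e2; exact e2)
    simp only [Complex.ofReal_zero, zero_mul, sub_zero, norm_mul, Complex.norm_real,
      Real.norm_eq_abs]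
    rw [abs_of_pos (by positivity)]
    refine this.trans ?_
    have : 4 / (8 / ε) = ε / 2 := by field_simp; ring
    linarith

end Vale.Agent.P110
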