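import Vale.Agent.P110.Glue
import Vale.Agent.P110.SP3

namespace Vale.Agent.P110

open Real Finset

lemma quad_sum {A : ℕ} (hA : 16 ≤ A) {t η b c : ℝ} (hη : 0 < η) (h1 : η ≤ t) (h2 : t ≤ 1)
    (hb1 : -(1 / 2) ≤ b) (hb2 : b ≤ 1 / 4) :
    ‖∑ i ∈ range A, ee (t * i ^ 2 / (4 * A) + b * i + c)‖ ≤ (4 / η + 5) * √A := by
  have hAr : (16 : ℝ) ≤ A := by exact_mod_cast hA
  set s := √(A : ℝ) with hs
  have hs4 : 4 ≤ s := Real.le_sqrt_of_sq_le (by linarith)
  have hss : s ^ 2 = A := Real.sq_sqrt (by linarith)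
  have hd : ∀ i : ℕ, (t * ((i + 1 : ℕ) : ℝ) ^ 2 / (4 * A) + b * ((i + 1 : ℕ) : ℝ) + c)
      - (t * (i : ℝ) ^ 2 / (4 * A) + b * i + c) = t * ((2 * i + 1) / (4 * A)) + b := by
    intro i; push_cast; field_simp; ring
  have key := b1 (fun i : ℕ => t * (i : ℝ) ^ 2 / (4 * A) + b * i + c) A ⌈4 * s / η⌉₊ (lam := 1 / s)
    (by positivity)
    (fun i _ => by
      rw [hd i, hd (i + 1)]
      push_cast
      gcongr <;> linarith)
    (fun i hi => by
      rw [hd i]
      have hi' : (i : ℝ) + 1 ≤ A := by exact_mod_cast hi.le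
      have a1 : (2 * i + 1 : ℝ) / (4 * A) ≤ 1 / 2 := by
        rw [div_le_iff₀ (by positivity)]; linarith
      have a2 : 0 ≤ (2 * i + 1 : ℝ) / (4 * A) := by positivity
      have a3 : 1 / s ≤ 1 / 4 := one_div_le_one_div_of_le (by norm_num) hs4
      rw [abs_le]; constructor <;> nlinarith)
    (fun i j hij _ hi hj => by
      rw [hd i] at hi
      rw [hd j] at hj
      have a1 := (abs_lt.1 hi).1
      have a2 := (abs_lt.1 hj).2
      have hij' : (i : ℝ) ≤ j := by exact_mod_cast hij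
      have a3 : t * ((j - i) / (2 * A)) ≤ 2 / s := by
        have : t * ((2 * j + 1) / (4 * A)) - t * ((2 * i + 1) / (4 * A)) = t * ((j - i) / (2 * A)) := by
          field_simp; ring
        have e : 2 / s = 1 / s + 1 / s := by ring
        linarith
      have a4 : η * ((j - i) / (2 * A)) ≤ 2 / s :=
        le_trans (mul_le_mul_of_nonneg_right h1 (div_nonneg (by linarith) (by positivity))) a3
      have a5 : (j : ℝ) - i ≤ 4 * s / η := by
        rw [← hss, ← mul_div_assoc, div_le_div_iff₀ (by positivity) (by positivity)] at a4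
        rw [le_div_iff₀ hη]
        apply le_of_mul_le_mul_right _ (show 0 < s by linarith)
        nlinarith
      have : ((j - i : ℕ) : ℝ) ≤ ⌈4 * s / η⌉₊ := by
        rw [Nat.cast_sub hij]; exact a5.trans (Nat.le_ceil _)
      exact_mod_cast this)
  have a := Nat.ceil_lt_add_one (show 0 ≤ 4 * s / η by positivity)
  have e1 : 2 / (1 / s) = 2 * s := by field_simp
  have e2 : (4 / η + 5) * s = 4 * s / η + 5 * s := by ring
  linarith

lemma quad_step {A : ℕ} (hA : 0 < A) {t α : ℝ} (h0 : 0 ≤ t) (h1 : t ≤ 1) (a0 : 0 ≤ α) (a1 : α ≤ 1)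
    (x : ℝ) {e : ℝ} (he : e = 0 ∨ e = 1) :
    |(t * (x + 1) ^ 2 / (4 * A) + α * (x + 1) / A) - (t * x ^ 2 / (4 * A) + α * x / A)
      - t * (x + e) / A / 2| ≤ 2 / (A : ℝ) := by
  have hAr : (0 : ℝ) < A := by exact_mod_cast hA
  have : (t * (x + 1) ^ 2 / (4 * A) + α * (x + 1) / A) - (t * x ^ 2 / (4 * A) + α * x / A)
      - t * (x + e) / A / 2 = (t * (1 - 2 * e) / 4 + α) / A := by field_simp; ring
  rw [this, abs_div, abs_of_pos hAr]
  apply div_le_div_of_nonneg_right _ hAr.le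
  rcases he with rfl | rfl <;> rw [abs_le] <;> constructor <;> linarith

lemma ee_step {x y z d : ℝ} (h : |x - y - z| ≤ d) : ‖ee x - ee y * ee z‖ ≤ 7 * d := by
  rw [← ee_add]
  refine (norm_ee_sub_le _ _).trans ?_
  rw [← sub_sub]; linarith

set_option maxHeartbeats 1000000 in
theorem arc {ε : ℝ} {P T amp Leg : ℝ → ℝ} {φ0 K : ℝ} (h : SPD ε P T amp Leg φ0 K) {A M : ℕ}
    (hA : 16 ≤ A) (hM : 0 < M) {t β η U : ℝ} (θ0 : ℝ) (hη : 0 < η) (hη1 : η ≤ 1 / 4) (ht : η ≤ t)
    (hβ : 0 < β) (hU : t + β * T 1 ≤ U) (hU1 : U ≤ 1)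
    (hsp : ∀ u : ℝ, (∀ y ∈ Set.Icc (0:ℝ) 1, |β / 2 * (T y - u)| ≤ 1 - 1 / 4) →
      ‖((√(β / 2 / M) : ℝ) : ℂ) * ∑ i ∈ range M, ee (ph P (β / 2) M (1 / 2) u i)
        - (amp u : ℂ) * ee (φ0 + β / 2 * M * Leg u)‖ ≤ ε) :
    ∃ (g : ℕ → ℂ) (τ : ℕ → ℝ), ArcOK (A + M + A) g τ (14 / A + 7 * K / M) U ∧
      ∀ u c0 : ℝ, -η ≤ u → u ≤ 1 →
      ‖∑ i ∈ range (A + M + A), g i * ee (-(u * (c0 + i + 1 / 2) / 2))
        - ((√(M / (β / 2)) * amp ((u - t) / β) : ℝ) : ℂ) *
          ee (θ0 + φ0 - u * (c0 + A) / 2 + β / 2 * M * Leg ((u - t) / β))‖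
        ≤ √(M / (β / 2)) * ε + 2 * ((4 / η + 5) * √A) := by
  have hAr : (16 : ℝ) ≤ A := by exact_mod_cast hA
  have hA0 : (0 : ℝ) < A := by linarith
  have hMr : (0 : ℝ) < M := by exact_mod_cast hM
  have hT := h.T1_ge
  have hK := h.K_pos
  have hβ1 : β ≤ 1 := by nlinarith
  set t' := t + β * T 1 with ht'
  have ht0 : 0 < t := by linarith
  have htt : t ≤ t' := by rw [ht']; nlinarith
  have ht1 : t' ≤ 1 := by linarith
  let ψm : ℕ → ℝ := fun i => θ0 + t * (i + 1 / 2) / 2 + β / 2 * M * P ((i + 1 / 2) / M)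
  set α1 := Int.fract (ψm 0 - t * A / 4) with hα1
  set α2 := Int.fract (-ψm (M - 1) - t' * A / 4) with hα2
  have a10 : 0 ≤ α1 := Int.fract_nonneg _
  have a11 : α1 ≤ 1 := (Int.fract_lt_one _).le
  have a20 : 0 ≤ α2 := Int.fract_nonneg _
  have a21 : α2 ≤ 1 := (Int.fract_lt_one _).le
  let c1 : ℝ → ℝ := fun x => t * x ^ 2 / (4 * A) + α1 * x / A
  let c2 : ℝ → ℝ := fun x => t' * x ^ 2 / (4 * A) + α2 * x / A
  have j1 : ee (ψm 0) = ee (c1 A) := by
    apply ee_congr ⌊ψm 0 - t * A / 4⌋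
    have := Int.fract_add_floor (ψm 0 - t * A / 4)
    have e : c1 A = t * A / 4 + α1 := by simp only [c1]; field_simp
    rw [e]; linarith
  have j2 : ee (ψm (M - 1)) = ee (-c2 A) := by
    apply ee_congr (-⌊-ψm (M - 1) - t' * A / 4⌋)
    have := Int.fract_add_floor (-ψm (M - 1) - t' * A / 4)
    have e : c2 A = t' * A / 4 + α2 := by simp only [c2]; field_simp
    rw [e]; push_cast; linarith
  let g : ℕ → ℂ := fun i => if i < A then ee (c1 i) else if i < A + M then ee (ψm (i - A))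
    else ee (-c2 ((A + M + A - 1 - i : ℕ) : ℝ))
  let τ : ℕ → ℝ := fun i => if i < A then t * i / A else if i < A + M then
    t + β * T (((i - A : ℕ) : ℝ) / M) else t' * ((A + M + A - 1 - i : ℕ) : ℝ) / A
  have g1 : ∀ i, i ≤ A → g i = ee (c1 i) := by
    intro i hi
    rcases Nat.lt_or_eq_of_le hi with h1 | rfl
    · exact if_pos h1
    · simp only [g, lt_irrefl, if_false, if_pos (Nat.lt_add_of_pos_right hM), Nat.sub_self, j1]
  have g2 : ∀ i, i < M → g (A + i) = ee (ψm i) := by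
    intro i hi
    simp only [g, if_neg (by omega : ¬ A + i < A), if_pos (by omega : A + i < A + M),
      Nat.add_sub_cancel_left]
  have g3 : ∀ i l : ℕ, l ≤ A → i + l + 1 = A + M + A → g i = ee (-c2 l) := by
    intro i l hl e
    rcases Nat.lt_or_eq_of_le hl with h1 | rfl
    · simp only [g, if_neg (by omega : ¬ i < A), if_neg (by omega : ¬ i < A + M),
        show A + M + A - 1 - i = l by omega]
    · rw [show i = l + (M - 1) by omega, g2 _ (by omega), j2]
  have τ1 : ∀ i, i ≤ A → τ i = t * i / A := by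
    intro i hi
    rcases Nat.lt_or_eq_of_le hi with h1 | rfl
    · exact if_pos h1
    · simp only [τ, lt_irrefl, if_false, if_pos (Nat.lt_add_of_pos_right hM), Nat.sub_self,
        Nat.cast_zero, zero_div, h.T0]
      field_simp; ring
  have τ2 : ∀ i, i < M → τ (A + i) = t + β * T (i / M) := by
    intro i hi
    simp only [τ, if_neg (by omega : ¬ A + i < A), if_pos (by omega : A + i < A + M),
      Nat.add_sub_cancel_left]
  have τ3 : ∀ i l : ℕ, l < A → i + l + 1 = A + M + A → τ i = t' * l / A := by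
    intro i l hl e
    simp only [τ, if_neg (by omega : ¬ i < A), if_neg (by omega : ¬ i < A + M),
        show A + M + A - 1 - i = l by omega]
  have inI : ∀ x : ℝ, 0 ≤ x → x ≤ M → x / M ∈ Set.Icc (0:ℝ) 1 := fun x h0 h1 =>
    ⟨by positivity, (div_le_one hMr).2 h1⟩
  have lipM : ∀ x y : ℝ, x ∈ Set.Icc (0:ℝ) 1 → y ∈ Set.Icc (0:ℝ) 1 → |x - y| ≤ 2 / M →
      |β * (T x - T y)| ≤ 2 * (K / M) := by
    intro x y hx hy hxy
    rw [abs_mul, abs_of_pos hβ]
    have := (h.lip x hx y hy).trans (mul_le_mul_of_nonneg_left hxy (by linarith))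
    refine (mul_le_mul hβ1 this (abs_nonneg _) (by norm_num)).trans (le_of_eq ?_)
    ring
  have last : |τ (A + (M - 1)) - t'| ≤ 2 * (K / M) := by
    rw [τ2 _ (by omega), ht', add_sub_add_left_eq_sub, ← mul_sub]
    have e : ((M - 1 : ℕ) : ℝ) = M - 1 := by rw [Nat.cast_sub hM]; simp
    have hM1 : (1 : ℝ) ≤ M := by exact_mod_cast hM
    apply lipM _ _ (inI _ (by positivity) (by rw [e]; linarith)) (by simp)
    rw [e, show ((M : ℝ) - 1) / M - 1 = -(1 / M) by field_simp; ring, abs_neg,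
      abs_of_pos (by positivity)]
    gcongr; norm_num
  have p1 : 0 < 1 / (A : ℝ) := by positivity
  have p2 : 0 < K / M := by positivity
  have eδ : 14 / (A : ℝ) + 7 * K / M = 14 * (1 / A) + 7 * (K / M) := by ring
  have e2A : 2 / (A : ℝ) = 2 * (1 / A) := by ring
  refine ⟨g, τ, ⟨by omega, fun i => ?_, fun i hi => ?_, fun i hi => ?_, fun i hi => ?_, ?_, ?_, ?_,
    ?_⟩, fun u c0 hu0 hu1 => ?_⟩
  · simp only [g]; split_ifs <;> exact norm_ee _
  · rcases le_or_gt i A with h1 | h1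
    · rw [τ1 i h1]
      have : (i : ℝ) ≤ A := by exact_mod_cast h1
      refine ⟨by positivity, ?_⟩
      rw [div_le_iff₀ hA0]; nlinarith
    rcases lt_or_ge i (A + M) with h2 | h2
    · obtain ⟨l, rfl⟩ : ∃ l, i = A + l := ⟨i - A, by omega⟩
      rw [τ2 l (by omega)]
      have hl : (l : ℝ) ≤ M := by exact_mod_cast (by omega : l ≤ M)
      have a1 := h.mono 0 _ (inI l (by positivity) hl).1
      have a2 := h.mono _ 1 (inI l (by positivity) hl).2
      rw [h.T0] at a1
      constructor <;> nlinarith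
    · rw [τ3 i (A + M + A - 1 - i) (by omega) (by omega)]
      have : ((A + M + A - 1 - i : ℕ) : ℝ) ≤ A := by exact_mod_cast (by omega)
      refine ⟨div_nonneg (mul_nonneg (by linarith) (by positivity)) hA0.le, ?_⟩
      rw [div_le_iff₀ hA0]; nlinarith
  · rw [eδ]
    rcases lt_or_ge i A with h1 | h1
    · rw [g1 _ h1, g1 _ h1.le, τ1 _ h1.le]
      have := quad_step (A := A) (by omega) ht0.le (by linarith) a10 a11 i (Or.inl rfl)
      refine (ee_step (d := 2 / A) ?_).trans (by linarith)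
      simpa only [c1, Nat.cast_succ, Nat.cast_add, Nat.cast_one, add_zero] using this
    rcases lt_or_ge (i + 1) (A + M) with h2 | h2
    · obtain ⟨l, rfl⟩ : ∃ l, i = A + l := ⟨i - A, by omega⟩
      rw [add_assoc, g2 _ (by omega), g2 _ (by omega), τ2 _ (by omega)]
      have hl : (l : ℝ) + 2 ≤ M := by exact_mod_cast (by omega : l + 2 ≤ M)
      obtain ⟨ξ, x1, x2, x3⟩ := mvt h.dP (a := (l + 1 / 2) / M) (b := (l + 1 + 1 / 2) / M)
        (by gcongr; linarith)
      have x4 := (inI (l + 1 / 2) (by positivity) (by linarith)).1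
      have x5 := (inI (l + 1 + 1 / 2) (by positivity) (by linarith)).2
      have lp := lipM ξ (l / M) ⟨by linarith, by linarith⟩ (inI l (by positivity) (by linarith)) (by
        have e1 : ((l : ℝ) + 1 / 2) / M = l / M + 1 / 2 * (1 / M) := by ring
        have e2 : ((l : ℝ) + 1 + 1 / 2) / M = l / M + 3 / 2 * (1 / M) := by ring
        have e3 : 2 / (M : ℝ) = 2 * (1 / M) := by ring
        have : 0 < 1 / (M : ℝ) := by positivity
        rw [abs_le]; constructor <;> linarith)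
      refine (ee_step (d := K / M) ?_).trans (by linarith)
      have e : ψm (l + 1) - ψm l - (t + β * T (l / M)) / 2 = β * (T ξ - T (l / M)) / 2 := by
        simp only [ψm]; push_cast
        rw [sub_eq_iff_eq_add.1 x3]; field_simp; ring
      rw [e, abs_div, abs_two]; linarith
    · obtain ⟨l, hl⟩ : ∃ l, i + 1 + l + 1 = A + M + A := ⟨A + M + A - 2 - i, by omega⟩
      rw [g3 (i + 1) l (by omega) hl, g3 i (l + 1) (by omega) (by omega)]
      have q := quad_step (A := A) (by omega) (t := t') (by linarith) ht1 a20 a21 l (Or.inr rfl)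
      have hτ : |τ i - t' * (l + 1) / A| ≤ 2 * (K / M) := by
        rcases Nat.lt_or_eq_of_le (show l + 1 ≤ A by omega) with h3 | h3
        · rw [τ3 i (l + 1) h3 (by omega)]; simp; positivity
        · have : (l : ℝ) + 1 = A := by exact_mod_cast h3
          rw [this, mul_div_cancel_right₀ _ hA0.ne', show i = A + (M - 1) by omega]; exact last
      refine (ee_step (d := 2 / A + K / M) ?_).trans (by linarith)
      have a1 := abs_le.1 q
      have a2 := abs_le.1 hτ
      simp only [c2]; push_cast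
      rw [abs_le]; constructor <;> linarith [a1.1, a1.2, a2.1, a2.2]
  · rw [eδ]
    rcases lt_or_ge i A with h1 | h1
    · rw [τ1 _ h1, τ1 _ h1.le]
      push_cast
      rw [show t * (i + 1) / A - t * i / A = t * (1 / A) by ring, abs_of_pos (by positivity)]
      nlinarith
    rcases lt_or_ge (i + 1) (A + M) with h2 | h2
    · obtain ⟨l, rfl⟩ : ∃ l, i = A + l := ⟨i - A, by omega⟩
      rw [add_assoc, τ2 _ (by omega), τ2 _ (by omega), add_sub_add_left_eq_sub, ← mul_sub]
      have hl : (l : ℝ) + 2 ≤ M := by exact_mod_cast (by omega : l + 2 ≤ M)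
      refine (lipM _ _ (inI _ (by positivity) (by push_cast; linarith))
        (inI l (by positivity) (by linarith)) ?_).trans (by linarith)
      push_cast
      rw [show ((l : ℝ) + 1) / M - l / M = 1 / M by ring, abs_of_pos (by positivity)]
      gcongr; norm_num
    · obtain ⟨l, hl⟩ : ∃ l, i + 1 + l + 1 = A + M + A := ⟨A + M + A - 2 - i, by omega⟩
      rw [τ3 (i + 1) l (by omega) hl]
      have hτ : |τ i - t' * (l + 1) / A| ≤ 2 * (K / M) := by
        rcases Nat.lt_or_eq_of_le (show l + 1 ≤ A by omega) with h3 | h3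
        · rw [τ3 i (l + 1) h3 (by omega)]; simp; positivity
        · have : (l : ℝ) + 1 = A := by exact_mod_cast h3
          rw [this, mul_div_cancel_right₀ _ hA0.ne', show i = A + (M - 1) by omega]; exact last
      have a2 := abs_le.1 hτ
      have e : t' * (l + 1) / A = t' * l / A + t' * (1 / A) := by ring
      have : t' * (1 / A) ≤ 1 / A := mul_le_of_le_one_left p1.le ht1
      have : 0 ≤ t' * (1 / A) := mul_nonneg (by linarith) p1.le
      rw [abs_le]; constructor <;> linarith [a2.1, a2.2]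
  · rw [g1 0 (by omega)]; simp [c1]; positivity
  · rw [g3 _ 0 (by omega) (by omega)]; simp [c2]; positivity
  · rw [τ1 0 (by omega)]; simp; positivity
  · rw [τ3 _ 0 (by omega) (by omega)]; simp; positivity
  have b1 : ∀ α : ℝ, 0 ≤ α → α ≤ 1 → -(1 / 2) ≤ α / A - u / 2 ∧ α / A - u / 2 ≤ 1 / 4 := by
    intro α h0 h1
    have : α / A ≤ 1 / 16 := by rw [div_le_iff₀ hA0]; linarith
    have : 0 ≤ α / A := by positivity
    constructor <;> linarith
  have s1 : ‖∑ i ∈ range A, g i * ee (-(u * (c0 + i + 1 / 2) / 2))‖ ≤ (4 / η + 5) * √A := by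
    refine le_trans (le_of_eq ?_) (quad_sum hA (c := -(u * (c0 + 1 / 2) / 2)) hη ht (by linarith)
      (b1 α1 a10 a11).1 (b1 α1 a10 a11).2)
    congr 1
    refine Finset.sum_congr rfl fun i hi => ?_
    rw [g1 i (Finset.mem_range.1 hi).le, ← ee_add]; congr 1; simp only [c1]; ring
  have s3 : ‖∑ i ∈ range A, g (A + M + i) * ee (-(u * (c0 + (A + M + i : ℕ) + 1 / 2) / 2))‖
      ≤ (4 / η + 5) * √A := by
    refine le_trans (le_of_eq ?_) (quad_sum hA (c := u * (c0 + A + M + A - 1 / 2) / 2) hη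
      (ht.trans htt) ht1 (b1 α2 a20 a21).1 (b1 α2 a20 a21).2)
    rw [← Finset.sum_range_reflect, ← Complex.norm_conj, map_sum]
    congr 1
    refine Finset.sum_congr rfl fun i hi => ?_
    rw [Finset.mem_range] at hi
    rw [g3 _ i hi.le (by omega), ← ee_add, conj_ee]
    congr 1
    have : ((A + M + (A - 1 - i) : ℕ) : ℝ) = A + M + A - 1 - i := by
      rw [Nat.cast_add, Nat.cast_add, Nat.cast_sub (by omega), Nat.cast_sub (by omega)]
      push_cast; ring
    rw [this]; simp only [c2]; ring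
  have sp := hsp ((u - t) / β) (fun y hy => by
    have a1 := h.mono 0 y hy.1
    have a2 := h.mono y 1 hy.2
    rw [h.T0] at a1
    have e : β / 2 * (T y - (u - t) / β) = (β * T y + t - u) / 2 := by field_simp; ring
    have := mul_le_mul_of_nonneg_left a2 hβ.le
    have := mul_nonneg hβ.le a1
    rw [e, abs_le]; constructor <;> linarith)
  have s2 : ∑ i ∈ range M, g (A + i) * ee (-(u * (c0 + (A + i : ℕ) + 1 / 2) / 2))
      = ee (θ0 - u * (c0 + A) / 2) * ∑ i ∈ range M, ee (ph P (β / 2) M (1 / 2) ((u - t) / β) i) := by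
    rw [Finset.mul_sum]
    refine Finset.sum_congr rfl fun i hi => ?_
    rw [g2 i (Finset.mem_range.1 hi), ← ee_add, ← ee_add]
    congr 1
    simp only [ψm, ph]; push_cast; field_simp; ring
  rw [Finset.sum_range_add, Finset.sum_range_add, s2]
  set X := ∑ i ∈ range M, ee (ph P (β / 2) M (1 / 2) ((u - t) / β) i)
  have e1 : ((√(M / (β / 2)) : ℝ) : ℂ) * ((√(β / 2 / M) : ℝ) : ℂ) = 1 := by
    rw [← Complex.ofReal_mul, ← Real.sqrt_mul (by positivity)]
    rw [show M / (β / 2) * (β / 2 / M) = 1 by field_simp]; simp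
  have e2 : ee (θ0 + φ0 - u * (c0 + A) / 2 + β / 2 * M * Leg ((u - t) / β))
      = ee (θ0 - u * (c0 + A) / 2) * ee (φ0 + β / 2 * M * Leg ((u - t) / β)) := by
    rw [← ee_add]; congr 1; ring
  have e3 : ∀ S1 S3 : ℂ, S1 + ee (θ0 - u * (c0 + A) / 2) * X + S3
      - ((√(M / (β / 2)) * amp ((u - t) / β) : ℝ) : ℂ) *
          ee (θ0 + φ0 - u * (c0 + A) / 2 + β / 2 * M * Leg ((u - t) / β))
      = ee (θ0 - u * (c0 + A) / 2) * (((√(M / (β / 2)) : ℝ) : ℂ) * (((√(β / 2 / M) : ℝ) : ℂ) * X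
        - (amp ((u - t) / β) : ℂ) * ee (φ0 + β / 2 * M * Leg ((u - t) / β)))) + (S1 + S3) := by
    intro S1 S3
    rw [e2]; push_cast at e1 ⊢
    linear_combination (-ee (θ0 - u * (c0 + A) / 2) * X) * e1
  rw [e3]
  refine (norm_add_le _ _).trans (add_le_add ?_ ((norm_add_le _ _).trans (by linarith)))
  rw [norm_mul, norm_ee, one_mul, norm_mul, Complex.norm_real, Real.norm_of_nonneg (Real.sqrt_nonneg _)]
  exact mul_le_mul_of_nonneg_left sp (Real.sqrt_nonneg _)

end Vale.Agent.P110
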