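import Vale.Agent.P110.Basic

namespace Vale.Agent.P110

open Real Finset

/-- Multipliers that do not increase the sup norm of real trigonometric sums. -/
def Mix (h : ℕ → ℂ) : Prop := ∀ (S : Finset ℕ) (b : ℕ → ℂ) (B : ℝ),
  (∀ x : ℝ, |∑ j ∈ S, (b j * ee (j * x)).re| ≤ B) → ∀ x : ℝ, |∑ j ∈ S, (b j * h j * ee (j * x)).re| ≤ B

lemma Mix.mul {h g : ℕ → ℂ} (hh : Mix h) (hg : Mix g) : Mix fun j => h j * g j := by
  intro S b B H x
  simpa only [mul_assoc] using hg S (fun j => b j * h j) B (hh S b B H) x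

lemma mix_ee (t : ℝ) : Mix fun j => ee (j * t) := by
  intro S b B H x
  have := H (t + x)
  simpa only [mul_add, ee_add, mul_assoc] using this

lemma mix_one : Mix fun _ => 1 := by simpa using mix_ee 0

lemma mix_real {a : ℝ} (h0 : 0 ≤ a) (h1 : a ≤ 1) : Mix fun _ => (a : ℂ) := by
  intro S b B H x
  have e : ∀ j ∈ S, (b j * a * ee (j * x)).re = a * (b j * ee (j * x)).re := by
    intro j _
    rw [← Complex.re_ofReal_mul]; congr 1; ring
  rw [Finset.sum_congr rfl e, ← Finset.mul_sum, abs_mul, abs_of_nonneg h0]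
  exact (mul_le_of_le_one_left (abs_nonneg _) h1).trans (H x)

lemma mix_prod {ι : Type*} (s : Finset ι) (h : ι → ℕ → ℂ) (hh : ∀ i, Mix (h i)) :
    Mix fun j => ∏ i ∈ s, h i j := by
  classical
  induction s using Finset.induction_on with
  | empty => simpa using mix_one
  | insert a s ha ih => simpa only [Finset.prod_insert ha] using (hh a).mul ih

lemma mix_dvd {d : ℕ} (hd : 0 < d) : Mix fun j => if d ∣ j then 1 else 0 := by
  intro S b B H x
  have hdr : (0 : ℝ) < d := by exact_mod_cast hd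
  have e : ∀ j ∈ S, (b j * (if d ∣ j then 1 else 0) * ee (j * x)).re
      = (1 / d) * ∑ t ∈ range d, (b j * ee (j * (t / d + x))).re := by
    intro j _
    have := sum_ee_period d hd j
    rw [← Complex.re_sum, ← Complex.re_ofReal_mul]
    congr 1
    have e2 : ∀ t ∈ range d, b j * ee (j * (t / d + x)) = b j * ee (j * x) * ee ((j : ℤ) * t / d) := by
      intro t _; rw [mul_assoc, ← ee_add]; congr 2; push_cast; ring
    rw [Finset.sum_congr rfl e2, ← Finset.mul_sum, this]
    have : (d : ℂ) ≠ 0 := by exact_mod_cast hd.ne'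
    simp only [Int.natCast_dvd_natCast]
    split_ifs
    · push_cast; field_simp
    · simp
  rw [Finset.sum_congr rfl e, ← Finset.mul_sum, Finset.sum_comm, abs_mul,
    abs_of_pos (by positivity), one_div, inv_mul_le_iff₀ hdr]
  refine (Finset.abs_sum_le_sum_abs _ _).trans ((Finset.sum_le_sum fun t _ => H _).trans ?_)
  simp

lemma atom {l r d : ℕ} (hl : l.Prime) (hr : 0 < r) (hd : 0 < d) (hdl : d ∣ l - 1) :
    ∃ η : ℕ → (Fin r → Fin l) → ℂ, (∀ γ, Mix fun j => η j γ) ∧ ∀ (j : ℕ) (n : Fin r → ℕ),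
      ‖∑ γ, η j γ * ∏ t, ee (n t * (γ t : ℕ) / l)‖ ^ 2 =
        if d ∣ j then (if ∀ t, l ∣ n t then ((l : ℝ) ^ r) ^ 2 else 0)
        else (if ∀ t, l ∣ n t then 0 else (l : ℝ) ^ r) := by
  classical
  haveI := Fact.mk hl
  set F := GaloisField l r
  haveI : Fintype F := Fintype.ofFinite F
  have hc : Fintype.card F = l ^ r := by
    rw [← Nat.card_eq_fintype_card]; exact GaloisField.card l r hr.ne'
  let b : F ≃ₗ[ZMod l] (Fin r → ZMod l) :=
    (Module.finBasisOfFinrankEq (ZMod l) F (GaloisField.finrank l hr.ne')).equivFun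
  obtain ⟨χ, hχ⟩ := MulChar.exists_mulChar_orderOf F (R := ℂ) (n := d)
    (by rw [hc]; exact hdl.trans (Nat.sub_one_dvd_pow_sub_one l r))
    (Complex.isPrimitiveRoot_exp d hd.ne')
  let e : (Fin r → Fin l) → F := fun γ => b.symm fun t => ((γ t : ℕ) : ZMod l)
  have he : Function.Bijective e := by
    rw [Fintype.bijective_iff_injective_and_card]
    refine ⟨fun γ γ' h => funext fun t => Fin.ext ?_, by simp [hc]⟩
    have := congrFun (b.symm.injective h) t
    rw [ZMod.natCast_eq_natCast_iff'] at this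
    rwa [Nat.mod_eq_of_lt (γ t).isLt, Nat.mod_eq_of_lt (γ' t).isLt] at this
  let g : ℕ → F → ℂ := fun j y => if y = 0 then (if d ∣ j then 1 else 0) else χ y ^ j
  refine ⟨fun j γ => g j (e γ), fun γ => ?_, fun j n => ?_⟩
  · by_cases h : e γ = 0
    · simpa only [g, if_pos h] using mix_dvd hd
    · obtain ⟨ζ, h1, h2⟩ := χ.apply_mem_rootsOfUnity_orderOf h
      haveI : NeZero (orderOf χ) := ⟨by rw [hχ]; exact hd.ne'⟩
      obtain ⟨t, ht⟩ := exists_ee (Complex.norm_eq_one_of_mem_rootsOfUnity h1)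
      simpa only [g, if_neg h, ← h2, ht, ee_pow] using mix_ee t
  let φ : F →+ ZMod l :=
    { toFun := fun y => ∑ t, (n t : ZMod l) * b y t
      map_zero' := by simp
      map_add' := fun y z => by simp [mul_add, Finset.sum_add_distrib] }
  let ψ : AddChar F ℂ := (ZMod.stdAddChar (N := l)).compAddMonoidHom φ
  have hψ : ∀ γ, ∏ t, ee (n t * (γ t : ℕ) / l) = ψ (e γ) := by
    intro γ
    have : φ (e γ) = ((∑ t, (n t : ℤ) * (γ t : ℕ) : ℤ) : ZMod l) := by simp [φ, e]
    simp only [ψ, AddChar.compAddMonoidHom_apply, this, ZMod.stdAddChar_coe]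
    rw [← ee_sum, ← Finset.sum_div]
    unfold ee
    congr 1; push_cast; ring
  have hψ1 : ψ = 1 ↔ ∀ t, l ∣ n t := by
    constructor
    · intro h t
      have := DFunLike.congr_fun h (b.symm (Pi.single t 1))
      simp only [ψ, AddChar.compAddMonoidHom_apply, AddChar.one_apply] at this
      rw [← (ZMod.stdAddChar (N := l)).map_zero_eq_one, ZMod.injective_stdAddChar.eq_iff] at this
      simp [φ, Pi.single_apply] at this
      exact (ZMod.natCast_eq_zero_iff _ _).1 this
    · intro h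
      ext y
      have : φ y = 0 := by
        show ∑ t, (n t : ZMod l) * b y t = 0
        exact Finset.sum_eq_zero fun t _ => by
          rw [(ZMod.natCast_eq_zero_iff _ _).2 (h t), zero_mul]
      simp [ψ, this]
  simp only [hψ]
  rw [he.sum_comp (fun y => g j y * ψ y)]
  simp only [← hψ1]
  by_cases hj : d ∣ j
  · have : ∀ y, g j y = 1 := by
      intro y
      simp only [g, if_pos hj]
      split_ifs with h
      · rfl
      · have h1 : χ ^ j = 1 := by rw [← orderOf_dvd_iff_pow_eq_one, hχ]; exact hj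
        have := MulChar.pow_apply_coe χ j (Units.mk0 y h)
        rw [h1, MulChar.one_apply_coe] at this
        exact this.symm
    simp only [this, one_mul, if_pos hj]
    split_ifs with h
    · simp [h, hc]
    · simp [AddChar.sum_eq_zero_of_ne_one h]
  · have hj0 : j ≠ 0 := fun h => hj (h ▸ dvd_zero d)
    have h1 : χ ^ j ≠ 1 := by rw [Ne, ← orderOf_dvd_iff_pow_eq_one, hχ]; exact hj
    have : ∀ y, g j y = (χ ^ j) y := by
      intro y
      simp only [g, if_neg hj]
      split_ifs with h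
      · rw [h, MulChar.map_zero]
      · rw [MulChar.pow_apply' χ hj0]
    simp only [this, if_neg hj]
    change ‖gaussSum (χ ^ j) ψ‖ ^ 2 = _
    split_ifs with h
    · rw [h, gaussSum_one_right h1]; simp
    · have := gaussSum_mul_gaussSum_eq_card h1 (AddChar.IsPrimitive.of_ne_one h)
      rw [← star_gaussSum_eq, ← starRingEnd_apply, Complex.mul_conj, Complex.normSq_eq_norm_sq,
        hc] at this
      exact_mod_cast this

lemma dense_pow {l l' : ℕ} (hl : l.Prime) (hl' : l'.Prime) (hne : l ≠ l') {η : ℝ} (hη : 0 < η) :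
    ∃ Y0 : ℝ, ∀ Y, Y0 ≤ Y → ∃ r r' : ℕ, 0 < r ∧ 0 < r' ∧
      Y ≤ r * Real.log l + r' * Real.log l' ∧ r * Real.log l + r' * Real.log l' ≤ Y + η := by
  set α := Real.log l
  set β := Real.log l'
  have hα : 0 < α := Real.log_pos (by exact_mod_cast hl.one_lt)
  have hβ : 0 < β := Real.log_pos (by exact_mod_cast hl'.one_lt)
  obtain ⟨u, v, h1, h2⟩ : ∃ u v : ℤ, 0 < u * α + v * β ∧ u * α + v * β ≤ η := by
    obtain ⟨n, hn⟩ := exists_nat_gt (β / η)
    obtain ⟨j, k, hk, -, h⟩ := Real.exists_int_int_abs_mul_sub_le (α / β) (Nat.succ_pos n)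
    have e : (k : ℝ) * (α / β) - j = (k * α - j * β) / β := by field_simp
    rw [e, abs_div, abs_of_pos hβ, div_le_iff₀ hβ] at h
    have h3 : |k * α - j * β| ≤ η := by
      refine h.trans ?_
      rw [div_lt_iff₀ hη] at hn
      rw [one_div_mul_eq_div, div_le_iff₀ (by positivity)]
      push_cast; nlinarith
    have h4 : k * α - j * β ≠ 0 := by
      intro h0
      have hkr : (0 : ℝ) < k := by exact_mod_cast hk
      have hj : 0 ≤ j := by
        have : (0 : ℝ) < j * β := by nlinarith [mul_pos hkr hα]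
        have := (pos_iff_pos_of_mul_pos this).2 hβ
        exact_mod_cast this.le
      lift k to ℕ using hk.le
      lift j to ℕ using hj
      have : Real.log ((l ^ k : ℕ) : ℝ) = Real.log ((l' ^ j : ℕ) : ℝ) := by
        push_cast at h0 ⊢; rw [Real.log_pow, Real.log_pow]; linarith
      have := Real.log_injOn_pos (by have := hl.pos; simp only [Set.mem_Ioi]; positivity)
        (by have := hl'.pos; simp only [Set.mem_Ioi]; positivity) this
      have h5 : l ^ k = l' ^ j := by exact_mod_cast this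
      have h6 : l ∣ l' ^ j := h5 ▸ dvd_pow_self l (by omega)
      exact hne ((Nat.prime_dvd_prime_iff_eq hl hl').1 (hl.dvd_of_dvd_pow h6))
    rcases lt_or_gt_of_ne h4 with h5 | h5
    · exact ⟨-k, j, by push_cast; linarith, by push_cast; linarith [(abs_le.1 h3).1]⟩
    · exact ⟨k, -j, by push_cast; linarith, by push_cast; linarith [(abs_le.1 h3).2]⟩
  set δ := u * α + v * β with hδ
  set m0 := ⌈α / δ⌉₊ with hm0
  refine ⟨(1 + m0 * u.natAbs : ℕ) * α + (1 + m0 * v.natAbs : ℕ) * β, fun Y hY => ?_⟩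
  set Z := Y - ((1 + m0 * u.natAbs : ℕ) * α + (1 + m0 * v.natAbs : ℕ) * β) with hZ
  have hZ0 : 0 ≤ Z := by linarith
  set t := ⌊Z / α⌋₊ with ht
  have t1 : (t : ℝ) * α ≤ Z := by rw [← le_div_iff₀ hα]; exact Nat.floor_le (by positivity)
  have t2 : Z < (t + 1) * α := by rw [← div_lt_iff₀ hα]; exact Nat.lt_floor_add_one _
  set m := ⌈(Z - t * α) / δ⌉₊ with hm
  have m1 : Z - t * α ≤ m * δ := by rw [← div_le_iff₀ h1]; exact Nat.le_ceil _
  have m2 : m * δ < Z - t * α + δ := by
    have := Nat.ceil_lt_add_one (show 0 ≤ (Z - t * α) / δ from div_nonneg (by linarith) h1.le)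
    rw [← hm, div_add_one h1.ne', lt_div_iff₀ h1] at this
    exact this
  have m3 : m ≤ m0 := Nat.ceil_mono (div_le_div_of_nonneg_right (by linarith) h1.le)
  have p : ∀ w : ℤ, ∀ c : ℕ, ∃ r : ℕ, 0 < r ∧ (r : ℤ) = (1 + m0 * w.natAbs : ℕ) + c + m * w := by
    intro w c
    have a1 : (m : ℤ) * w.natAbs ≤ m0 * w.natAbs :=
      mul_le_mul_of_nonneg_right (by exact_mod_cast m3) (by positivity)
    have a2 : (m : ℤ) * (-w) ≤ m * w.natAbs :=
      mul_le_mul_of_nonneg_left (by omega) (by positivity)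
    refine ⟨((1 + m0 * w.natAbs : ℕ) + c + m * w : ℤ).toNat, ?_, Int.toNat_of_nonneg ?_⟩
    · rw [Int.lt_toNat]; push_cast at *; linarith [(Nat.cast_nonneg c : (0:ℤ) ≤ c)]
    · push_cast at *; linarith [(Nat.cast_nonneg c : (0:ℤ) ≤ c)]
  obtain ⟨r, r1, r2⟩ := p u t
  obtain ⟨r', r1', r2'⟩ := p v 0
  have e1 : (r : ℝ) = ((1 + m0 * u.natAbs : ℕ) : ℝ) + t + m * u := by
    have := congrArg (Int.cast : ℤ → ℝ) r2
    simpa only [Int.cast_add, Int.cast_mul, Int.cast_natCast] using this
  have e2 : (r' : ℝ) = ((1 + m0 * v.natAbs : ℕ) : ℝ) + (0 : ℕ) + m * v := by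
    have := congrArg (Int.cast : ℤ → ℝ) r2'
    simpa only [Int.cast_add, Int.cast_mul, Int.cast_natCast] using this
  have e3 : r * α + r' * β = Y - Z + t * α + m * δ := by
    rw [e1, e2, hZ, hδ]; push_cast; ring
  exact ⟨r, r', r1, r1', by linarith, by linarith⟩

end Vale.Agent.P110
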