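import Mathlib

namespace Vale.Agent.P110

open Complex Real Finset

/-- `ee x = exp (2 π i x)`. -/
noncomputable def ee (x : ℝ) : ℂ := Complex.exp (2 * π * Complex.I * x)

lemma ee_add (x y : ℝ) : ee (x + y) = ee x * ee y := by
  unfold ee; rw [← Complex.exp_add]; congr 1; push_cast; ring

@[simp] lemma ee_zero : ee 0 = 1 := by simp [ee]

lemma ee_eq (x : ℝ) : ee x = Complex.exp (Complex.I * ((2 * π * x : ℝ) : ℂ)) := by
  unfold ee; congr 1; push_cast; ring

@[simp] lemma norm_ee (x : ℝ) : ‖ee x‖ = 1 := by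
  rw [ee_eq, mul_comm]; exact Complex.norm_exp_ofReal_mul_I _

lemma ee_ne_zero (x : ℝ) : ee x ≠ 0 := Complex.exp_ne_zero _

lemma ee_int (n : ℤ) : ee n = 1 := by
  unfold ee
  have : (2 * π * Complex.I * ((n : ℝ) : ℂ)) = n * (2 * π * Complex.I) := by push_cast; ring
  rw [this, Complex.exp_int_mul_two_pi_mul_I]

lemma ee_nat (n : ℕ) : ee n = 1 := by
  have := ee_int n; simpa using this

lemma ee_add_int (x : ℝ) (n : ℤ) : ee (x + n) = ee x := by rw [ee_add, ee_int, mul_one]

lemma ee_congr {x y : ℝ} (n : ℤ) (h : x = y + n) : ee x = ee y := by rw [h, ee_add_int]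

lemma conj_ee (x : ℝ) : (starRingEnd ℂ) (ee x) = ee (-x) := by
  unfold ee
  rw [← Complex.exp_conj]
  congr 1
  simp only [map_mul, Complex.conj_ofReal, Complex.conj_I, map_ofNat]
  push_cast; ring

lemma ee_mul_neg (x : ℝ) : ee x * ee (-x) = 1 := by rw [← ee_add]; simp

lemma ee_sub (x y : ℝ) : ee (x - y) = ee x * ee (-y) := by rw [← ee_add]; ring_nf

lemma ee_pow (x : ℝ) (n : ℕ) : ee x ^ n = ee (n * x) := by
  induction n with
  | zero => simp
  | succ n ih => rw [pow_succ, ih, ← ee_add]; congr 1; push_cast; ring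

lemma ee_sum {ι : Type*} (s : Finset ι) (f : ι → ℝ) : ee (∑ i ∈ s, f i) = ∏ i ∈ s, ee (f i) := by
  classical
  induction s using Finset.induction_on with
  | empty => simp
  | insert a s ha ih => rw [Finset.sum_insert ha, Finset.prod_insert ha, ee_add, ih]

lemma norm_ee_sub_one_le (x : ℝ) : ‖ee x - 1‖ ≤ 7 * |x| := by
  rw [ee_eq]
  refine Real.norm_exp_I_mul_ofReal_sub_one_le.trans ?_
  rw [Real.norm_eq_abs, abs_mul, abs_of_pos (by positivity : (0:ℝ) < 2 * π)]
  have := Real.pi_lt_d2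
  have := abs_nonneg x
  nlinarith

lemma norm_ee_sub_le (x y : ℝ) : ‖ee x - ee y‖ ≤ 7 * |x - y| := by
  have : ee x - ee y = ee y * (ee (x - y) - 1) := by
    rw [mul_sub, ← ee_add]; simp
  rw [this, norm_mul, norm_ee, one_mul]
  exact norm_ee_sub_one_le _

lemma norm_ee_sub_one (x : ℝ) : ‖ee x - 1‖ = 2 * |Real.sin (π * x)| := by
  rw [ee_eq, Complex.norm_exp_I_mul_ofReal_sub_one, Real.norm_eq_abs, abs_mul]
  have : 2 * π * x / 2 = π * x := by ring
  rw [this]; norm_num

lemma sin_lower {x : ℝ} (h0 : 0 ≤ x) (h1 : x ≤ 1 / 2) : 2 * x ≤ Real.sin (π * x) := by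
  have hp := Real.pi_pos
  have := Real.mul_le_sin (x := π * x) (by positivity) (by nlinarith)
  have e : 2 / π * (π * x) = 2 * x := by field_simp
  linarith

lemma sin_lower' {lam x : ℝ} (hl : 0 ≤ lam) (h0 : lam ≤ x) (h1 : x ≤ 1 - lam) :
    2 * lam ≤ Real.sin (π * x) := by
  rcases le_total x (1 / 2) with h | h
  · have := sin_lower (x := x) (by linarith) h; linarith
  · have := sin_lower (x := 1 - x) (by linarith) (by linarith)
    have e : Real.sin (π * (1 - x)) = Real.sin (π * x) := by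
      rw [mul_sub, mul_one, Real.sin_pi_sub]
    linarith

lemma norm_ee_sub_one_ge {x : ℝ} (h : |x| ≤ 1 / 2) : 4 * |x| ≤ ‖ee x - 1‖ := by
  rw [norm_ee_sub_one]
  have h1 := sin_lower (abs_nonneg x) h
  have : Real.sin (π * |x|) = |Real.sin (π * x)| := by
    rcases le_total 0 x with h0 | h0
    · rw [abs_of_nonneg h0] at *
      rw [abs_of_nonneg]; linarith
    · rw [abs_of_nonpos h0] at *
      have e : Real.sin (π * -x) = - Real.sin (π * x) := by rw [mul_neg, Real.sin_neg]
      rw [e] at h1 ⊢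
      rw [abs_of_nonpos]; linarith
  linarith

lemma ee_re (x : ℝ) : (ee x).re = Real.cos (2 * π * x) := by
  rw [ee_eq, mul_comm]; exact Complex.exp_ofReal_mul_I_re _

lemma ee_im (x : ℝ) : (ee x).im = Real.sin (2 * π * x) := by
  rw [ee_eq, mul_comm]; exact Complex.exp_ofReal_mul_I_im _

lemma exists_ee {z : ℂ} (hz : ‖z‖ = 1) : ∃ x : ℝ, z = ee x := by
  refine ⟨Complex.arg z / (2 * π), ?_⟩
  have hp : (π : ℂ) ≠ 0 := by exact_mod_cast Real.pi_ne_zero
  have h := Complex.norm_mul_exp_arg_mul_I z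
  rw [hz] at h
  unfold ee
  have e : 2 * π * Complex.I * ((Complex.arg z / (2 * π) : ℝ) : ℂ) = Complex.arg z * Complex.I := by
    push_cast; field_simp
  rw [e]; simpa using h.symm

lemma continuous_ee : Continuous ee := by unfold ee; fun_prop

/-- Geometric sum over a full period. -/
lemma sum_ee_period (G : ℕ) (hG : 0 < G) (k : ℤ) :
    ∑ m ∈ range G, ee (k * m / G) = if (G : ℤ) ∣ k then (G : ℂ) else 0 := by
  have hGr : (G : ℝ) ≠ 0 := by positivity
  split_ifs with h
  · obtain ⟨c, rfl⟩ := h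
    have : ∀ m ∈ range G, ee ((((G : ℤ) * c : ℤ) : ℝ) * m / G) = 1 := by
      intro m _
      rw [← ee_int (c * m)]; congr 1; push_cast; field_simp
    rw [Finset.sum_congr rfl this]; simp
  · have e : ∀ m ∈ range G, ee (k * m / G) = ee (k / G) ^ m := by
      intro m _; rw [ee_pow]; congr 1; ring
    rw [Finset.sum_congr rfl e]
    have hne : ee (k / G) ≠ 1 := by
      intro h1
      apply h
      rw [ee_eq, Complex.exp_eq_one_iff] at h1
      obtain ⟨n, hn⟩ := h1
      have hp : (π : ℂ) ≠ 0 := by exact_mod_cast Real.pi_ne_zero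
      have hGc : (G : ℂ) ≠ 0 := by exact_mod_cast hG.ne'
      have : (k : ℂ) = G * n := by
        push_cast at hn
        field_simp at hn
        linear_combination hn
      exact ⟨n, by exact_mod_cast this⟩
    rw [geom_sum_eq hne, ee_pow]
    have : ee (G * (k / G)) = 1 := by
      rw [← ee_int k]; congr 1; field_simp
    rw [this]; simp

end Vale.Agent.P110
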