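import Vale.Agent.P110.Pack3

namespace Vale.Agent.P110

open Finset

structure Tiling {A : Type} (Q : ℕ) (len : A → ℕ) (s : A → ℤ) : Prop where
  inj : ∀ α (i : ℕ) α' (i' : ℕ), i < len α → i' < len α' → s α + i ≡ s α' + i' [ZMOD Q] →
    α = α' ∧ i = i'
  mir : ∀ α (i : ℕ) α' (i' : ℕ), i < len α → i' < len α' → ¬ s α + i ≡ -(s α' + i') - 1 [ZMOD Q]
  surj : ∀ m : ℤ, ∃ α, ∃ i : ℕ, i < len α ∧ (m ≡ s α + i [ZMOD Q] ∨ m ≡ -(s α + i) - 1 [ZMOD Q])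

lemma Tiling.card {A : Type} [Fintype A] {Q : ℕ} (hQ : 0 < Q) {len : A → ℕ} {s : A → ℤ}
    (h : Tiling Q len s) : 2 * ∑ α, len α ≤ Q := by
  haveI : NeZero Q := ⟨hQ.ne'⟩
  have := Fintype.card_le_of_injective
    (fun p : (Σ α, Fin (len α)) × Bool =>
      if p.2 then ((s p.1.1 + (p.1.2 : ℕ) : ℤ) : ZMod Q) else ((-(s p.1.1 + (p.1.2 : ℕ)) - 1 : ℤ) : ZMod Q))
    (by
      rintro ⟨⟨α, i⟩, _ | _⟩ ⟨⟨α', i'⟩, _ | _⟩ e <;>
        simp only [if_true, Bool.false_eq_true, if_false, ZMod.intCast_eq_intCast_iff] at e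
      · obtain ⟨rfl, e2⟩ := h.inj α i α' i' i.isLt i'.isLt
          (Int.neg_modEq_neg.1 (by simpa using e.add_right 1))
        rw [Fin.ext e2]
      · exact absurd e.symm (h.mir _ _ _ _ i'.isLt i.isLt)
      · exact absurd e (h.mir _ _ _ _ i.isLt i'.isLt)
      · obtain ⟨rfl, e2⟩ := h.inj α i α' i' i.isLt i'.isLt e
        rw [Fin.ext e2])
  simp only [Fintype.card_prod, Fintype.card_sigma, Fintype.card_fin, Fintype.card_bool,
    ZMod.card] at this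
  omega

lemma modEq_cell {Q M : ℕ} {x x' : ℤ} {r r' : ℕ} (hr : r < M) (hr' : r' < M)
    (h : x * M + r ≡ x' * M + r' [ZMOD (Q * M : ℕ)]) : x ≡ x' [ZMOD Q] ∧ r = r' := by
  obtain ⟨c, hc⟩ := Int.modEq_iff_dvd.1 h
  have h1 : (r : ℤ) ≡ r' [ZMOD M] :=
    Int.modEq_iff_dvd.2 ⟨Q * c + x - x', by push_cast at hc; linear_combination hc⟩
  have h2 := eq_of_modEq h1 hr hr'
  refine ⟨Int.modEq_iff_dvd.2 ⟨c, ?_⟩, h2⟩
  have hM : (M : ℤ) ≠ 0 := by omega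
  apply mul_right_cancel₀ hM
  rw [h2] at hc; push_cast at hc; linear_combination hc

lemma Tiling.refine {A : Type} {Q : ℕ} {len : A → ℕ} {s : A → ℤ} (h : Tiling Q len s) {M : ℕ}
    (hM : 0 < M) : Tiling (Q * M) (fun α => len α * M) (fun α => s α * M) := by
  have dec : ∀ α (i : ℕ), s α * M + i = (s α + (i / M : ℕ)) * M + (i % M : ℕ) := by
    intro α i
    have := congrArg (Nat.cast : ℕ → ℤ) (Nat.div_add_mod i M)
    rw [Nat.cast_add, Nat.cast_mul] at this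
    linear_combination -this
  have dec2 : ∀ (x : ℤ) (r : ℕ), r < M → -(x * M + r) - 1 = (-x - 1) * M + (M - 1 - r : ℕ) := by
    intro x r hr
    rw [Nat.cast_sub (by omega), Nat.cast_sub (by omega)]; push_cast; ring
  refine ⟨fun α i α' i' hi hi' e => ?_, fun α i α' i' hi hi' e => ?_, fun m => ?_⟩
  · rw [dec, dec] at e
    obtain ⟨e1, e2⟩ := modEq_cell (Nat.mod_lt _ hM) (Nat.mod_lt _ hM) e
    obtain ⟨e3, e4⟩ := h.inj _ _ _ _ ((Nat.div_lt_iff_lt_mul hM).2 hi)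
      ((Nat.div_lt_iff_lt_mul hM).2 hi') e1
    refine ⟨e3, ?_⟩
    rw [← Nat.div_add_mod i M, ← Nat.div_add_mod i' M, e2, e4]
  · rw [dec, dec α', dec2 _ _ (Nat.mod_lt _ hM)] at e
    exact h.mir _ _ _ _ ((Nat.div_lt_iff_lt_mul hM).2 hi) ((Nat.div_lt_iff_lt_mul hM).2 hi')
      (modEq_cell (Nat.mod_lt _ hM) (by have := Nat.mod_lt i' hM; omega) e).1
  · have hM' : (0 : ℤ) < M := by exact_mod_cast hM
    obtain ⟨α, i, hi, e⟩ := h.surj (m / M)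
    obtain ⟨r, hr, hm⟩ : ∃ r : ℕ, r < M ∧ m = m / M * M + r := by
      refine ⟨(m % M).toNat, ?_, ?_⟩
      · have := Int.emod_lt_of_pos m hM'; omega
      · rw [Int.toNat_of_nonneg (Int.emod_nonneg _ hM'.ne'), mul_comm]
        exact (Int.mul_ediv_add_emod m M).symm
    have bound : ∀ r' : ℕ, r' < M → i * M + r' < len α * M := fun r' hr' => by
      have := Nat.mul_le_mul_right M (show i + 1 ≤ len α from hi)
      rw [add_mul] at this; omega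
    rcases e with e | e
    · refine ⟨α, i * M + r, bound r hr, Or.inl ?_⟩
      obtain ⟨c, hc⟩ := Int.modEq_iff_dvd.1 e
      exact Int.modEq_iff_dvd.2 ⟨c, by push_cast; linear_combination M * hc - hm⟩
    · refine ⟨α, i * M + (M - 1 - r), bound _ (by omega), Or.inr ?_⟩
      obtain ⟨c, hc⟩ := Int.modEq_iff_dvd.1 e
      refine Int.modEq_iff_dvd.2 ⟨c, ?_⟩
      rw [Nat.cast_add, Nat.cast_sub (by omega), Nat.cast_sub (by omega)]
      push_cast; linear_combination M * hc - hm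

theorem cells {ι : Type} [Fintype ι] [DecidableEq ι] [Nonempty ι] (j : ι → ℕ) (m : ι → ℤ)
    (hj : ∀ ν, Odd (j ν)) (hdet : ∀ ν ν', ν ≠ ν' → (j ν : ℤ) * m ν' ≠ j ν' * m ν) {δ : ℝ}
    (hδ : 0 < δ) :
    ∃ (Q0 : ℕ) (B L : Type) (_ : Fintype B) (_ : Fintype L) (z0 z1 : B → ℤ) (sL : L → ℤ), 0 < Q0 ∧
      Tiling (A := (B × ι) ⊕ L) (2 * Q0) (Sum.elim (fun p => j p.2) fun _ => 1)
        (Sum.elim (fun p => j p.2 * z0 p.1 + m p.2 * z1 p.1) sL) ∧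
      (1 - δ) * (2 * Q0 : ℕ) ≤ Fintype.card B * (2 * ∑ ν, (j ν : ℝ)) := by
  classical
  obtain ⟨Q, B, _, z0, z1, hQ, ⟨Q0, hQ0⟩, h1, h2, h3⟩ := pack j m hj hdet hδ
  rw [← two_mul] at hQ0
  subst hQ0
  let Cov : ℤ → Prop := fun c => ∃ b ν, ∃ i : ℕ, i < j ν ∧
    (c ≡ j ν * z0 b + m ν * z1 b + i [ZMOD (2 * Q0 : ℕ)] ∨
      c ≡ -(j ν * z0 b + m ν * z1 b + i) - 1 [ZMOD (2 * Q0 : ℕ)])
  have flip : ∀ {x y : ℤ}, x ≡ -y - 1 [ZMOD (2 * Q0 : ℕ)] → y ≡ -x - 1 [ZMOD (2 * Q0 : ℕ)] := by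
    intro x y h
    obtain ⟨c, hc⟩ := Int.modEq_iff_dvd.1 h
    exact Int.modEq_iff_dvd.2 ⟨c, by linear_combination hc⟩
  refine ⟨Q0, B, {c : Fin Q0 // ¬ Cov (c : ℕ)}, inferInstance, inferInstance, z0, z1,
    fun c => (c.1 : ℕ), by omega, ⟨?_, ?_, ?_⟩, h3⟩
  · rintro (⟨b, ν⟩ | c) i (⟨b', ν'⟩ | c') i' hi hi' e <;>
      simp only [Sum.elim_inl, Sum.elim_inr, Nat.lt_one_iff] at hi hi' e
    · obtain ⟨rfl, rfl, rfl⟩ := h1 _ _ _ _ _ _ hi hi' e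
      exact ⟨rfl, rfl⟩
    · subst hi'
      exact absurd ⟨b, ν, i, hi, Or.inl (by simpa using e.symm)⟩ c'.2
    · subst hi
      exact absurd ⟨b', ν', i', hi', Or.inl (by simpa using e)⟩ c.2
    · subst hi hi'
      simp only [Nat.cast_zero, add_zero] at e
      have := eq_of_modEq e (by have := c.1.isLt; omega) (by have := c'.1.isLt; omega)
      exact ⟨congrArg _ (Subtype.ext (Fin.ext this)), rfl⟩
  · rintro (⟨b, ν⟩ | c) i (⟨b', ν'⟩ | c') i' hi hi' e <;>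
      simp only [Sum.elim_inl, Sum.elim_inr, Nat.lt_one_iff] at hi hi' e
    · exact h2 _ _ _ _ _ _ hi hi' e
    · subst hi'
      exact c'.2 ⟨b, ν, i, hi, Or.inr (by simpa using flip e)⟩
    · subst hi
      exact c.2 ⟨b', ν', i', hi', Or.inr (by simpa using e)⟩
    · subst hi hi'
      have h4 := (Int.modEq_iff_dvd.1 e).neg_right
      have h5 : 2 * Q0 ∣ (c.1 : ℕ) + (c'.1 : ℕ) + 1 := by
        rw [← Int.natCast_dvd_natCast]
        refine h4.trans (dvd_of_eq ?_)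
        push_cast; ring
      have := Nat.le_of_dvd (by omega) h5
      have := c.1.isLt
      have := c'.1.isLt
      omega
  · intro x
    by_cases hx : Cov x
    · obtain ⟨b, ν, i, hi, e⟩ := hx
      exact ⟨Sum.inl (b, ν), i, hi, e⟩
    have hQ' : (0 : ℤ) < (2 * Q0 : ℕ) := by exact_mod_cast hQ
    obtain ⟨v, hv, e⟩ : ∃ v : ℕ, v < 2 * Q0 ∧ x ≡ v [ZMOD (2 * Q0 : ℕ)] := by
      refine ⟨(x % (2 * Q0 : ℕ)).toNat, ?_, ?_⟩
      · have := Int.emod_lt_of_pos x hQ'; omega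
      · rw [Int.toNat_of_nonneg (Int.emod_nonneg _ hQ'.ne')]; exact (Int.mod_modEq _ _).symm
    by_cases hlt : v < Q0
    · refine ⟨Sum.inr ⟨⟨v, hlt⟩, ?_⟩, 0, by simp, Or.inl (by simpa using e)⟩
      rintro ⟨b, ν, i, hi, e' | e'⟩
      · exact hx ⟨b, ν, i, hi, Or.inl (e.trans e')⟩
      · exact hx ⟨b, ν, i, hi, Or.inr (e.trans e')⟩
    · have e2 : x ≡ -((2 * Q0 - 1 - v : ℕ) : ℤ) - 1 [ZMOD (2 * Q0 : ℕ)] := by
        refine e.trans (Int.modEq_iff_dvd.2 ⟨-1, ?_⟩)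
        rw [Nat.cast_sub (by omega), Nat.cast_sub (by omega)]; push_cast; ring
      refine ⟨Sum.inr ⟨⟨2 * Q0 - 1 - v, by omega⟩, ?_⟩, 0, by simp, Or.inr (by simpa using e2)⟩
      rintro ⟨b, ν, i, hi, e' | e'⟩
      · exact hx ⟨b, ν, i, hi, Or.inr (e2.trans (e'.neg.sub_right 1))⟩
      · exact hx ⟨b, ν, i, hi, Or.inl (e2.trans (flip e').symm)⟩

end Vale.Agent.P110
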