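import Mathlib

namespace Vale.Agent.P110

open Finset

variable {κ I : Type*} [DecidableEq κ]

def sg (T : Finset κ) (k : κ) : ℝ := if k ∈ T then 1 else -1

lemma moments (a : κ → ℝ) (ha : ∀ k, |a k| ≤ 1) (S : Finset κ) :
    ∑ T ∈ S.powerset, (∑ k ∈ S, sg T k * a k) ^ 2 ≤ 2 ^ S.card * S.card ∧
    ∑ T ∈ S.powerset, (∑ k ∈ S, sg T k * a k) ^ 4 ≤ 2 ^ S.card * (3 * S.card ^ 2) := by
  induction S using Finset.induction_on with
  | empty => simp
  | insert x s hx ih =>
    have e1 : ∀ T ∈ s.powerset, ∑ k ∈ insert x s, sg T k * a k = -a x + ∑ k ∈ s, sg T k * a k := by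
      intro T hT
      have : x ∉ T := fun h => hx (Finset.mem_powerset.1 hT h)
      rw [Finset.sum_insert hx]; simp [sg, this]
    have e2 : ∀ T ∈ s.powerset,
        ∑ k ∈ insert x s, sg (insert x T) k * a k = a x + ∑ k ∈ s, sg T k * a k := by
      intro T _
      rw [Finset.sum_insert hx]
      congr 1
      · simp [sg]
      · refine Finset.sum_congr rfl fun k hk => ?_
        have : k ≠ x := fun h => hx (h ▸ hk)
        simp [sg, this]
    have h2 : a x ^ 2 ≤ 1 := by rw [← sq_abs]; nlinarith [ha x, abs_nonneg (a x)]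
    have h0 := sq_nonneg (a x)
    rw [Finset.sum_powerset_insert hx, Finset.sum_powerset_insert hx, ← Finset.sum_add_distrib,
      ← Finset.sum_add_distrib, Finset.card_insert_of_notMem hx]
    have hp : (0 : ℝ) < 2 ^ s.card := by positivity
    constructor
    · refine (Finset.sum_le_sum (g := fun T => 2 * (∑ k ∈ s, sg T k * a k) ^ 2 + 2)
        fun T hT => ?_).trans ?_
      · rw [e1 T hT, e2 T hT]; nlinarith
      · rw [Finset.sum_add_distrib, ← Finset.mul_sum]
        simp only [Finset.sum_const, Finset.card_powerset, nsmul_eq_mul]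
        push_cast; rw [pow_succ (2:ℝ) s.card]; nlinarith [ih.1]
    · refine (Finset.sum_le_sum (g := fun T => 2 * (∑ k ∈ s, sg T k * a k) ^ 4
        + 12 * (∑ k ∈ s, sg T k * a k) ^ 2 + 2) fun T hT => ?_).trans ?_
      · rw [e1 T hT, e2 T hT]
        set L := ∑ k ∈ s, sg T k * a k
        have : (-a x + L) ^ 4 + (a x + L) ^ 4 = 2 * L ^ 4 + 12 * L ^ 2 * a x ^ 2 + 2 * (a x ^ 2) ^ 2 := by
          ring
        rw [this]; nlinarith [sq_nonneg L]
      · rw [Finset.sum_add_distrib, Finset.sum_add_distrib, ← Finset.mul_sum, ← Finset.mul_sum]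
        simp only [Finset.sum_const, Finset.card_powerset, nsmul_eq_mul]
        push_cast; rw [pow_succ (2:ℝ) s.card]; nlinarith [ih.1, ih.2]

lemma geo_Icc {t : ℝ} (h0 : 0 ≤ t) (h1 : t ≤ 1 / 2) (B : ℕ) :
    ∑ x ∈ Icc (-(B : ℤ)) B, t ^ x.natAbs ≤ 1 + 4 * t - 4 * t ^ (B + 1) := by
  induction B with
  | zero => simp
  | succ B ih =>
    have : Icc (-((B + 1 : ℕ) : ℤ)) ((B + 1 : ℕ) : ℤ)
        = insert ((B + 1 : ℕ) : ℤ) (insert (-((B + 1 : ℕ) : ℤ)) (Icc (-(B : ℤ)) B)) := by
      ext x; simp only [Finset.mem_Icc, Finset.mem_insert]; omega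
    rw [this, Finset.sum_insert (by simp only [Finset.mem_Icc, Finset.mem_insert]; omega),
      Finset.sum_insert (by simp only [Finset.mem_Icc]; omega), Int.natAbs_neg, Int.natAbs_natCast,
      pow_succ t (B + 1)]
    nlinarith [pow_nonneg h0 (B + 1)]

lemma class_count [Fintype I] [DecidableEq I] {t : ℝ} (h0 : 0 ≤ t) (h1 : t ≤ 1 / 2) (B : ℕ)
    (F : Finset (I → ℤ)) (hF : ∀ b ∈ F, ∑ i, (b i).natAbs ≤ B) :
    F.card * t ^ B ≤ (1 + 4 * t) ^ Fintype.card I := by
  have a1 : F.card * t ^ B ≤ ∑ b ∈ F, ∏ i, t ^ (b i).natAbs := by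
    rw [← nsmul_eq_mul, ← Finset.sum_const]
    refine Finset.sum_le_sum fun b hb => ?_
    rw [Finset.prod_pow_eq_pow_sum]
    exact pow_le_pow_of_le_one h0 (by linarith) (hF b hb)
  have a2 : ∑ b ∈ F, ∏ i, t ^ (b i).natAbs
      ≤ ∑ b ∈ Fintype.piFinset (fun _ : I => Icc (-(B : ℤ)) B), ∏ i, t ^ (b i).natAbs := by
    apply Finset.sum_le_sum_of_subset_of_nonneg
    · intro b hb
      rw [Fintype.mem_piFinset]
      intro i
      have := (Finset.single_le_sum (f := fun i => (b i).natAbs) (fun _ _ => Nat.zero_le _)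
        (Finset.mem_univ i)).trans (hF b hb)
      rw [Finset.mem_Icc]; omega
    · intro b _ _; positivity
  rw [← Finset.prod_univ_sum (fun _ : I => Icc (-(B : ℤ)) B) (fun _ x => t ^ x.natAbs)] at a2
  refine a1.trans (a2.trans ?_)
  rw [Finset.prod_const, Finset.card_univ]
  apply pow_le_pow_left₀ (by positivity)
  linarith [geo_Icc h0 h1 B, pow_nonneg h0 (B + 1)]

lemma ball_count (S T0 : Finset κ) (hT0 : T0 ⊆ S) (F : Finset (Finset κ)) (hF : F ⊆ S.powerset)
    (h : ∀ T ∈ F, 10 * (symmDiff T T0).card ≤ S.card) : (F.card : ℝ) ≤ (3 / 2) ^ S.card := by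
  have a0 : ∑ U ∈ S.powerset, (1 / 9 : ℝ) ^ U.card = (10 / 9) ^ S.card := by
    have := Finset.sum_pow_mul_eq_add_pow (1 / 9 : ℝ) 1 S
    simp only [one_pow, mul_one] at this
    rw [this]; norm_num
  have a1 : ∑ T ∈ F, (1 / 9 : ℝ) ^ (symmDiff T T0).card ≤ ∑ U ∈ S.powerset, (1 / 9 : ℝ) ^ U.card := by
    rw [← Finset.sum_image (s := F) (g := fun T => symmDiff T T0) (f := fun U => (1 / 9 : ℝ) ^ U.card)
      (fun x _ y _ hxy => symmDiff_left_injective T0 hxy)]
    apply Finset.sum_le_sum_of_subset_of_nonneg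
    · intro U hU
      obtain ⟨T, hT, rfl⟩ := Finset.mem_image.1 hU
      rw [Finset.mem_powerset]
      exact symmDiff_le_sup.trans (sup_le (Finset.mem_powerset.1 (hF hT)) hT0)
    · intro b _ _; positivity
  have a2 : F.card * (20 / 27 : ℝ) ^ S.card ≤ ∑ T ∈ F, (1 / 9 : ℝ) ^ (symmDiff T T0).card := by
    rw [← nsmul_eq_mul, ← Finset.sum_const]
    refine Finset.sum_le_sum fun T hT => ?_
    refine (pow_le_pow_of_le_one (by norm_num) (by norm_num) (h T hT)).trans ?_
    rw [pow_mul]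
    exact pow_le_pow_left₀ (by norm_num) (by norm_num) _
  have e : (10 / 9 : ℝ) ^ S.card = (3 / 2) ^ S.card * (20 / 27) ^ S.card := by
    rw [← mul_pow]; norm_num
  exact le_of_mul_le_mul_right (a2.trans (a1.trans (a0.trans e).le)) (by positivity)

lemma natAbs_round_le (y : ℝ) : ((round y).natAbs : ℝ) ≤ 16 * y ^ 4 := by
  have habs : ((round y).natAbs : ℝ) = |(round y : ℝ)| := by
    rw [← Int.cast_abs, Int.abs_eq_natAbs]; simp
  rw [habs]
  by_cases h : round y = 0
  · rw [h]; simp; positivity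
  · have h1 : (1 : ℝ) ≤ |(round y : ℝ)| := by
      rw [← Int.cast_abs]; exact_mod_cast Int.one_le_abs h
    have h2 := abs_sub_round y
    have h3 := abs_sub_abs_le_abs_sub (round y : ℝ) y
    rw [abs_sub_comm (round y : ℝ)] at h3
    have h4 : 1 ≤ 2 * |y| := by linarith
    have h5 : 2 * |y| ≤ (2 * |y|) ^ 4 := le_self_pow₀ h4 (by norm_num)
    have : (2 * |y|) ^ 4 = 16 * y ^ 4 := by
      rw [mul_pow, ← abs_pow, abs_of_nonneg (by positivity)]; norm_num
    linarith

lemma exp_le_pow {x : ℝ} {n : ℕ} (h : x ≤ n / 11) : Real.exp x ≤ (11 / 10) ^ n := by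
  have h1 : Real.exp (1 / 11) ≤ 11 / 10 := by
    have := Real.exp_bound_div_one_sub_of_interval (x := 1 / 11) (by norm_num) (by norm_num)
    norm_num at this ⊢; exact this
  calc Real.exp x ≤ Real.exp (n * (1 / 11)) := Real.exp_le_exp.2 (by linarith)
    _ = Real.exp (1 / 11) ^ n := Real.exp_nat_mul _ _
    _ ≤ _ := pow_le_pow_left₀ (by positivity) h1 _

set_option maxHeartbeats 1000000 in
lemma partial_col [Fintype I] (v : κ → I → ℝ) (hv : ∀ k i, |v k i| ≤ 1) (S : Finset κ)
    (hS : S.Nonempty) (hM : S.card ≤ Fintype.card I) {Δ : ℝ} (hΔ : 0 < Δ)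
    (hK : 200000000 * (Fintype.card I : ℝ) ^ 3 * S.card ≤ Δ ^ 8) :
    ∃ U ⊆ S, ∃ x : κ → ℝ, S.card ≤ 10 * U.card ∧ (∀ k, x k = 1 ∨ x k = -1) ∧
      ∀ i, |∑ k ∈ U, x k * v k i| ≤ Δ := by
  classical
  set n := S.card with hn
  set M := Fintype.card I with hMdef
  have hn0 : 0 < n := hS.card_pos
  have hnr : (1 : ℝ) ≤ n := by exact_mod_cast hn0
  have hMr : (n : ℝ) ≤ M := by exact_mod_cast hM
  have hM1 : (1 : ℝ) ≤ M := hnr.trans hMr
  rcases le_or_gt n 10 with hsmall | hbig
  · obtain ⟨k, hk⟩ := hS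
    refine ⟨{k}, by simpa, fun _ => 1, by simpa, by simp, fun i => ?_⟩
    simp only [Finset.sum_singleton, one_mul]
    refine (hv k i).trans ?_
    have : (1 : ℝ) ≤ Δ ^ 8 := by
      have := one_le_pow₀ (n := 3) hM1
      nlinarith
    exact (one_le_pow_iff_of_nonneg hΔ.le (by norm_num)).1 this
  by_contra hcon
  set L : Finset κ → I → ℝ := fun T i => ∑ k ∈ S, sg T k * v k i with hL
  set B : ℝ := 96 * n ^ 2 * M / Δ ^ 4 with hB
  have hB0 : 0 < B := by positivity
  set f : Finset κ → ℝ := fun T => ∑ i, 16 * (L T i / Δ) ^ 4 with hf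
  have hf0 : ∀ T, 0 ≤ f T := fun T => by simp only [hf]; positivity
  have tot : ∑ T ∈ S.powerset, f T ≤ 2 ^ n * B / 2 := by
    simp only [hf]
    rw [Finset.sum_comm]
    refine (Finset.sum_le_sum (g := fun _ => 16 / Δ ^ 4 * (2 ^ n * (3 * n ^ 2))) fun i _ => ?_).trans ?_
    · have := (moments (fun k => v k i) (fun k => hv k i) S).2
      refine le_trans (le_of_eq ?_) (mul_le_mul_of_nonneg_left this (by positivity))
      rw [Finset.mul_sum]
      refine Finset.sum_congr rfl fun T _ => ?_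
      simp only [hL]; field_simp
    · rw [Finset.sum_const, Finset.card_univ, nsmul_eq_mul, hB]
      apply le_of_eq; field_simp; ring
  set G := S.powerset.filter (fun T => f T ≤ B) with hG
  have good : (2 : ℝ) ^ n / 2 ≤ G.card := by
    have c := Finset.card_filter_add_card_filter_not (s := S.powerset) (fun T => f T ≤ B)
    rw [Finset.card_powerset] at c
    have c' : (G.card : ℝ) + ((S.powerset.filter (fun T => ¬ f T ≤ B)).card : ℝ) = 2 ^ n := by
      exact_mod_cast c
    have : ((S.powerset.filter (fun T => ¬ f T ≤ B)).card : ℝ) * B ≤ 2 ^ n / 2 * B := by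
      rw [← nsmul_eq_mul, ← Finset.sum_const]
      refine le_trans (Finset.sum_le_sum (g := f) fun T hT => ?_) (le_trans ?_ (tot.trans_eq ?_))
      · exact (not_le.1 (Finset.mem_filter.1 hT).2).le
      · exact Finset.sum_le_sum_of_subset_of_nonneg (Finset.filter_subset _ _) fun T _ _ => hf0 T
      · ring
    have := le_of_mul_le_mul_right this hB0
    linarith
  set b : Finset κ → I → ℤ := fun T i => round (L T i / Δ) with hb
  have fib : ∀ y ∈ G.image b, ((G.filter (fun T => b T = y)).card : ℝ) ≤ (3 / 2) ^ n := by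
    intro y hy
    obtain ⟨T0, hT0, rfl⟩ := Finset.mem_image.1 hy
    have hT0S : T0 ⊆ S := Finset.mem_powerset.1 (Finset.mem_filter.1 hT0).1
    apply ball_count S T0 hT0S
    · exact (Finset.filter_subset _ _).trans (Finset.filter_subset _ _)
    intro T hT
    obtain ⟨hT1, hT2⟩ := Finset.mem_filter.1 hT
    have hTS : T ⊆ S := Finset.mem_powerset.1 (Finset.mem_filter.1 hT1).1
    by_contra hlt
    apply hcon
    have hU : symmDiff T T0 ⊆ S := symmDiff_le_sup.trans (sup_le hTS hT0S)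
    refine ⟨symmDiff T T0, hU, sg T, by omega, fun k => ?_, fun i => ?_⟩
    · unfold sg; split_ifs <;> simp
    · have e : L T i - L T0 i = 2 * ∑ k ∈ symmDiff T T0, sg T k * v k i := by
        simp only [hL]
        rw [← Finset.sum_sub_distrib, Finset.mul_sum, ← Finset.sum_subset hU]
        · refine Finset.sum_congr rfl fun k hk => ?_
          rw [Finset.mem_symmDiff] at hk
          rcases hk with ⟨h1, h2⟩ | ⟨h1, h2⟩ <;> simp [sg, h1, h2] <;> ring
        · intro k _ hk
          rw [Finset.mem_symmDiff] at hk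
          by_cases h1 : k ∈ T <;> by_cases h2 : k ∈ T0 <;> simp_all [sg]
      have r1 := abs_le.1 (abs_sub_round (L T i / Δ))
      have r2 := abs_le.1 (abs_sub_round (L T0 i / Δ))
      have r3 : round (L T i / Δ) = round (L T0 i / Δ) := congrFun hT2 i
      rw [r3] at r1
      have r4 : |(L T i - L T0 i) / Δ| ≤ 1 := by
        rw [sub_div, abs_le]; constructor <;> linarith [r1.1, r1.2, r2.1, r2.2]
      rw [e, abs_div, abs_of_pos hΔ, div_le_one hΔ, abs_mul, abs_two] at r4
      linarith [abs_nonneg (∑ k ∈ symmDiff T T0, sg T k * v k i)]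
  have c1 : (G.card : ℝ) ≤ (G.image b).card * (3 / 2) ^ n := by
    rw [Finset.card_eq_sum_card_image b G, ← nsmul_eq_mul, ← Finset.sum_const]
    push_cast
    exact Finset.sum_le_sum fib
  set t : ℝ := n / (44 * M) with ht
  have ht0 : 0 < t := by positivity
  have ht1 : t ≤ 1 / 2 := by rw [ht, div_le_iff₀ (by positivity)]; linarith
  have c2 := class_count ht0.le ht1 ⌊B⌋₊ (G.image b) (fun y hy => by
    obtain ⟨T, hT, rfl⟩ := Finset.mem_image.1 hy
    apply Nat.le_floor
    push_cast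
    exact (Finset.sum_le_sum fun i _ => natAbs_round_le _).trans (Finset.mem_filter.1 hT).2)
  have c3 : (1 + 4 * t) ^ M ≤ (11 / 10) ^ n := by
    refine le_trans ?_ (exp_le_pow (x := M * (4 * t)) (le_of_eq ?_))
    · rw [Real.exp_nat_mul]
      exact pow_le_pow_left₀ (by positivity) (by linarith [Real.add_one_le_exp (4 * t)]) _
    · rw [ht]; field_simp; ring
  have c4 : (t⁻¹) ^ ⌊B⌋₊ ≤ (11 / 10) ^ n := by
    set y := √(t⁻¹) with hy
    have hy0 : 0 < y := Real.sqrt_pos.2 (by positivity)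
    have hyy : y ^ 2 = t⁻¹ := Real.sq_sqrt (by positivity)
    have hBy : 22 * B * y ≤ n := by
      apply le_of_sq_le_sq _ (by positivity) |> fun h => h
      rw [mul_pow, hyy, ht, hB, inv_div]
      have : (22 * (96 * (n : ℝ) ^ 2 * M / Δ ^ 4)) ^ 2 * (44 * M / n)
          = n ^ 2 * ((22 * 96) ^ 2 * 44 * M ^ 3 * n / Δ ^ 8) := by field_simp
      rw [this]
      apply mul_le_of_le_one_right (by positivity)
      rw [div_le_one (by positivity)]
      refine le_trans ?_ hK
      gcongr; norm_num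
    refine le_trans ?_ (exp_le_pow (x := ⌊B⌋₊ * (2 * y)) ?_)
    · rw [Real.exp_nat_mul]
      apply pow_le_pow_left₀ (by positivity)
      rw [← hyy, two_mul, Real.exp_add, sq]
      have := Real.add_one_le_exp y
      exact mul_le_mul (by linarith) (by linarith) hy0.le (by positivity)
    · have := Nat.floor_le hB0.le
      nlinarith
  have c5 : ((G.image b).card : ℝ) ≤ (11 / 10) ^ n * (11 / 10) ^ n := by
    have e : ((G.image b).card : ℝ) = (G.image b).card * t ^ ⌊B⌋₊ * (t⁻¹) ^ ⌊B⌋₊ := by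
      rw [mul_assoc, ← mul_pow, mul_inv_cancel₀ ht0.ne']; simp
    rw [e]
    exact mul_le_mul (c2.trans c3) c4 (by positivity) (by positivity)
  have c6 : (2 : ℝ) < (11 / 10) ^ n := by
    have := one_add_mul_le_pow (a := (1 / 10 : ℝ)) (by norm_num) n
    have h11 : (11 : ℝ) ≤ n := by exact_mod_cast hbig
    norm_num at this ⊢; linarith
  have c7 : (11 / 10 : ℝ) ^ n * ((11 / 10) ^ n * (11 / 10) ^ n * (3 / 2) ^ n) ≤ 2 ^ n := by
    rw [← mul_pow, ← mul_pow, ← mul_pow]
    exact pow_le_pow_left₀ (by norm_num) (by norm_num) _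
  have c8 : (2 : ℝ) ^ n / 2 ≤ (11 / 10) ^ n * (11 / 10) ^ n * (3 / 2) ^ n :=
    good.trans (c1.trans (mul_le_mul_of_nonneg_right c5 (by positivity)))
  have c9 : (0 : ℝ) < (11 / 10) ^ n * (11 / 10) ^ n * (3 / 2) ^ n := by positivity
  nlinarith

end Vale.Agent.P110
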