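import Vale.Agent.P110.Disc

namespace Vale.Agent.P110

open Finset

variable {κ I : Type*} [DecidableEq κ] [Fintype I]

lemma full_col (v : κ → I → ℝ) (hv : ∀ k i, |v k i| ≤ 1) (n : ℕ) :
    ∀ (S : Finset κ), S.card = n → S.card ≤ Fintype.card I → ∀ Δ : ℝ, 0 < Δ →
    200000000 * (Fintype.card I : ℝ) ^ 3 * S.card ≤ Δ ^ 8 →
    ∃ x : κ → ℝ, (∀ k, x k = 1 ∨ x k = -1) ∧ ∀ i, |∑ k ∈ S, x k * v k i| ≤ 100 * Δ := by
  induction n using Nat.strong_induction_on with
  | _ n ih =>
    intro S hS hM Δ hΔ hK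
    rcases S.eq_empty_or_nonempty with rfl | hne
    · exact ⟨fun _ => 1, by simp, fun i => by simp; positivity⟩
    obtain ⟨U, hU, x, h1, h2, h3⟩ := partial_col v hv S hne hM hΔ hK
    have hpos := hne.card_pos
    have hc := Finset.card_sdiff_add_card_eq_card hU
    obtain ⟨y, y1, y2⟩ := ih (S \ U).card (by omega) (S \ U) rfl (by omega) (99 / 100 * Δ)
      (by positivity) (by
        have : ((S \ U).card : ℝ) ≤ 9 / 10 * S.card := by
          have : 10 * (S \ U).card ≤ 9 * S.card := by omega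
          have : (10 : ℝ) * (S \ U).card ≤ 9 * S.card := by exact_mod_cast this
          linarith
        rw [mul_pow]
        have a : 200000000 * (Fintype.card I : ℝ) ^ 3 * (S \ U).card
            ≤ 200000000 * (Fintype.card I : ℝ) ^ 3 * (9 / 10 * S.card) := by gcongr
        have : 0 < Δ ^ 8 := by positivity
        nlinarith)
    refine ⟨fun k => if k ∈ U then x k else y k, fun k => ?_, fun i => ?_⟩
    · dsimp only; split_ifs
      · exact h2 k
      · exact y1 k
    · rw [← Finset.sum_sdiff hU]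
      have e1 : ∑ k ∈ S \ U, (if k ∈ U then x k else y k) * v k i = ∑ k ∈ S \ U, y k * v k i :=
        Finset.sum_congr rfl fun k hk => by rw [if_neg (Finset.mem_sdiff.1 hk).2]
      have e2 : ∑ k ∈ U, (if k ∈ U then x k else y k) * v k i = ∑ k ∈ U, x k * v k i :=
        Finset.sum_congr rfl fun k hk => by rw [if_pos hk]
      rw [e1, e2]
      refine (abs_add_le _ _).trans ?_
      linarith [y2 i, h3 i]

lemma dyadic (v : κ → I → ℝ) (hv : ∀ k i, |v k i| ≤ 1) (S : Finset κ)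
    (hM : S.card ≤ Fintype.card I) {Δ E : ℝ} (hΔ : 0 < Δ)
    (hK : 200000000 * (Fintype.card I : ℝ) ^ 3 * E ≤ Δ ^ 8) (s : ℕ) :
    ∀ D : κ → ℕ, (∀ k, D k ≤ 2 ^ s) → (∑ k ∈ S, (D k : ℝ) ≤ 2 ^ s * E) →
    ∃ d : κ → ℝ, (∀ k, d k = 0 ∨ d k = 1) ∧
      ∀ i, |∑ k ∈ S, (D k / 2 ^ s - d k) * v k i| ≤ 125 * Δ * (1 - (11 / 20) ^ s) := by
  induction s with
  | zero =>
    intro D h1 _
    refine ⟨fun k => D k, fun k => ?_, fun i => by simp⟩
    have := h1 k
    rcases (by omega : D k = 0 ∨ D k = 1) with h | h <;> simp [h]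
  | succ s ih =>
    intro D h1 h2
    set O := S.filter (fun k => Odd (D k)) with hO
    have hOc : (O.card : ℝ) ≤ 2 ^ (s + 1) * E := by
      refine le_trans ?_ h2
      rw [Finset.card_eq_sum_ones]; push_cast
      refine le_trans (Finset.sum_le_sum (g := fun k => (D k : ℝ)) fun k hk => ?_)
        (Finset.sum_le_sum_of_subset_of_nonneg (Finset.filter_subset _ _) fun _ _ _ => by positivity)
      have := (Finset.mem_filter.1 hk).2.pos
      exact_mod_cast this
    obtain ⟨x0, x1, x2⟩ := full_col v hv _ O rfl ((Finset.card_filter_le _ _).trans hM)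
      ((11 / 10) ^ (s + 1) * Δ) (by positivity) (by
        rw [mul_pow, ← pow_mul, mul_comm (s + 1), pow_mul]
        have a : (2 : ℝ) ^ (s + 1) ≤ ((11 / 10) ^ 8) ^ (s + 1) :=
          pow_le_pow_left₀ (by norm_num) (by norm_num) _
        calc _ ≤ 200000000 * (Fintype.card I : ℝ) ^ 3 * (2 ^ (s + 1) * E) := by gcongr
          _ = 2 ^ (s + 1) * (200000000 * (Fintype.card I : ℝ) ^ 3 * E) := by ring
          _ ≤ 2 ^ (s + 1) * Δ ^ 8 := by gcongr
          _ ≤ _ := by gcongr)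
    obtain ⟨x, y1, y2, y3⟩ : ∃ x : κ → ℝ, (∀ k, x k = 1 ∨ x k = -1) ∧
        (∀ i, |∑ k ∈ O, x k * v k i| ≤ 100 * ((11 / 10) ^ (s + 1) * Δ)) ∧ ∑ k ∈ O, x k ≤ 0 := by
      rcases le_total (∑ k ∈ O, x0 k) 0 with h | h
      · exact ⟨x0, x1, x2, h⟩
      · refine ⟨fun k => -x0 k, fun k => ?_, fun i => ?_, ?_⟩
        · rcases x1 k with h | h <;> simp [h]
        · simp only [neg_mul, Finset.sum_neg_distrib, abs_neg]; exact x2 i
        · rw [Finset.sum_neg_distrib]; linarith
    set D' : κ → ℕ := fun k => if Odd (D k) ∧ x k = 1 then (D k + 1) / 2 else D k / 2 with hD'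
    have hrel : ∀ k, (D' k : ℝ) * 2 = D k + if Odd (D k) then x k else 0 := by
      intro k
      simp only [hD']
      by_cases ho : Odd (D k)
      · obtain ⟨r, hr⟩ := id ho
        rcases y1 k with h | h
        · rw [if_pos ⟨ho, h⟩, if_pos ho, h, hr]
          have : (2 * r + 1 + 1) / 2 = r + 1 := by omega
          rw [this]; push_cast; ring
        · rw [if_neg (by rw [h]; norm_num), if_pos ho, h, hr]
          have : (2 * r + 1) / 2 = r := by omega
          rw [this]; push_cast; ring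
      · rw [if_neg (fun h => ho h.1), if_neg ho]
        obtain ⟨r, hr⟩ := Nat.not_odd_iff_even.1 ho
        have : (r + r) / 2 = r := by omega
        rw [hr, this]; push_cast; ring
    obtain ⟨d, d1, d2⟩ := ih D' (fun k => by
        have := h1 k
        rw [pow_succ] at this
        simp only [hD']
        split_ifs with h
        · obtain ⟨r, hr⟩ := h.1; omega
        · omega) (by
        have : (∑ k ∈ S, (D' k : ℝ)) * 2 = ∑ k ∈ S, (D k : ℝ) + ∑ k ∈ O, x k := by
          rw [Finset.sum_mul, hO, Finset.sum_filter, ← Finset.sum_add_distrib]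
          exact Finset.sum_congr rfl fun k _ => hrel k
        rw [pow_succ] at h2
        linarith)
    refine ⟨d, d1, fun i => ?_⟩
    have e : ∑ k ∈ S, ((D k : ℝ) / 2 ^ (s + 1) - d k) * v k i
        = ∑ k ∈ S, ((D' k : ℝ) / 2 ^ s - d k) * v k i - (∑ k ∈ O, x k * v k i) / 2 ^ (s + 1) := by
      rw [hO, Finset.sum_filter, Finset.sum_div, ← Finset.sum_sub_distrib]
      refine Finset.sum_congr rfl fun k _ => ?_
      have := hrel k
      have e : (D k : ℝ) = D' k * 2 - if Odd (D k) then x k else 0 := by linarith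
      split_ifs at e ⊢ <;> rw [e] <;> field_simp <;> ring
    rw [e]
    refine (abs_sub _ _).trans ?_
    have a : |(∑ k ∈ O, x k * v k i) / 2 ^ (s + 1)| ≤ 100 * Δ * (11 / 20) ^ (s + 1) := by
      rw [abs_div, abs_of_pos (by positivity : (0:ℝ) < 2 ^ (s + 1)), div_le_iff₀ (by positivity)]
      refine (y2 i).trans (le_of_eq ?_)
      rw [mul_assoc (100 * Δ), ← mul_pow]; norm_num; ring
    have b := d2 i
    rw [pow_succ (11 / 20 : ℝ)] at a ⊢
    have : 0 < Δ * (11 / 20 : ℝ) ^ s := by positivity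
    nlinarith

theorem rounding (v : κ → I → ℝ) (hv : ∀ k i, |v k i| ≤ 1) (S : Finset κ)
    (hM : S.card ≤ Fintype.card I) {Δ E : ℝ} (hΔ : 0 < Δ)
    (hK : 200000000 * (Fintype.card I : ℝ) ^ 3 * E ≤ Δ ^ 8) (a : κ → ℝ) (ha : ∀ k, |a k| ≤ 1)
    (hE : ∑ k ∈ S, (1 - |a k|) ≤ E) :
    ∃ x : κ → ℝ, (∀ k, x k = 1 ∨ x k = -1) ∧ ∀ i, |∑ k ∈ S, (x k - a k) * v k i| ≤ 300 * Δ := by
  obtain ⟨s, hs⟩ := pow_unbounded_of_one_lt (S.card / Δ) (one_lt_two (α := ℝ))
  set σ : κ → ℝ := fun k => if 0 ≤ a k then 1 else -1 with hσ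
  have hσa : ∀ k, a k = σ k * |a k| := by
    intro k; simp only [hσ]; split_ifs with h
    · rw [abs_of_nonneg h, one_mul]
    · rw [abs_of_neg (not_le.1 h)]; ring
  have hσ1 : ∀ k, |σ k| = 1 := by intro k; simp only [hσ]; split_ifs <;> simp
  have hp : (0 : ℝ) < 2 ^ s := by positivity
  set D : κ → ℕ := fun k => ⌊(1 - |a k|) / 2 * 2 ^ s⌋₊ with hD
  have D1 : ∀ k, (D k : ℝ) ≤ (1 - |a k|) / 2 * 2 ^ s := fun k =>
    Nat.floor_le (by have := ha k; positivity)
  have D2 : ∀ k, (1 - |a k|) / 2 * 2 ^ s < D k + 1 := fun k => Nat.lt_floor_add_one _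
  obtain ⟨d, d1, d2⟩ := dyadic (fun k i => σ k * v k i)
    (fun k i => by rw [abs_mul, hσ1, one_mul]; exact hv k i) S hM hΔ hK s D
    (fun k => by
      have : (D k : ℝ) ≤ 2 ^ s := by nlinarith [D1 k, abs_nonneg (a k)]
      exact_mod_cast this)
    (by
      refine (Finset.sum_le_sum (g := fun k => 2 ^ s * (1 - |a k|)) fun k _ => ?_).trans ?_
      · nlinarith [D1 k, ha k]
      · rw [← Finset.mul_sum]; gcongr)
  refine ⟨fun k => σ k * (1 - 2 * d k), fun k => ?_, fun i => ?_⟩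
  · simp only [hσ]
    rcases d1 k with h | h <;> split_ifs <;> simp [h] <;> norm_num
  · have e : ∑ k ∈ S, (σ k * (1 - 2 * d k) - a k) * v k i
        = 2 * ∑ k ∈ S, ((D k : ℝ) / 2 ^ s - d k) * (σ k * v k i)
          + 2 * ∑ k ∈ S, ((1 - |a k|) / 2 - D k / 2 ^ s) * (σ k * v k i) := by
      rw [← mul_add, ← Finset.sum_add_distrib, Finset.mul_sum]
      refine Finset.sum_congr rfl fun k _ => ?_
      have := hσa k
      linear_combination (-v k i) * this
    rw [e]
    refine (abs_add_le _ _).trans ?_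
    rw [abs_mul, abs_mul, abs_two]
    have a1 := d2 i
    have a2 : |∑ k ∈ S, ((1 - |a k|) / 2 - D k / 2 ^ s) * (σ k * v k i)| ≤ Δ := by
      refine (Finset.abs_sum_le_sum_abs _ _).trans
        ((Finset.sum_le_sum (g := fun _ => 1 / 2 ^ s) fun k _ => ?_).trans ?_)
      · rw [abs_mul, abs_mul, hσ1, one_mul]
        have b1 : (D k : ℝ) / 2 ^ s ≤ (1 - |a k|) / 2 := by rw [div_le_iff₀ hp]; exact D1 k
        have b2 : (1 - |a k|) / 2 ≤ (D k + 1) / 2 ^ s := by rw [le_div_iff₀ hp]; exact (D2 k).le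
        rw [add_div] at b2
        rw [abs_of_nonneg (by linarith)]
        exact (mul_le_of_le_one_right (by linarith) (hv k i)).trans (by linarith)
      · rw [Finset.sum_const, nsmul_eq_mul, mul_one_div, div_le_iff₀ hp]
        rw [div_lt_iff₀ hΔ] at hs; linarith
    have : 0 < Δ * (11 / 20 : ℝ) ^ s := by positivity
    nlinarith

end Vale.Agent.P110
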