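import Vale.Agent.P110.Atom

namespace Vale.Agent.P110

open Real Finset

noncomputable def FT {ι : Type} [Fintype ι] [DecidableEq ι] (Λ : ι → ℕ)
    (f : (∀ i, Fin (Λ i)) → ℂ) (n : ι → ℕ) : ℂ :=
  ∑ γ, f γ * ∏ i, ee (n i * (γ i : ℕ) / Λ i)

lemma sum_prod_sigma {A R : Type} [Fintype A] [DecidableEq A] [CommSemiring R] (r l : A → ℕ)
    (f : ∀ a, (Fin (r a) → Fin (l a)) → R) :
    ∑ γ : ∀ i : (Σ a, Fin (r a)), Fin (l i.1), ∏ a, f a (fun t => γ ⟨a, t⟩) = ∏ a, ∑ g, f a g := by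
  rw [Finset.prod_univ_sum, Fintype.piFinset_univ]
  exact Fintype.sum_equiv (Equiv.piCurry (fun a (_ : Fin (r a)) => Fin (l a))) _ _ fun _ => rfl

lemma sum_ite_zero {r l : ℕ} (hl : 0 < l) (X Y : ℝ) :
    ∑ g : Fin r → Fin l, (if ∀ t, l ∣ (g t : ℕ) then X else Y) = X + ((l : ℝ) ^ r - 1) * Y := by
  rw [← Finset.add_sum_erase _ _ (Finset.mem_univ (fun _ => ⟨0, hl⟩)), if_pos (by simp)]
  congr 1
  rw [Finset.sum_congr rfl (g := fun _ => Y)]
  · rw [Finset.sum_const, Finset.card_erase_of_mem (Finset.mem_univ _), nsmul_eq_mul,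
      Nat.cast_sub (by simpa using Nat.one_le_pow _ _ hl)]
    simp
  · intro g hg
    rw [if_neg]
    intro h
    exact Finset.ne_of_mem_erase hg (funext fun t => Fin.ext (Nat.eq_zero_of_dvd_of_lt (h t) (g t).isLt))

lemma atoms_model {A : Type} [Fintype A] [DecidableEq A] (l r d : A → ℕ) (hl : ∀ a, (l a).Prime)
    (hr : ∀ a, 0 < r a) (hd : ∀ a, 0 < d a) (hdl : ∀ a, d a ∣ l a - 1) :
    ∃ η : ℕ → (∀ i : (Σ a, Fin (r a)), Fin (l i.1)) → ℂ, (∀ γ, Mix fun j => η j γ) ∧
      (∀ j n, ‖FT (fun i : (Σ a, Fin (r a)) => l i.1) (η j) n‖ ^ 2 = ∏ a,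
        if d a ∣ j then (if ∀ t, l a ∣ n ⟨a, t⟩ then ((l a : ℝ) ^ r a) ^ 2 else 0)
        else (if ∀ t, l a ∣ n ⟨a, t⟩ then 0 else (l a : ℝ) ^ r a)) ∧
      ∀ j, ∑ ρ : ∀ i : (Σ a, Fin (r a)), Fin (l i.1),
        ‖FT (fun i : (Σ a, Fin (r a)) => l i.1) (η j) (fun i => ρ i)‖ ^ 2 = ∏ a,
        if d a ∣ j then ((l a : ℝ) ^ r a) ^ 2 else ((l a : ℝ) ^ r a - 1) * (l a : ℝ) ^ r a := by
  choose η h1 h2 using fun a => atom (hl a) (hr a) (hd a) (hdl a)
  have key : ∀ j n, ‖FT (fun i : (Σ a, Fin (r a)) => l i.1)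
      (fun γ => ∏ a, η a j (fun t => γ ⟨a, t⟩)) n‖ ^ 2 = ∏ a,
        if d a ∣ j then (if ∀ t, l a ∣ n ⟨a, t⟩ then ((l a : ℝ) ^ r a) ^ 2 else 0)
        else (if ∀ t, l a ∣ n ⟨a, t⟩ then 0 else (l a : ℝ) ^ r a) := by
    intro j n
    unfold FT
    simp only [Fintype.prod_sigma, ← Finset.prod_mul_distrib]
    rw [sum_prod_sigma r l (fun a g => η a j g * ∏ t, ee (n ⟨a, t⟩ * (g t : ℕ) / l a)), norm_prod,
      ← Finset.prod_pow]
    exact Finset.prod_congr rfl fun a _ => h2 a j _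
  refine ⟨fun j γ => ∏ a, η a j (fun t => γ ⟨a, t⟩), fun γ => mix_prod _ _ fun a => h1 a _,
    key, fun j => ?_⟩
  simp only [key]
  rw [sum_prod_sigma r l (fun a g =>
    if d a ∣ j then (if ∀ t, l a ∣ (g t : ℕ) then ((l a : ℝ) ^ r a) ^ 2 else 0)
        else (if ∀ t, l a ∣ (g t : ℕ) then 0 else (l a : ℝ) ^ r a))]
  refine Finset.prod_congr rfl fun a _ => ?_
  split_ifs
  · rw [sum_ite_zero (hl a).pos]; simp
  · rw [sum_ite_zero (hl a).pos]; simp

lemma sum_log_minFac {J j : ℕ} (h1 : 1 ≤ j) (h2 : j ≤ J) :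
    ∑ d ∈ (range (J + 1)).filter IsPrimePow, (if d ∣ j then Real.log (d.minFac) else 0)
      = Real.log j := by
  rw [← ArithmeticFunction.vonMangoldt_sum, Finset.sum_filter]
  simp only [ArithmeticFunction.vonMangoldt_apply]
  rw [← Finset.sum_subset (s₁ := j.divisors)]
  · refine Finset.sum_congr rfl fun d hd => ?_
    rw [if_pos (Nat.dvd_of_mem_divisors hd)]
  · intro d hd
    have := Nat.divisor_le hd
    rw [Finset.mem_range]; omega
  · intro d _ hd
    rw [if_neg (fun h : d ∣ j => hd (Nat.mem_divisors.2 ⟨h, by omega⟩))]; simp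

theorem fin_model {J : ℕ} (hJ : 2 ≤ J) {s ε : ℝ} (hs : 0 < s) (hs1 : s ≤ 1) (hε : 0 < ε) :
    ∃ (ι : Type) (_ : Fintype ι) (_ : DecidableEq ι) (Λ : ι → ℕ)
      (η : ℕ → (∀ i, Fin (Λ i)) → ℂ) (Wt : ℕ → ℝ) (K : ℝ), 0 < K ∧ (∀ i, 3 ≤ Λ i) ∧
      (∀ γ, Mix fun j => η j γ) ∧
      (∀ j n, ‖FT Λ (η j) n‖ ^ 2 = Wt j ∨ ‖FT Λ (η j) n‖ ^ 2 = 0) ∧
      (∀ j, (1 - ε) * (∏ i, (Λ i : ℝ)) ^ 2 ≤
        ∑ ρ : ∀ i, Fin (Λ i), ‖FT Λ (η j) (fun i => ρ i)‖ ^ 2) ∧
      (∀ j : ℕ, 1 ≤ j → j ≤ J → K * (j : ℝ) ^ (Fintype.card ι + 3 + 2 * s) ≤ Wt j ∧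
        Wt j ≤ (1 + ε) * (K * (j : ℝ) ^ (Fintype.card ι + 3 + 2 * s))) ∧
      (∀ (j j' : ℕ) (n n' : ι → ℕ), 1 ≤ j → j ≤ J → 1 ≤ j' → j' ≤ J → j ≠ j' →
        ‖FT Λ (η j) n‖ ^ 2 ≠ 0 → ‖FT Λ (η j') n'‖ ^ 2 ≠ 0 → ∃ i, j' * n i ≠ j * n' i) := by
  classical
  obtain ⟨l1, hl1, hl1b, hl1m⟩ := Nat.exists_prime_gt_modEq_one
    (J ^ (4 * (J + 1)) + J + ⌈(2 * J + 3) / ε⌉₊) (Nat.factorial_ne_zero J)
  obtain ⟨l2, hl2, hl2b, hl2m⟩ := Nat.exists_prime_gt_modEq_one l1 (Nat.factorial_ne_zero J)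
  set η' := Real.log (1 + ε) / (J + 1) with hη'
  have hη0 : 0 < η' := div_pos (Real.log_pos (by linarith)) (by positivity)
  obtain ⟨Y0, hY0⟩ := dense_pow hl1 hl2 hl2b.ne hη0
  have hlog2 : 0 < Real.log 2 := Real.log_pos (by norm_num)
  obtain ⟨D, hD⟩ := exists_nat_ge (|Y0| / Real.log 2 + 5 + η' / Real.log 2)
  have hD1 : |Y0| ≤ D * Real.log 2 := by
    rw [← div_le_iff₀ hlog2]; have : 0 ≤ η' / Real.log 2 := by positivity
    linarith
  have hD2 : 5 * Real.log 2 + η' ≤ D * Real.log 2 := by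
    have : 5 + η' / Real.log 2 ≤ D := by
      have : 0 ≤ |Y0| / Real.log 2 := by positivity
      linarith
    have := mul_le_mul_of_nonneg_right this hlog2.le
    rwa [add_mul, div_mul_cancel₀ _ hlog2.ne'] at this
  have hD5 : (5 : ℝ) ≤ D := by nlinarith
  set E : ℝ := D + 3 + 2 * s with hE
  set PP := (range (J + 1)).filter IsPrimePow with hPP
  have hmf : ∀ d ∈ PP, 2 ≤ d.minFac ∧ d.minFac ≤ J ∧ d ≤ J ∧ 0 < d := by
    intro d hd
    rw [hPP, Finset.mem_filter, Finset.mem_range] at hd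
    have h2 := hd.2.two_le
    exact ⟨(Nat.minFac_prime (by omega)).two_le, (Nat.minFac_le (by omega)).trans (by omega),
      by omega, by omega⟩
  have ex : ∀ d : PP, ∃ r r' : ℕ, 0 < r ∧ 0 < r' ∧
      E * Real.log (d.1.minFac) ≤ r * Real.log l1 + r' * Real.log l2 ∧
      r * Real.log l1 + r' * Real.log l2 ≤ E * Real.log (d.1.minFac) + η' := by
    intro d
    apply hY0
    have : Real.log 2 ≤ Real.log (d.1.minFac) :=
      Real.log_le_log (by norm_num) (by exact_mod_cast (hmf d.1 d.2).1)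
    have h2 : D * Real.log 2 ≤ E * Real.log (d.1.minFac) :=
      mul_le_mul (by linarith) this hlog2.le (by positivity)
    linarith [le_abs_self Y0]
  choose r1 r2 hr1 hr2 hlo hhi using ex
  have hJr : (2 : ℝ) ≤ J := by exact_mod_cast hJ
  have hlogJ : Real.log 2 ≤ Real.log J := Real.log_le_log (by norm_num) hJr
  have hsum : ∑ d, (r1 d + r2 d) < D := by
    have a1 : 4 * (J + 1) * Real.log J ≤ Real.log l1 := by
      have : ((J ^ (4 * (J + 1)) : ℕ) : ℝ) ≤ l1 := by exact_mod_cast (by omega)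
      have := Real.log_le_log (by positivity) this
      push_cast at this
      rw [Real.log_pow] at this; push_cast at this; exact this
    have a2 : Real.log l1 ≤ Real.log l2 :=
      Real.log_le_log (by exact_mod_cast hl1.pos) (by exact_mod_cast hl2b.le)
    have a3 : ∀ d : PP, ((r1 d + r2 d : ℕ) : ℝ) * (2 * (J + 1)) ≤ D := by
      intro d
      have b1 : Real.log (d.1.minFac) ≤ Real.log J :=
        Real.log_le_log (by exact_mod_cast (by linarith [(hmf d.1 d.2).1]))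
          (by exact_mod_cast (hmf d.1 d.2).2.1)
      have b2 : E * Real.log (d.1.minFac) ≤ (D + 5) * Real.log J :=
        mul_le_mul (by linarith) b1 (Real.log_natCast_nonneg _) (by positivity)
      have b3 : ((r1 d + r2 d : ℕ) : ℝ) * (4 * (J + 1) * Real.log J)
          ≤ r1 d * Real.log l1 + r2 d * Real.log l2 := by
        push_cast
        rw [add_mul]
        exact add_le_add (mul_le_mul_of_nonneg_left a1 (by positivity))
          (mul_le_mul_of_nonneg_left (a1.trans a2) (by positivity))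
      have b4 : 5 * Real.log J + η' ≤ D * Real.log J := by nlinarith
      have b5 := hhi d
      apply le_of_mul_le_mul_right _ (show 0 < 2 * Real.log J by linarith)
      nlinarith
    have a4 : ((∑ d, (r1 d + r2 d) : ℕ) : ℝ) * (2 * (J + 1)) ≤ (J + 1) * D := by
      rw [Nat.cast_sum, Finset.sum_mul]
      refine (Finset.sum_le_sum fun d _ => a3 d).trans ?_
      rw [Finset.sum_const, nsmul_eq_mul, Finset.card_univ, Fintype.card_coe]
      apply mul_le_mul_of_nonneg_right _ (by positivity)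
      have := (Finset.card_filter_le (range (J + 1)) IsPrimePow).trans_eq (Finset.card_range _)
      exact_mod_cast this
    have : ((∑ d, (r1 d + r2 d) : ℕ) : ℝ) < D := by nlinarith
    exact_mod_cast this
  let ll : Option (PP × Bool) → ℕ := fun a => a.elim l1 fun p => if p.2 then l1 else l2
  let rr : Option (PP × Bool) → ℕ := fun a =>
    a.elim (D - ∑ d, (r1 d + r2 d)) fun p => if p.2 then r1 p.1 else r2 p.1
  let dd : Option (PP × Bool) → ℕ := fun a => a.elim 1 fun p => p.1.1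
  have hll : ∀ a, (ll a).Prime ∧ l1 ≤ ll a ∧ J.factorial ∣ ll a - 1 := by
    have c1 := (Nat.modEq_iff_dvd' hl1.one_lt.le).1 hl1m.symm
    have c2 := (Nat.modEq_iff_dvd' hl2.one_lt.le).1 hl2m.symm
    rintro (_ | ⟨d, _ | _⟩)
    · exact ⟨hl1, le_rfl, c1⟩
    · exact ⟨hl2, hl2b.le, c2⟩
    · exact ⟨hl1, le_rfl, c1⟩
  have hrr : ∀ a, 0 < rr a := by
    rintro (_ | ⟨d, _ | _⟩)
    · exact Nat.sub_pos_of_lt hsum
    · exact hr2 d
    · exact hr1 d
  have hdd : ∀ a, 0 < dd a ∧ dd a ≤ J := by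
    rintro (_ | ⟨d, b⟩)
    · exact ⟨one_pos, by simp only [dd, Option.elim]; omega⟩
    · exact ⟨(hmf d.1 d.2).2.2.2, (hmf d.1 d.2).2.2.1⟩
  obtain ⟨η, h1, h2, h3⟩ := atoms_model ll rr dd (fun a => (hll a).1) hrr (fun a => (hdd a).1)
    (fun a => (Nat.dvd_factorial (hdd a).1 (hdd a).2).trans (hll a).2.2)
  have hcard : Fintype.card (Σ a, Fin (rr a)) = D := by
    rw [Fintype.card_sigma, Finset.sum_congr rfl (fun a _ => Fintype.card_fin (rr a))]
    simp only [Fintype.sum_option, Fintype.sum_prod_type,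
      Fintype.sum_bool, rr, Option.elim, if_true, Bool.false_eq_true, if_false]
    omega
  set q : Option (PP × Bool) → ℝ := fun a => (ll a : ℝ) ^ rr a with hq
  have hq0 : ∀ a, 0 < q a := fun a => pow_pos (by exact_mod_cast (hll a).1.pos) _
  have hl1r : (0 : ℝ) < l1 := by exact_mod_cast hl1.pos
  have hq1 : ∀ a, (l1 : ℝ) ≤ q a := fun a =>
    le_trans (by exact_mod_cast (hll a).2.1)
      (le_self_pow₀ (by exact_mod_cast (hll a).1.one_lt.le) (hrr a).ne')
  refine ⟨Σ a, Fin (rr a), inferInstance, inferInstance, fun i => ll i.1, η,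
    fun j => ∏ a, if dd a ∣ j then q a ^ 2 else q a, (∏ a, q a) * q none,
    mul_pos (Finset.prod_pos fun a _ => hq0 a) (hq0 _), fun i => ?_, h1, fun j n => ?_, fun j => ?_,
    fun j hj1 hj2 => ?_, ?_⟩
  · have := (hll i.1).2.1
    show 3 ≤ ll i.1
    omega
  · rw [h2]
    by_cases h : ∀ a, (dd a ∣ j ↔ ∀ t, ll a ∣ n ⟨a, t⟩)
    · left
      refine Finset.prod_congr rfl fun a _ => ?_
      by_cases h' : dd a ∣ j
      · rw [if_pos h', if_pos h', if_pos ((h a).1 h')]
      · rw [if_neg h', if_neg h', if_neg (fun h'' => h' ((h a).2 h''))]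
    · right
      obtain ⟨a, ha⟩ := not_forall.1 h
      refine Finset.prod_eq_zero (Finset.mem_univ a) ?_
      by_cases h' : dd a ∣ j
      · rw [if_pos h', if_neg (fun h'' => ha ⟨fun _ => h'', fun _ => h'⟩)]
      · rw [if_neg h', if_pos]
        by_contra h''
        exact ha ⟨fun h3 => absurd h3 h', fun h3 => absurd h3 h''⟩
  · rw [h3, Fintype.prod_sigma]
    simp only [Finset.prod_const, Finset.card_univ, Fintype.card_fin]
    have hl1' : 1 / (l1 : ℝ) ≤ 1 := by
      rw [div_le_one hl1r]; exact_mod_cast hl1.one_lt.le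
    have b := one_add_mul_le_pow (a := -(1 / (l1 : ℝ))) (by linarith)
      (Fintype.card (Option (PP × Bool)))
    have c1 : (Fintype.card (Option (PP × Bool)) : ℝ) ≤ 2 * J + 3 := by
      have := (Finset.card_filter_le (range (J + 1)) IsPrimePow).trans_eq (Finset.card_range _)
      have : Fintype.card (Option (PP × Bool)) ≤ 2 * J + 3 := by
        simp only [Fintype.card_option, Fintype.card_prod, Fintype.card_coe, Fintype.card_bool, hPP]
        omega
      exact_mod_cast this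
    have c2 : (2 * J + 3 : ℝ) * (1 / l1) ≤ ε := by
      have : (2 * J + 3) / ε ≤ (l1 : ℝ) :=
        (Nat.le_ceil _).trans (Nat.cast_le.2 (by omega))
      rw [mul_one_div, div_le_iff₀ hl1r]; rw [div_le_iff₀ hε] at this; linarith
    calc (1 - ε) * (∏ a, q a) ^ 2
        ≤ (1 + -(1 / (l1 : ℝ))) ^ Fintype.card (Option (PP × Bool)) * (∏ a, q a) ^ 2 := by
          apply mul_le_mul_of_nonneg_right _ (by positivity)
          have := mul_le_mul_of_nonneg_right c1 (by positivity : (0:ℝ) ≤ 1 / l1)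
          linarith
      _ = ∏ a, ((1 + -(1 / (l1 : ℝ))) * q a ^ 2) := by
          rw [Finset.prod_mul_distrib, Finset.prod_pow]; simp
      _ ≤ _ := by
          refine Finset.prod_le_prod (fun a _ => mul_nonneg (by linarith) (by positivity))
            fun a _ => ?_
          have d1 : 1 ≤ 1 / (l1 : ℝ) * q a := by
            rw [one_div_mul_eq_div, one_le_div hl1r]; exact hq1 a
          have := hq0 a
          split_ifs
          · change _ ≤ q a ^ 2
            nlinarith [mul_pos (mul_pos this this) (by positivity : (0:ℝ) < 1 / l1)]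
          · change _ ≤ (q a - 1) * q a
            nlinarith
  · rw [hcard, ← hE]
    have e1 : (∏ a, if dd a ∣ j then q a ^ 2 else q a)
        = (∏ a, q a) * q none * Real.exp (∑ d : PP,
          if d.1 ∣ j then r1 d * Real.log l1 + r2 d * Real.log l2 else 0) := by
      have : ∀ a, (if dd a ∣ j then q a ^ 2 else q a) = q a * if dd a ∣ j then q a else 1 := by
        intro a; split_ifs <;> ring
      simp only [this]
      rw [Finset.prod_mul_distrib, mul_assoc, Fintype.prod_option (fun a => if dd a ∣ j then q a else 1),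
        Fintype.prod_prod_type, Real.exp_sum]
      congr 2
      · simp [dd]
      · refine Finset.prod_congr rfl fun d _ => ?_
        simp only [Fintype.prod_bool, dd, Option.elim, hq, ll, rr, if_true, Bool.false_eq_true,
          if_false]
        split_ifs
        · rw [Real.exp_add, Real.exp_nat_mul, Real.exp_nat_mul, Real.exp_log hl1r,
            Real.exp_log (by exact_mod_cast hl2.pos)]
        · simp
    have e2 : (j : ℝ) ^ E = Real.exp (∑ d : PP, if d.1 ∣ j then E * Real.log (d.1.minFac) else 0) := by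
      rw [Real.rpow_def_of_pos (by exact_mod_cast hj1), ← sum_log_minFac hj1 hj2, mul_comm,
        Finset.mul_sum, ← hPP, ← Finset.sum_coe_sort PP]
      simp only [mul_ite, mul_zero]
    have hK : 0 < (∏ a, q a) * q none := mul_pos (Finset.prod_pos fun a _ => hq0 a) (hq0 _)
    simp only [e1, e2]
    constructor
    · apply mul_le_mul_of_nonneg_left _ hK.le
      refine Real.exp_le_exp.2 (Finset.sum_le_sum fun d _ => ?_)
      split_ifs
      · exact hlo d
      · exact le_rfl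
    · rw [mul_left_comm]
      apply mul_le_mul_of_nonneg_left _ hK.le
      rw [← Real.exp_log (by linarith : 0 < 1 + ε), ← Real.exp_add]
      refine Real.exp_le_exp.2 ((Finset.sum_le_sum (g := fun d : PP => η' +
        if d.1 ∣ j then E * Real.log (d.1.minFac) else 0) fun d _ => ?_).trans ?_)
      · split_ifs
        · linarith [hhi d]
        · linarith
      · rw [Finset.sum_add_distrib, Finset.sum_const, nsmul_eq_mul, Finset.card_univ,
          Fintype.card_coe]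
        have := (Finset.card_filter_le (range (J + 1)) IsPrimePow).trans_eq (Finset.card_range _)
        have h4 : (PP.card : ℝ) ≤ J + 1 := by exact_mod_cast this
        have h5 : (J + 1) * η' = Real.log (1 + ε) := by rw [hη']; field_simp
        nlinarith
  · have key : ∀ (j j' : ℕ) (n n' : (Σ a, Fin (rr a)) → ℕ), 1 ≤ j → j ≤ J → ¬ j ∣ j' →
        ‖FT (fun i : (Σ a, Fin (rr a)) => ll i.1) (η j) n‖ ^ 2 ≠ 0 →
        ‖FT (fun i : (Σ a, Fin (rr a)) => ll i.1) (η j') n'‖ ^ 2 ≠ 0 →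
        ∃ i, j' * n i ≠ j * n' i := by
      intro j j' n n' a1 a2 a3 a4 a5
      rw [Nat.dvd_iff_prime_pow_dvd_dvd] at a3
      push Not at a3
      obtain ⟨p, k, hp, b1, b2⟩ := a3
      have hk : 0 < k := Nat.pos_of_ne_zero fun h => b2 (by simp [h])
      have hmem : p ^ k ∈ PP := by
        rw [hPP, Finset.mem_filter, Finset.mem_range]
        exact ⟨by have := Nat.le_of_dvd a1 b1; omega, ⟨p, k, hp.prime, hk, rfl⟩⟩
      rw [h2, Finset.prod_ne_zero_iff] at a4 a5
      have c1 := a4 (some (⟨_, hmem⟩, true)) (Finset.mem_univ _)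
      have c2 := a5 (some (⟨_, hmem⟩, true)) (Finset.mem_univ _)
      rw [if_pos (by exact b1)] at c1
      rw [if_neg (by exact b2)] at c2
      have c3 : ∀ t, l1 ∣ n ⟨some (⟨_, hmem⟩, true), t⟩ := by
        by_contra h; exact c1 (if_neg h)
      have c4 : ¬ ∀ t, l1 ∣ n' ⟨some (⟨_, hmem⟩, true), t⟩ := fun h => c2 (if_pos h)
      obtain ⟨t, ht⟩ := not_forall.1 c4
      refine ⟨⟨some (⟨_, hmem⟩, true), t⟩, fun h => ht ?_⟩
      rcases (Nat.Prime.dvd_mul hl1).1 (h ▸ (c3 t).mul_left j') with h' | h'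
      · have := Nat.le_of_dvd a1 h'; omega
      · exact h'
    intro j j' n n' a1 a2 a3 a4 a5 a6 a7
    by_cases h : j ∣ j'
    · obtain ⟨i, hi⟩ := key j' j n' n a3 a4 (fun h' => a5 (Nat.dvd_antisymm h h')) a7 a6
      exact ⟨i, hi.symm⟩
    · exact key j j' n n' a1 a2 h a6 a7

end Vale.Agent.P110
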