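import Vale.Agent.P110.Basic

namespace Vale.Agent.P110

open Complex Real Finset MeasureTheory Filter Topology

lemma gauss_tail {b : ℂ} (hb : 0 ≤ b.re) (hb2 : 3 ≤ ‖b‖) {R R' : ℝ} (hR : 0 < R) (hRR : R ≤ R') :
    ‖∫ x in R..R', Complex.exp (-b * (x : ℂ) ^ 2)‖ ≤ 1 / R := by
  have hb0 : b ≠ 0 := by intro h; rw [h, norm_zero] at hb2; linarith
  have hne : ∀ x ∈ Set.uIcc R R', (x : ℂ) ≠ 0 := by
    intro x hx
    rw [Set.uIcc_of_le hRR] at hx
    have : 0 < x := hR.trans_le hx.1
    exact_mod_cast this.ne'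
  have hn : ∀ x : ℝ, ‖Complex.exp (-b * (x : ℂ) ^ 2)‖ ≤ 1 := by
    intro x
    rw [Complex.norm_exp, Real.exp_le_one_iff]
    have : (-b * (x : ℂ) ^ 2).re = -(b.re * x ^ 2) := by
      rw [← Complex.ofReal_pow, Complex.mul_re]; simp [-Complex.ofReal_pow]
    rw [this]; nlinarith [sq_nonneg x]
  have hd : ∀ x ∈ Set.uIcc R R', HasDerivAt
      (fun y : ℝ => Complex.exp (-b * (y : ℂ) ^ 2) / (-2 * b * y))
      (Complex.exp (-b * (x : ℂ) ^ 2) + Complex.exp (-b * (x : ℂ) ^ 2) / (2 * b * x ^ 2)) x := by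
    intro x hx
    have hx0 := hne x hx
    have h1 : HasDerivAt (fun y : ℂ => Complex.exp (-b * y ^ 2) / (-2 * b * y))
        (Complex.exp (-b * (x : ℂ) ^ 2) + Complex.exp (-b * (x : ℂ) ^ 2) / (2 * b * x ^ 2)) x := by
      have a1 : HasDerivAt (fun y : ℂ => -b * y ^ 2) (-b * (2 * x)) x := by
        simpa using (hasDerivAt_pow 2 (x : ℂ)).const_mul (-b)
      have a2 : HasDerivAt (fun y : ℂ => -2 * b * y) (-2 * b) x := by
        simpa using (hasDerivAt_id (x : ℂ)).const_mul (-2 * b)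
      have a3 := a1.cexp.div a2 (by simp [hb0, hx0])
      refine a3.congr_deriv ?_
      field_simp
      ring
    exact h1.comp_ofReal
  have c1 : Continuous fun x : ℝ => Complex.exp (-b * (x : ℂ) ^ 2) := by fun_prop
  have c2 : ContinuousOn (fun x : ℝ => Complex.exp (-b * (x : ℂ) ^ 2) / (2 * b * x ^ 2))
      (Set.uIcc R R') := by
    apply ContinuousOn.div c1.continuousOn (by fun_prop)
    intro x hx; simp [hb0, hne x hx]
  have ftc := intervalIntegral.integral_eq_sub_of_hasDerivAt hd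
    ((c1.intervalIntegrable _ _).add c2.intervalIntegrable)
  rw [intervalIntegral.integral_add (c1.intervalIntegrable _ _) c2.intervalIntegrable] at ftc
  have e := eq_sub_of_add_eq ftc
  rw [e]
  have hend : ∀ x : ℝ, R ≤ x → ‖Complex.exp (-b * (x : ℂ) ^ 2) / (-2 * b * x)‖ ≤ 1 / (6 * R) := by
    intro x hx
    rw [norm_div]
    apply div_le_div₀ (by norm_num) (hn x) (by positivity)
    simp only [norm_mul, norm_neg, Complex.norm_ofNat, Complex.norm_real, Real.norm_eq_abs,
      abs_of_pos (hR.trans_le hx)]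
    nlinarith
  have hint : ‖∫ x in R..R', Complex.exp (-b * (x : ℂ) ^ 2) / (2 * b * x ^ 2)‖ ≤ 1 / (6 * R) := by
    have hd2 : ∀ x ∈ Set.uIcc R R', HasDerivAt (fun y : ℝ => -(1 / 6) * y⁻¹) (1 / (6 * x ^ 2)) x := by
      intro x hx
      have hx0 : x ≠ 0 := by have := hne x hx; exact_mod_cast this
      refine ((hasDerivAt_inv hx0).const_mul (-(1 / 6))).congr_deriv ?_
      field_simp
    have c3 : ContinuousOn (fun x : ℝ => 1 / (6 * x ^ 2)) (Set.uIcc R R') := by
      apply ContinuousOn.div continuousOn_const (by fun_prop)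
      intro x hx
      have hx0 : x ≠ 0 := by have := hne x hx; exact_mod_cast this
      simp [hx0]
    have f2 := intervalIntegral.integral_eq_sub_of_hasDerivAt hd2 c3.intervalIntegrable
    refine (intervalIntegral.norm_integral_le_of_norm_le hRR (g := fun x : ℝ => 1 / (6 * x ^ 2))
      (Filter.Eventually.of_forall ?_) c3.intervalIntegrable).trans ?_
    · intro x hx
      have hx0 : 0 < x := hR.trans hx.1
      rw [norm_div]
      apply div_le_div₀ (by norm_num) (hn x) (by positivity)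
      simp only [norm_mul, Complex.norm_ofNat, norm_pow, Complex.norm_real, Real.norm_eq_abs,
        sq_abs]
      nlinarith [sq_nonneg x]
    · rw [f2]
      have : 0 < R'⁻¹ := inv_pos.2 (hR.trans_le hRR)
      have e : 1 / (6 * R) = 1 / 6 * R⁻¹ := by field_simp
      linarith
  refine (norm_sub_le _ _).trans ?_
  refine (add_le_add_left (norm_sub_le _ _) _).trans ?_
  have h1 := hend R' hRR
  have h2 := hend R le_rfl
  have e1 : 1 / (6 * R) = (1 / R) / 6 := by field_simp
  have : 0 < 1 / R := by positivity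
  linarith

lemma gauss_trunc {b : ℂ} (hb : 0 < b.re) (hb2 : 3 ≤ ‖b‖) {R1 R2 : ℝ} (h1 : 0 < R1) (h2 : 0 < R2) :
    ‖(∫ x in (-R1)..R2, Complex.exp (-b * (x : ℂ) ^ 2)) - (π / b) ^ (1 / 2 : ℂ)‖
      ≤ 1 / R1 + 1 / R2 := by
  have hi := integrable_cexp_neg_mul_sq hb
  have c1 : Continuous fun x : ℝ => Complex.exp (-b * (x : ℂ) ^ 2) := by fun_prop
  have ht := intervalIntegral_tendsto_integral (l := atTop) hi tendsto_neg_atTop_atBot tendsto_id
  rw [integral_gaussian_complex hb] at ht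
  have ht2 := (ht.const_sub (∫ x in (-R1)..R2, Complex.exp (-b * (x : ℂ) ^ 2))).norm
  refine le_of_tendsto ht2 ?_
  filter_upwards [eventually_ge_atTop R1, eventually_ge_atTop R2] with t t1 t2
  simp only [id]
  rw [← intervalIntegral.integral_add_adjacent_intervals (b := -R1) (c1.intervalIntegrable _ _)
      (c1.intervalIntegrable (-R1) t),
    ← intervalIntegral.integral_add_adjacent_intervals (a := -R1) (b := R2) (c := t)
      (c1.intervalIntegrable _ _) (c1.intervalIntegrable _ _)]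
  have e : ∫ x in (-t)..(-R1), Complex.exp (-b * (x : ℂ) ^ 2)
      = ∫ x in R1..t, Complex.exp (-b * (x : ℂ) ^ 2) := by
    rw [← intervalIntegral.integral_comp_neg]; simp
  rw [e]
  have a1 := gauss_tail hb.le hb2 h1 t1
  have a2 := gauss_tail hb.le hb2 h2 t2
  have : ∀ A B C : ℂ, B - (A + (B + C)) = -(A + C) := by intro A B C; ring
  rw [this, norm_neg]
  exact (norm_add_le _ _).trans (add_le_add a1 a2)

lemma fresnel : ∃ Φ : ℂ, ‖Φ‖ = 1 ∧ ∀ R1 R2 : ℝ, 0 < R1 → 0 < R2 →
    ‖(∫ x in (-R1)..R2, ee (x ^ 2 / 2)) - Φ‖ ≤ 1 / R1 + 1 / R2 := by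
  have hp : (π : ℂ) ≠ 0 := by exact_mod_cast Real.pi_ne_zero
  have eI : (π : ℂ) / (((0 : ℝ) : ℂ) - Complex.I * π) = Complex.I := by
    rw [div_eq_iff (by simp [hp])]
    simp only [Complex.ofReal_zero, zero_sub, mul_neg, ← mul_assoc, Complex.I_mul_I]; ring
  refine ⟨Complex.I ^ (1 / 2 : ℂ), ?_, ?_⟩
  · have : (1 / 2 : ℂ) = ((1 / 2 : ℝ) : ℂ) := by push_cast; ring
    rw [this, Complex.norm_cpow_real]; simp
  intro R1 R2 h1 h2
  have hc1 : Continuous fun η : ℝ =>
      ∫ x in (-R1)..R2, Complex.exp (-((η : ℂ) - Complex.I * π) * (x : ℂ) ^ 2) := by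
    apply intervalIntegral.continuous_parametric_intervalIntegral_of_continuous'
    unfold Function.uncurry
    fun_prop
  have hc2 : ContinuousAt (fun η : ℝ => ((π : ℂ) / ((η : ℂ) - Complex.I * π)) ^ (1 / 2 : ℂ)) 0 := by
    apply ContinuousAt.cpow
    · apply ContinuousAt.div (by fun_prop) (by fun_prop)
      simp [hp]
    · exact continuousAt_const
    · rw [eI]; right; simp
  have ht := ((hc1.continuousAt (x := 0)).sub hc2).norm.tendsto.mono_left
    (nhdsWithin_le_nhds (s := Set.Ioi 0))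
  have e0 : ∀ x : ℝ, Complex.exp (-(((0 : ℝ) : ℂ) - Complex.I * π) * (x : ℂ) ^ 2) = ee (x ^ 2 / 2) := by
    intro x; unfold ee; congr 1; push_cast; ring
  simp only [Pi.sub_apply, eI, e0] at ht
  refine le_of_tendsto ht ?_
  filter_upwards [self_mem_nhdsWithin] with η hη
  apply gauss_trunc _ _ h1 h2
  · simpa using hη
  · refine le_trans ?_ (Complex.abs_im_le_norm _)
    simp only [Complex.sub_im, Complex.ofReal_im, Complex.mul_im, Complex.I_re, Complex.I_im,
      Complex.ofReal_re, zero_mul, one_mul, zero_add, zero_sub, abs_neg, abs_of_pos Real.pi_pos]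
    exact Real.pi_gt_three.le

end Vale.Agent.P110
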