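import Vale.Agent.P110.PSide

namespace Vale.Agent.P110

open Real Finset

structure ArcOK (n : ℕ) (g : ℕ → ℂ) (τ : ℕ → ℝ) (δ U : ℝ) : Prop where
  pos : 0 < n
  norm : ∀ i, ‖g i‖ = 1
  rng : ∀ i, i < n → 0 ≤ τ i ∧ τ i ≤ U
  step : ∀ i, i + 1 < n → ‖g (i + 1) - g i * ee (τ i / 2)‖ ≤ δ
  lip : ∀ i, i + 1 < n → |τ (i + 1) - τ i| ≤ δ
  g0 : ‖g 0 - 1‖ ≤ δ
  g1 : ‖g (n - 1) - 1‖ ≤ δ
  t0 : τ 0 ≤ δ
  t1 : τ (n - 1) ≤ δ

lemma ArcOK.mono {n : ℕ} {g : ℕ → ℂ} {τ : ℕ → ℝ} {δ δ' U : ℝ} (h : ArcOK n g τ δ U)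
    (hd : δ ≤ δ') : ArcOK n g τ δ' U :=
  ⟨h.pos, h.norm, h.rng, fun i hi => (h.step i hi).trans hd, fun i hi => (h.lip i hi).trans hd,
    h.g0.trans hd, h.g1.trans hd, h.t0.trans hd, h.t1.trans hd⟩

lemma ArcOK.mirror {n : ℕ} {g : ℕ → ℂ} {τ : ℕ → ℝ} {δ U : ℝ} (h : ArcOK n g τ δ U) :
    ArcOK n (fun i => (starRingEnd ℂ) (g (n - 1 - i))) (fun i => τ (n - 1 - i)) (5 * δ) U := by
  have hδ : 0 ≤ δ := (norm_nonneg _).trans h.g0
  have hp := h.pos
  have cj : ∀ z : ℂ, ‖(starRingEnd ℂ) z - 1‖ = ‖z - 1‖ := fun z => by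
    rw [← Complex.norm_conj (z - 1)]; simp
  refine ⟨h.pos, fun i => by simp [h.norm], fun i hi => h.rng _ (by omega), fun i hi => ?_,
    fun i hi => ?_, ?_, ?_, ?_, ?_⟩
  · set l := n - 1 - (i + 1) with hl
    have e : n - 1 - i = l + 1 := by omega
    rw [e]
    have a := h.step l (by omega)
    have b := h.lip l (by omega)
    have c := norm_ee_sub_le (τ (l + 1) / 2) (τ l / 2)
    rw [← sub_div, abs_div, abs_two] at c
    have e2 : (starRingEnd ℂ) (g l) - (starRingEnd ℂ) (g (l + 1)) * ee (τ (l + 1) / 2)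
        = (starRingEnd ℂ) (g l * (ee (τ (l + 1) / 2) - ee (τ l / 2))
          - (g (l + 1) - g l * ee (τ l / 2))) * ee (τ (l + 1) / 2) := by
      have := ee_mul_neg (τ (l + 1) / 2)
      simp only [map_sub, map_mul, conj_ee]
      linear_combination (-(starRingEnd ℂ) (g l)) * this
    rw [e2, norm_mul, norm_ee, mul_one, Complex.norm_conj]
    refine (norm_sub_le _ _).trans ?_
    rw [norm_mul, h.norm, one_mul]
    linarith
  · have e : n - 1 - i = n - 1 - (i + 1) + 1 := by omega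
    rw [e, abs_sub_comm]
    linarith [h.lip (n - 1 - (i + 1)) (by omega)]
  · rw [cj, Nat.sub_zero]; linarith [h.g1]
  · rw [cj, Nat.sub_self]; linarith [h.g0]
  · rw [Nat.sub_zero]; linarith [h.t1]
  · rw [Nat.sub_self]; linarith [h.t0]

lemma glue1 {A : Type} [Fintype A] (G : ℕ) (hG : 0 < G) (n : A → ℕ) (S : A → ℤ) (g : A → ℕ → ℂ)
    (τ : A → ℕ → ℝ) {δ U : ℝ} (h : ∀ α, ArcOK (n α) (g α) (τ α) δ U)
    (inj : ∀ α (i : ℕ) α' (i' : ℕ), i < n α → i' < n α' → S α + i ≡ S α' + i' [ZMOD G] →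
      α = α' ∧ i = i')
    (surj : ∀ m : ℤ, ∃ α, ∃ i : ℕ, i < n α ∧ m ≡ S α + i [ZMOD G]) :
    ∃ (H : ℤ → ℂ) (σ : ℤ → ℝ), (∀ m, H (m + G) = H m) ∧ (∀ m, ‖H m‖ = 1) ∧
      (∀ m, 0 ≤ σ m ∧ σ m ≤ U) ∧ (∀ m, ‖H (m + 1) - H m * ee (σ m / 2)‖ ≤ 6 * δ) ∧
      (∀ m, |σ (m + 1) - σ m| ≤ 6 * δ) ∧
      ∀ f : ℤ → ℂ, (∀ m m', m ≡ m' [ZMOD G] → f m = f m') →
        ∑ m ∈ range G, H m * f m = ∑ α, ∑ i ∈ range (n α), g α i * f (S α + i) := by
  classical
  choose a b hb hab using surj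
  have key : ∀ m α (i : ℕ), i < n α → m ≡ S α + i [ZMOD G] → a m = α ∧ b m = i :=
    fun m α i hi hm => inj _ _ _ _ (hb m) hi ((hab m).symm.trans hm)
  have adj : ∀ m, (b m + 1 < n (a m) ∧ a (m + 1) = a m ∧ b (m + 1) = b m + 1) ∨
      (b m = n (a m) - 1 ∧ b (m + 1) = 0) := by
    intro m
    by_cases hm : b m + 1 < n (a m)
    · left
      refine ⟨hm, key _ _ _ hm ?_⟩
      push_cast; rw [← add_assoc]; exact (hab m).add_right 1
    · right
      refine ⟨by have := hb m; omega, ?_⟩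
      by_contra h0
      obtain ⟨l, hl⟩ := Nat.exists_eq_succ_of_ne_zero h0
      have h1 := hb (m + 1)
      have h2 := hab (m + 1)
      rw [hl] at h1 h2
      push_cast at h2
      rw [← add_assoc] at h2
      obtain ⟨h3, h4⟩ := key m (a (m + 1)) l (by omega) (h2.add_right_cancel' 1)
      rw [← h3] at h1; omega
  have hδ : 0 ≤ δ := (norm_nonneg _).trans (h (a 0)).g0
  refine ⟨fun m => g (a m) (b m), fun m => τ (a m) (b m), fun m => ?_, fun m => (h _).norm _,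
    fun m => (h _).rng _ (hb m), fun m => ?_, fun m => ?_, fun f hf => ?_⟩
  · obtain ⟨h1, h2⟩ := key (m + G) (a m) (b m) (hb m)
      (Int.ModEq.trans (Int.modEq_iff_dvd.2 ⟨-1, by ring⟩) (hab m))
    simp only [h1, h2]
  · rcases adj m with ⟨h1, h2, h3⟩ | ⟨h1, h2⟩
    · simp only [h2, h3]; linarith [(h (a m)).step _ h1]
    · simp only [h2]
      have a1 := (h (a (m + 1))).g0
      have a2 := (h (a m)).g1
      have a3 := (h (a m)).t1
      have a4 := ((h (a m)).rng _ (hb m)).1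
      rw [← h1] at a2 a3
      have a5 := norm_ee_sub_one_le (τ (a m) (b m) / 2)
      rw [abs_of_nonneg (by linarith)] at a5
      have e : g (a (m + 1)) 0 - g (a m) (b m) * ee (τ (a m) (b m) / 2)
          = (g (a (m + 1)) 0 - 1) - (g (a m) (b m) - 1)
            - g (a m) (b m) * (ee (τ (a m) (b m) / 2) - 1) := by ring
      rw [e]
      refine (norm_sub_le _ _).trans ((add_le_add_left (norm_sub_le _ _) _).trans ?_)
      rw [norm_mul, (h _).norm, one_mul]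
      linarith
  · rcases adj m with ⟨h1, h2, h3⟩ | ⟨h1, h2⟩
    · simp only [h2, h3]; linarith [(h (a m)).lip _ h1]
    · simp only [h2]
      have a1 := (h (a (m + 1))).t0
      have a2 := ((h (a (m + 1))).rng 0 (h _).pos).1
      have a3 := (h (a m)).t1
      have a4 := ((h (a m)).rng _ (hb m)).1
      rw [← h1] at a3
      rw [abs_le]; constructor <;> linarith
  · rw [Finset.sum_sigma']
    refine Finset.sum_bij (fun m _ => (⟨a m, b m⟩ : Σ _ : A, ℕ)) ?_ ?_ ?_ ?_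
    · intro m _; simp [hb]
    · intro m hm m' hm' e
      simp only [Sigma.mk.injEq, heq_eq_eq] at e
      have := hab m
      rw [e.1, e.2] at this
      exact Nat.ModEq.eq_of_lt_of_lt (Int.natCast_modEq_iff.1 (this.trans (hab m').symm))
        (Finset.mem_range.1 hm) (Finset.mem_range.1 hm')
    · rintro ⟨α, i⟩ hi
      simp only [Finset.mem_sigma, Finset.mem_univ, true_and, Finset.mem_range] at hi
      have hG' : (0 : ℤ) < G := by exact_mod_cast hG
      have e := Int.toNat_of_nonneg (Int.emod_nonneg (S α + i) hG'.ne')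
      have l := Int.emod_lt_of_pos (S α + i) hG'
      obtain ⟨h1, h2⟩ := key (((S α + i) % G).toNat : ℕ) α i hi (by rw [e]; exact Int.mod_modEq _ _)
      exact ⟨((S α + i) % G).toNat, Finset.mem_range.2 (by omega), by simp only [h1, h2]⟩
    · intro m _
      simp only [hf _ _ (hab m)]

lemma glue2 {A : Type} [Fintype A] (N : ℕ) (hN : 0 < N) (n : A → ℕ) (S : A → ℤ) (g : A → ℕ → ℂ)
    (τ : A → ℕ → ℝ) {δ U : ℝ} (h : ∀ α, ArcOK (n α) (g α) (τ α) δ U)
    (inj : ∀ α (i : ℕ) α' (i' : ℕ), i < n α → i' < n α' → S α + i ≡ S α' + i' [ZMOD (2 * N : ℕ)] →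
      α = α' ∧ i = i')
    (mir : ∀ α (i : ℕ) α' (i' : ℕ), i < n α → i' < n α' →
      ¬ S α + i ≡ -(S α' + i') - 1 [ZMOD (2 * N : ℕ)])
    (surj : ∀ m : ℤ, ∃ α, ∃ i : ℕ, i < n α ∧ (m ≡ S α + i [ZMOD (2 * N : ℕ)] ∨
      m ≡ -(S α + i) - 1 [ZMOD (2 * N : ℕ)])) :
    ∃ (H : ℤ → ℂ) (σ : ℤ → ℝ), (∀ m, H (m + (2 * N : ℕ)) = H m) ∧ (∀ m, ‖H m‖ = 1) ∧
      (∀ m, 0 ≤ σ m ∧ σ m ≤ U) ∧ (∀ m, ‖H (m + 1) - H m * ee (σ m / 2)‖ ≤ 30 * δ) ∧
      (∀ m, |σ (m + 1) - σ m| ≤ 30 * δ) ∧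
      ∀ k : ℤ, bco N H k = ((∑ α, 2 * (((√N / (2 * N) : ℝ) : ℂ) * ∑ i ∈ range (n α),
        g α i * ee (-(k * (S α + i + 1 / 2) / (2 * N)))).re : ℝ) : ℂ) := by
  have cast : ∀ α (i : ℕ), i < n α → -(S α + n α) + i = -(S α + (n α - 1 - i : ℕ)) - 1 := by
    intro α i hi; omega
  obtain ⟨H, σ, h1, h2, h3, h4, h5, h6⟩ := glue1 (A := A × Bool) (2 * N) (by omega)
    (fun p => n p.1) (fun p => if p.2 then S p.1 else -(S p.1 + n p.1))
    (fun p => if p.2 then g p.1 else fun i => (starRingEnd ℂ) (g p.1 (n p.1 - 1 - i)))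
    (fun p => if p.2 then τ p.1 else fun i => τ p.1 (n p.1 - 1 - i)) (δ := 5 * δ) (U := U)
    (by
      rintro ⟨α, _ | _⟩
      · exact (h α).mirror
      · exact (h α).mono (by linarith [(norm_nonneg _).trans (h α).g0]))
    (by
      rintro ⟨α, _ | _⟩ i ⟨α', _ | _⟩ i' hi hi' e <;>
        simp only [if_true, Bool.false_eq_true, if_false] at hi hi' e
      · rw [cast α i hi, cast α' i' hi'] at e
        obtain ⟨rfl, e2⟩ := inj α (n α - 1 - i) α' (n α' - 1 - i') (by omega) (by omega)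
          (Int.neg_modEq_neg.1 (by simpa using e.add_right 1))
        exact ⟨rfl, by omega⟩
      · rw [cast α i hi] at e
        exact absurd e.symm (mir _ _ _ _ hi' (by omega))
      · rw [cast α' i' hi'] at e
        exact absurd e (mir _ _ _ _ hi (by omega))
      · obtain ⟨rfl, e2⟩ := inj α _ α' _ hi hi' e
        exact ⟨rfl, e2⟩)
    (by
      intro m
      obtain ⟨α, i, hi, e | e⟩ := surj m
      · exact ⟨(α, true), i, hi, e⟩
      · refine ⟨(α, false), n α - 1 - i, by simp only; omega, ?_⟩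
        simp only [Bool.false_eq_true, if_false]
        rw [cast α _ (by omega), show n α - 1 - (n α - 1 - i) = i by omega]
        exact e)
  refine ⟨H, σ, h1, h2, h3, fun m => by linarith [h4 m], fun m => by linarith [h5 m], fun k => ?_⟩
  have hNr : (N : ℝ) ≠ 0 := by exact_mod_cast hN.ne'
  have := h6 (fun m => ee (-(k * (m + 1 / 2) / (2 * N)))) (fun m m' e => by
    obtain ⟨c, hc⟩ := Int.modEq_iff_dvd.1 e
    have : (m' : ℝ) = m + 2 * N * c := by
      have : m' = m + (2 * N : ℕ) * c := by linarith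
      rw [this]; push_cast; ring
    apply ee_congr (k * c)
    rw [this]; push_cast; field_simp; ring)
  simp only [Int.cast_natCast] at this
  unfold bco
  rw [this, Fintype.sum_prod_type, Finset.mul_sum, Complex.ofReal_sum]
  refine Finset.sum_congr rfl fun α _ => ?_
  rw [Fintype.sum_bool, ← Complex.add_conj, mul_add]
  simp only [if_true, Bool.false_eq_true, if_false]
  push_cast
  congr 1
  rw [map_mul, map_sum, ← Finset.sum_range_reflect]
  congr 1
  · rw [← Complex.ofReal_natCast, ← Complex.ofReal_ofNat, ← Complex.ofReal_mul,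
      ← Complex.ofReal_div, Complex.conj_ofReal]
  refine Finset.sum_congr rfl fun i hi => ?_
  rw [Finset.mem_range] at hi
  rw [map_mul, conj_ee, show n α - 1 - (n α - 1 - i) = i by omega]
  congr 2
  have : ((n α - 1 - i : ℕ) : ℝ) = n α - 1 - i := by
    rw [Nat.cast_sub (by omega), Nat.cast_sub (by omega)]; simp
  rw [this]; ring

end Vale.Agent.P110
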