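import Vale.Agent.P110.Basic

namespace Vale.Agent.P110

open Complex Real Finset

noncomputable def ct (d : ℝ) : ℝ := Real.cos (π * d) / Real.sin (π * d)

noncomputable def ww (d : ℝ) : ℂ := -1 / 2 - Complex.I * (ct d / 2 : ℝ)

lemma sin_pos_of {d : ℝ} (h0 : 0 < d) (h1 : d < 1) : 0 < Real.sin (π * d) :=
  Real.sin_pos_of_pos_of_lt_pi (by positivity) (by nlinarith [Real.pi_pos])

lemma ww_mul {d : ℝ} (h0 : 0 < d) (h1 : d < 1) : (ee d - 1) * ww d = 1 := by
  have hs := sin_pos_of h0 h1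
  have hc : Real.cos (2 * π * d) = 1 - 2 * Real.sin (π * d) ^ 2 := by
    rw [mul_assoc, Real.cos_two_mul, Real.cos_sq']; ring
  have hs2 : Real.sin (2 * π * d) = 2 * Real.sin (π * d) * Real.cos (π * d) := by
    rw [mul_assoc, Real.sin_two_mul]
  have hsc := Real.sin_sq_add_cos_sq (π * d)
  apply Complex.ext
  · simp only [ww, Complex.mul_re, Complex.sub_re, Complex.sub_im, ee_re, ee_im, Complex.one_re,
      Complex.one_im, Complex.mul_im, Complex.I_re, Complex.I_im, Complex.ofReal_re,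
      Complex.ofReal_im, Complex.div_ofNat_re, Complex.div_ofNat_im, Complex.neg_re, Complex.neg_im,
      hc, hs2, ct]
    field_simp
    nlinarith
  · simp only [ww, Complex.mul_re, Complex.sub_re, Complex.sub_im, ee_re, ee_im, Complex.one_re,
      Complex.one_im, Complex.mul_im, Complex.I_re, Complex.I_im, Complex.ofReal_re,
      Complex.ofReal_im, Complex.div_ofNat_re, Complex.div_ofNat_im, Complex.neg_re, Complex.neg_im,
      hc, hs2, ct]
    field_simp
    ring

lemma ct_anti {a b : ℝ} (h0 : 0 < a) (hab : a ≤ b) (h1 : b < 1) : ct b ≤ ct a := by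
  have ha := sin_pos_of h0 (lt_of_le_of_lt hab h1)
  have hb := sin_pos_of (lt_of_lt_of_le h0 hab) h1
  unfold ct
  rw [div_le_div_iff₀ hb ha]
  have : 0 ≤ Real.sin (π * b - π * a) :=
    Real.sin_nonneg_of_nonneg_of_le_pi (by nlinarith [Real.pi_pos]) (by nlinarith [Real.pi_pos])
  rw [Real.sin_sub] at this
  linarith

lemma abs_ct_le {lam d : ℝ} (hl : 0 < lam) (h0 : lam ≤ d) (h1 : d ≤ 1 - lam) :
    |ct d| ≤ 1 / (2 * lam) := by
  have hs := sin_lower' hl.le h0 h1
  unfold ct
  rw [abs_div, abs_of_pos (by linarith : 0 < Real.sin (π * d))]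
  exact div_le_div₀ (by norm_num) (Real.abs_cos_le_one _) (by linarith) hs

lemma norm_ww_le {lam d : ℝ} (hl : 0 < lam) (h0 : lam ≤ d) (h1 : d ≤ 1 - lam) :
    ‖ww d‖ ≤ 1 / (4 * lam) := by
  have hs := sin_lower' hl.le h0 h1
  have h := congrArg norm (ww_mul (d := d) (by linarith) (by linarith))
  rw [norm_mul, norm_ee_sub_one, norm_one, abs_of_pos (by linarith)] at h
  rw [le_div_iff₀ (by positivity)]
  nlinarith [norm_nonneg (ww d)]

/-- Kusmin-Landau inequality. -/
lemma kl (φ : ℕ → ℝ) (a b : ℕ) {lam : ℝ} (hl : 0 < lam)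
    (hmono : ∀ i, a ≤ i → i + 1 < b → φ (i + 1) - φ i ≤ φ (i + 2) - φ (i + 1))
    (hr : ∀ i, a ≤ i → i < b → lam ≤ φ (i + 1) - φ i ∧ φ (i + 1) - φ i ≤ 1 - lam) :
    ‖∑ i ∈ Ico a b, ee (φ i)‖ ≤ 1 / lam := by
  rcases le_or_gt b a with hba | hab
  · rw [Finset.Ico_eq_empty_of_le hba]; simp; positivity
  set δ : ℕ → ℝ := fun i => φ (i + 1) - φ i with hδ
  have step : ∀ i, a ≤ i → i < b → ee (φ i) = (ee (φ (i + 1)) - ee (φ i)) * ww (δ i) := by
    intro i h1 h2
    have := ww_mul (d := δ i) (by linarith [(hr i h1 h2).1]) (by linarith [(hr i h1 h2).2])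
    have e : ee (φ (i + 1)) = ee (φ i) * ee (δ i) := by rw [← ee_add]; congr 1; simp [hδ]
    rw [e]; linear_combination (-ee (φ i)) * this
  have key : ∀ n, a ≤ n → n < b →
      ‖∑ i ∈ Ico a (n + 1), ee (φ i) - ee (φ (n + 1)) * ww (δ n) + ee (φ a) * ww (δ a)‖
        ≤ (ct (δ a) - ct (δ n)) / 2 := by
    intro n hn
    induction n, hn using Nat.le_induction with
    | base =>
      intro h
      have := step a le_rfl h
      simp only [Nat.Ico_succ_singleton, Finset.sum_singleton, sub_self, zero_div]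
      have e : ee (φ a) - ee (φ (a + 1)) * ww (δ a) + ee (φ a) * ww (δ a) = 0 := by
        linear_combination this
      rw [e]; simp
    | succ n hn ih =>
      intro h
      have ih' := ih (by omega)
      have st := step (n + 1) (by omega) h
      rw [Finset.sum_Ico_succ_top (by omega)]
      have e : ∑ i ∈ Ico a (n + 1), ee (φ i) + ee (φ (n + 1))
          - ee (φ (n + 1 + 1)) * ww (δ (n + 1)) + ee (φ a) * ww (δ a)
          = (∑ i ∈ Ico a (n + 1), ee (φ i) - ee (φ (n + 1)) * ww (δ n) + ee (φ a) * ww (δ a))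
            + ee (φ (n + 1)) * (ww (δ n) - ww (δ (n + 1))) := by
        linear_combination st
      rw [e]
      refine (norm_add_le _ _).trans ?_
      have hle : ct (δ (n + 1)) ≤ ct (δ n) :=
        ct_anti (by linarith [(hr n hn (by omega)).1]) (hmono n hn h)
          (by linarith [(hr (n + 1) (by omega) h).2])
      have e2 : ww (δ n) - ww (δ (n + 1))
          = -Complex.I * (((ct (δ n) - ct (δ (n + 1))) / 2 : ℝ) : ℂ) := by
        unfold ww; push_cast; ring
      rw [norm_mul, norm_ee, one_mul, e2, norm_mul, norm_neg, Complex.norm_I, one_mul,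
        Complex.norm_real, Real.norm_eq_abs, abs_of_nonneg (by linarith)]
      linarith
  obtain ⟨n, rfl⟩ : ∃ n, b = n + 1 := ⟨b - 1, by omega⟩
  have k := key n (by omega) (by omega)
  have h1 := norm_ww_le hl (hr n (by omega) (by omega)).1 (hr n (by omega) (by omega)).2
  have h2 := norm_ww_le hl (hr a le_rfl hab).1 (hr a le_rfl hab).2
  have h3 := abs_ct_le hl (hr n (by omega) (by omega)).1 (hr n (by omega) (by omega)).2
  have h4 := abs_ct_le hl (hr a le_rfl hab).1 (hr a le_rfl hab).2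
  have e : ∑ i ∈ Ico a (n + 1), ee (φ i)
      = (∑ i ∈ Ico a (n + 1), ee (φ i) - ee (φ (n + 1)) * ww (δ n) + ee (φ a) * ww (δ a))
        + ee (φ (n + 1)) * ww (δ n) - ee (φ a) * ww (δ a) := by ring
  rw [e]
  refine (norm_sub_le _ _).trans ?_
  refine (add_le_add_left (norm_add_le _ _) _).trans ?_
  rw [norm_mul, norm_mul, norm_ee, norm_ee, one_mul, one_mul]
  have a3 := abs_le.1 h3
  have a4 := abs_le.1 h4
  have e1 : 1 / (4 * lam) = (1 / lam) / 4 := by field_simp
  have e2 : 1 / (2 * lam) = (1 / lam) / 2 := by field_simp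
  simp only [hδ] at *
  linarith [a3.1, a4.2]

/-- Kusmin-Landau with negative increments. -/
lemma kl_neg (φ : ℕ → ℝ) (a b : ℕ) {lam : ℝ} (hl : 0 < lam)
    (hmono : ∀ i, a ≤ i → i + 1 < b → φ (i + 1) - φ i ≤ φ (i + 2) - φ (i + 1))
    (hr : ∀ i, a ≤ i → i < b → -(1 - lam) ≤ φ (i + 1) - φ i ∧ φ (i + 1) - φ i ≤ -lam) :
    ‖∑ i ∈ Ico a b, ee (φ i)‖ ≤ 1 / lam := by
  have := kl (fun i => φ i + (i : ℤ)) a b hl
    (fun i h1 h2 => by have := hmono i h1 h2; push_cast; linarith)
    (fun i h1 h2 => by have := hr i h1 h2; push_cast; constructor <;> linarith)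
  simpa only [ee_add_int] using this

/-- Second-difference type bound. -/
lemma b1 (φ : ℕ → ℝ) (n n0 : ℕ) {lam : ℝ} (hl : 0 < lam)
    (hmono : ∀ i, i + 2 < n → φ (i + 1) - φ i ≤ φ (i + 2) - φ (i + 1))
    (hr : ∀ i, i + 1 < n → |φ (i + 1) - φ i| ≤ 1 - lam)
    (hspan : ∀ i j, i ≤ j → j + 1 < n → |φ (i + 1) - φ i| < lam → |φ (j + 1) - φ j| < lam →
      j - i ≤ n0) :
    ‖∑ i ∈ range n, ee (φ i)‖ ≤ n0 + 2 + 2 / lam := by
  classical
  rcases Nat.eq_zero_or_pos n with rfl | hn
  · simp; positivity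
  obtain ⟨m, rfl⟩ : ∃ m, n = m + 1 := ⟨n - 1, by omega⟩
  set δ : ℕ → ℝ := fun i => φ (i + 1) - φ i with hδ
  have mono : ∀ i j, i ≤ j → j < m → δ i ≤ δ j := by
    intro i j hij
    induction j, hij using Nat.le_induction with
    | base => intro _; exact le_rfl
    | succ j hj ih => intro h; exact (ih (by omega)).trans (hmono j (by omega))
  have exa : ∃ i, m ≤ i ∨ -lam < δ i := ⟨m, Or.inl le_rfl⟩
  have exb : ∃ i, m ≤ i ∨ lam ≤ δ i := ⟨m, Or.inl le_rfl⟩
  set a := Nat.find exa with ha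
  set b := Nat.find exb with hb
  have ham : a ≤ m := Nat.find_min' exa (Or.inl le_rfl)
  have hbm : b ≤ m := Nat.find_min' exb (Or.inl le_rfl)
  have hab : a ≤ b := by
    apply Nat.find_min' exa
    rcases Nat.find_spec exb with h | h
    · exact Or.inl h
    · right; linarith
  have hlt_a : ∀ i, i < a → δ i ≤ -lam := fun i hi => by
    have := Nat.find_min exa hi; push Not at this; exact this.2
  have hlt_b : ∀ i, i < b → δ i < lam := fun i hi => by
    have := Nat.find_min exb hi; push Not at this; exact this.2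
  have s1 : ‖∑ i ∈ Ico 0 a, ee (φ i)‖ ≤ 1 / lam := by
    apply kl_neg φ 0 a hl
    · intro i _ h; exact hmono i (by omega)
    · intro i _ h
      exact ⟨(abs_le.1 (hr i (by omega))).1, hlt_a i h⟩
  have s3 : ‖∑ i ∈ Ico b m, ee (φ i)‖ ≤ 1 / lam := by
    apply kl φ b m hl
    · intro i _ h; exact hmono i (by omega)
    · intro i h1 h2
      refine ⟨?_, (abs_le.1 (hr i (by omega))).2⟩
      rcases Nat.find_spec exb with h | h
      · omega
      · exact h.trans (mono _ _ h1 h2)
  have s2 : ‖∑ i ∈ Ico a b, ee (φ i)‖ ≤ n0 + 1 := by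
    refine (norm_sum_le _ _).trans ?_
    simp only [norm_ee, Finset.sum_const, Nat.card_Ico, nsmul_eq_mul, mul_one]
    rcases Nat.eq_or_lt_of_le hab with h | h
    · rw [h]; simp; positivity
    · have hda : -lam < δ a := by
        rcases Nat.find_spec exa with h' | h'
        · omega
        · exact h'
      have := hspan a (b - 1) (by omega) (by omega)
        (abs_lt.2 ⟨hda, hlt_b a h⟩)
        (abs_lt.2 ⟨hda.trans_le (mono a (b - 1) (by omega) (by omega)), hlt_b _ (by omega)⟩)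
      have : b - a ≤ n0 + 1 := by omega
      exact_mod_cast this
  rw [Finset.sum_range_succ, Finset.range_eq_Ico, ← Finset.sum_Ico_consecutive _ (Nat.zero_le b) hbm,
    ← Finset.sum_Ico_consecutive _ (Nat.zero_le a) hab]
  refine (norm_add_le _ _).trans ?_
  refine (add_le_add_left (norm_add_le _ _) _).trans ?_
  refine (add_le_add_left (add_le_add_left (norm_add_le _ _) _) _).trans ?_
  rw [norm_ee]
  have : 2 / lam = 1 / lam + 1 / lam := by ring
  linarith

end Vale.Agent.P110
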