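import Vale.Agent.P110.Basic

namespace Vale.Agent.P110

open Complex Real Finset Filter Topology

noncomputable def DD (n : ℕ) (s : ℝ) : ℂ := ∑ p ∈ range n, ee (p * s)

noncomputable def WW (n1 n2 : ℕ) (s : ℝ) : ℂ :=
  (1 / n2 : ℂ) * ∑ q ∈ range n2, ∑ p ∈ range n1, ee ((p + q + 1 - n2 : ℝ) * s)

lemma WW_eq (n1 n2 : ℕ) (s : ℝ) :
    WW n1 n2 s = (1 / n2 : ℂ) * (DD n2 s * DD n1 s) * ee ((1 - n2) * s) := by
  unfold WW DD
  rw [Finset.sum_mul_sum, mul_assoc, Finset.sum_mul]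
  congr 1
  refine Finset.sum_congr rfl fun q _ => ?_
  rw [Finset.sum_mul]
  refine Finset.sum_congr rfl fun p _ => ?_
  rw [← ee_add, ← ee_add]; congr 1; ring

lemma norm_WW (n1 n2 : ℕ) (s : ℝ) : ‖WW n1 n2 s‖ = ‖DD n2 s‖ * ‖DD n1 s‖ / n2 := by
  rw [WW_eq, norm_mul, norm_mul, norm_mul, norm_ee]; simp; ring

lemma WW_add_int (n1 n2 : ℕ) (s : ℝ) (a : ℤ) : WW n1 n2 (s + a) = WW n1 n2 s := by
  unfold WW
  congr 1
  refine Finset.sum_congr rfl fun q _ => Finset.sum_congr rfl fun p _ => ?_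
  apply ee_congr ((p + q + 1 - n2) * a); push_cast; ring

lemma norm_DD_le (n : ℕ) (s : ℝ) : ‖DD n s‖ ≤ n := by
  refine (norm_sum_le _ _).trans ?_; simp

lemma abs_le_norm_ee_sub_one {s : ℝ} (h : |s| ≤ 3 / 4) : |s| ≤ ‖ee s - 1‖ := by
  rcases le_total |s| (1 / 2) with h1 | h1
  · have := norm_ee_sub_one_ge h1; linarith [abs_nonneg s]
  · rcases le_total 0 s with h0 | h0
    · rw [abs_of_nonneg h0] at *
      have := norm_ee_sub_one_ge (x := s + (-1 : ℤ)) (by push_cast; rw [abs_le]; constructor <;> linarith)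
      rw [ee_add_int, abs_of_nonpos (by push_cast; linarith)] at this
      push_cast at this; linarith
    · rw [abs_of_nonpos h0] at *
      have := norm_ee_sub_one_ge (x := s + (1 : ℤ)) (by push_cast; rw [abs_le]; constructor <;> linarith)
      rw [ee_add_int, abs_of_nonneg (by push_cast; linarith)] at this
      push_cast at this; linarith

lemma norm_DD_le' (n : ℕ) {s : ℝ} (h0 : s ≠ 0) (h : |s| ≤ 3 / 4) : ‖DD n s‖ ≤ 2 / |s| := by
  have h1 := abs_le_norm_ee_sub_one h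
  have hs := abs_pos.2 h0
  have e : DD n s * (ee s - 1) = ee s ^ n - 1 := by
    rw [← geom_sum_mul]; unfold DD; simp only [ee_pow]
  have := congrArg norm e
  rw [norm_mul] at this
  have h2 : ‖ee s ^ n - 1‖ ≤ 2 := by
    refine (norm_sub_le _ _).trans ?_; rw [norm_pow, norm_ee]; norm_num
  rw [le_div_iff₀ hs]
  nlinarith [norm_nonneg (DD n s)]

lemma orth (G : ℕ) (o : ℝ) (a : ℤ) (ha : |a| < G) :
    ∑ m ∈ range G, ee (a * (m + o) / G) = if a = 0 then (G : ℂ) else 0 := by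
  have hG : 0 < G := by have := abs_nonneg a; omega
  have : ∀ m ∈ range G, ee (a * (m + o) / G) = ee (a * o / G) * ee (a * m / G) := by
    intro m _; rw [← ee_add]; congr 1; ring
  rw [Finset.sum_congr rfl this, ← Finset.mul_sum, sum_ee_period G hG]
  by_cases h : a = 0
  · simp [h]
  · rw [if_neg h, if_neg, mul_zero]
    intro hd
    exact h (Int.eq_zero_of_abs_lt_dvd hd ha)

lemma repro {n1 n2 G : ℕ} (hn2 : 0 < n2) (hG : n1 ≤ G) (k : ℕ) (hk : k + n2 ≤ n1) (o θ : ℝ) :
    ∑ m ∈ range G, ee (k * (m + o) / G) * WW n1 n2 (θ - (m + o) / G) = G * ee (k * θ) := by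
  unfold WW
  have e : ∀ m ∈ range G, ee (k * (m + o) / G) * ((1 / n2 : ℂ) * ∑ q ∈ range n2, ∑ p ∈ range n1,
      ee ((p + q + 1 - n2 : ℝ) * (θ - (m + o) / G)))
      = (1 / n2 : ℂ) * ∑ q ∈ range n2, ∑ p ∈ range n1, ee ((p + q + 1 - n2 : ℝ) * θ) *
        ee (((k - (p + q + 1 - n2) : ℤ) : ℝ) * (m + o) / G) := by
    intro m _
    rw [mul_left_comm, Finset.mul_sum]
    congr 1
    refine Finset.sum_congr rfl fun q _ => ?_
    rw [Finset.mul_sum]
    refine Finset.sum_congr rfl fun p _ => ?_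
    rw [← ee_add, ← ee_add]; congr 1; push_cast; ring
  rw [Finset.sum_congr rfl e, ← Finset.mul_sum, Finset.sum_comm]
  have e2 : ∀ q ∈ range n2, ∑ m ∈ range G, ∑ p ∈ range n1, ee ((p + q + 1 - n2 : ℝ) * θ) *
        ee (((k - (p + q + 1 - n2) : ℤ) : ℝ) * (m + o) / G) = G * ee (k * θ) := by
    intro q hq
    rw [Finset.mem_range] at hq
    rw [Finset.sum_comm]
    rw [Finset.sum_eq_single_of_mem (k + n2 - 1 - q) (Finset.mem_range.2 (by omega))]
    · have e3 : ((k + n2 - 1 - q : ℕ) : ℤ) = k + n2 - 1 - q := by omega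
      have e4 : ((k + n2 - 1 - q : ℕ) : ℝ) = k + n2 - 1 - q := by exact_mod_cast e3
      rw [← Finset.mul_sum, orth G o _ (by rw [e3]; simp; omega), if_pos (by rw [e3]; ring), e4,
        mul_comm]
      congr 2; ring
    · intro p hp hne
      rw [Finset.mem_range] at hp
      rw [← Finset.mul_sum, orth G o _ (by rw [abs_lt]; constructor <;> omega), if_neg (by omega),
        mul_zero]
  rw [Finset.sum_congr rfl e2]
  have : (n2 : ℂ) ≠ 0 := by exact_mod_cast hn2.ne'
  simp; field_simp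

lemma parseval {n G : ℕ} (hG : n ≤ G) (c : ℕ → ℂ) (θ : ℝ) :
    ∑ m ∈ range G, ‖∑ k ∈ range n, c k * ee (k * (θ - m / G))‖ ^ 2
      = G * ∑ k ∈ range n, ‖c k‖ ^ 2 := by
  have key : ∀ m ∈ range G, ((‖∑ k ∈ range n, c k * ee (k * (θ - m / G))‖ ^ 2 : ℝ) : ℂ)
      = ∑ k ∈ range n, ∑ l ∈ range n, (c k * ee (k * θ)) * (starRingEnd ℂ) (c l * ee (l * θ)) *
        ee (((l - k : ℤ) : ℝ) * (m + 0) / G) := by
    intro m _
    rw [← Complex.normSq_eq_norm_sq, ← Complex.mul_conj, map_sum, Finset.sum_mul_sum]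
    refine Finset.sum_congr rfl fun k _ => Finset.sum_congr rfl fun l _ => ?_
    simp only [map_mul, conj_ee]
    have : ee (k * (θ - m / G)) * ee (-(l * (θ - m / G)))
        = ee (k * θ) * ee (-(l * θ)) * ee (((l - k : ℤ) : ℝ) * (m + 0) / G) := by
      rw [← ee_add, ← ee_add, ← ee_add]; congr 1; push_cast; ring
    linear_combination (c k * (starRingEnd ℂ) (c l)) * this
  apply Complex.ofReal_injective
  rw [Complex.ofReal_sum, Finset.sum_congr rfl key, Finset.sum_comm]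
  push_cast
  rw [Finset.mul_sum]
  refine Finset.sum_congr rfl fun k hk => ?_
  rw [Finset.mem_range] at hk
  rw [Finset.sum_comm, Finset.sum_eq_single_of_mem k (Finset.mem_range.2 hk)]
  · rw [← Finset.mul_sum]
    have := orth G 0 ((k : ℤ) - k) (by simp; omega)
    push_cast at this
    rw [this, if_pos (by simp), Complex.mul_conj, Complex.normSq_eq_norm_sq, norm_mul, norm_ee]
    push_cast; ring
  · intro l hl hne
    rw [Finset.mem_range] at hl
    rw [← Finset.mul_sum]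
    have := orth G 0 ((l : ℤ) - k) (by rw [abs_lt]; constructor <;> omega)
    push_cast at this
    rw [this, if_neg (by omega), mul_zero]

lemma sup_grid {N : ℕ} (c : ℕ → ℂ) {B : ℝ}
    (h : ∀ m ∈ range (4 * N), ‖∑ k ∈ range N, c k * ee (k * (m / (4 * N : ℕ)))‖ ≤ B) (hN : 0 < N)
    (θ : ℝ) : ‖∑ k ∈ range N, c k * ee (k * θ)‖ ≤ 2 * B := by
  have hB : 0 ≤ B := (norm_nonneg _).trans (h 0 (Finset.mem_range.2 (by omega)))
  set G := 4 * N with hG
  have hGr : (0 : ℝ) < G := by positivity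
  have hNr : (0 : ℝ) < N := by positivity
  have e : (G : ℂ) * ∑ k ∈ range N, c k * ee (k * θ)
      = ∑ m ∈ range G, (∑ k ∈ range N, c k * ee (k * (m / G))) * WW (2 * N) N (θ - m / G) := by
    simp only [Finset.sum_mul]
    rw [Finset.sum_comm, Finset.mul_sum]
    refine Finset.sum_congr rfl fun k hk => ?_
    rw [Finset.mem_range] at hk
    have := repro (n1 := 2 * N) (n2 := N) (G := G) hN (by omega) k (by omega) 0 θ
    simp only [add_zero] at this
    rw [mul_left_comm, ← this, Finset.mul_sum]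
    refine Finset.sum_congr rfl fun m _ => ?_
    rw [mul_assoc, mul_div_assoc]
  have p1 := parseval (n := N) (G := G) (by omega) (fun _ => 1) θ
  have p2 := parseval (n := 2 * N) (G := G) (by omega) (fun _ => 1) θ
  simp only [one_mul, norm_one, one_pow, Finset.sum_const, Finset.card_range, nsmul_eq_mul,
    mul_one] at p1 p2
  have h2 : ‖(G : ℂ) * ∑ k ∈ range N, c k * ee (k * θ)‖ ≤ G * (2 * B) := by
    rw [e]
    refine (norm_sum_le _ _).trans ?_
    have : ∀ m ∈ range G, ‖(∑ k ∈ range N, c k * ee (k * (m / G))) * WW (2 * N) N (θ - m / G)‖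
        ≤ B / (2 * N) * (‖DD N (θ - m / G)‖ ^ 2 + ‖DD (2 * N) (θ - m / G)‖ ^ 2) := by
      intro m hm
      rw [norm_mul, norm_WW]
      have a := h m hm
      have b : ‖DD N (θ - m / G)‖ * ‖DD (2 * N) (θ - m / G)‖ / N
          ≤ (‖DD N (θ - m / G)‖ ^ 2 + ‖DD (2 * N) (θ - m / G)‖ ^ 2) / (2 * N) := by
        rw [div_le_div_iff₀ hNr (by positivity)]
        nlinarith [mul_nonneg hNr.le (sq_nonneg (‖DD N (θ - m / G)‖ - ‖DD (2 * N) (θ - m / G)‖))]
      refine (mul_le_mul a b (by positivity) hB).trans (le_of_eq ?_)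
      ring
    refine (Finset.sum_le_sum this).trans ?_
    rw [← Finset.mul_sum, Finset.sum_add_distrib]
    unfold DD
    rw [p1, p2]
    push_cast
    have : B / (2 * N) * (G * N + G * (2 * N)) = G * (3 / 2 * B) := by field_simp; ring
    rw [this]; gcongr; linarith
  rw [norm_mul, Complex.norm_natCast] at h2
  exact le_of_mul_le_mul_left h2 hGr

end Vale.Agent.P110
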