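import Vale.Agent.P110.FinModel
import Vale.Agent.P110.SP3

namespace Vale.Agent.P110

open Real Finset Filter Topology

lemma Mix.norm_le {h : ℕ → ℂ} (hh : Mix h) {j : ℕ} (hj : 0 < j) : ‖h j‖ ≤ 1 := by
  have hjr : (j : ℝ) ≠ 0 := by exact_mod_cast hj.ne'
  by_cases h0 : h j = 0
  · simp [h0]
  have hn : ‖h j‖ ≠ 0 := norm_ne_zero_iff.2 h0
  have hn' : ((‖h j‖ : ℝ) : ℂ) ≠ 0 := by exact_mod_cast hn
  obtain ⟨t, ht⟩ := exists_ee (z := h j / ‖h j‖) (by simp [hn])
  have := hh {j} (fun _ => 1) 1 (fun x => by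
    simpa using (Complex.abs_re_le_norm _).trans (norm_ee (j * x)).le) (-t / j)
  simp only [Finset.sum_singleton, one_mul] at this
  rw [mul_div_cancel₀ _ hjr] at this
  have e : h j * ee (-t) = ‖h j‖ := by
    rw [div_eq_iff hn'] at ht
    have := ee_mul_neg t
    linear_combination (ee (-t)) * ht + ((‖h j‖ : ℝ) : ℂ) * this
  rw [e, Complex.ofReal_re] at this
  exact (le_abs_self _).trans this

lemma norm_prod_sub {ι : Type*} (s : Finset ι) (a b : ι → ℂ) {δ : ℝ} (hδ : 0 ≤ δ)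
    (h1 : ∀ i, ‖a i - b i‖ ≤ δ) (h2 : ∀ i, ‖b i‖ ≤ 1) :
    ‖∏ i ∈ s, a i - ∏ i ∈ s, b i‖ ≤ (1 + δ) ^ s.card - 1 := by
  classical
  induction s using Finset.induction_on with
  | empty => simp
  | insert x s hx ih =>
    rw [Finset.prod_insert hx, Finset.prod_insert hx, Finset.card_insert_of_notMem hx, pow_succ]
    have e : a x * ∏ i ∈ s, a i - b x * ∏ i ∈ s, b i
        = a x * (∏ i ∈ s, a i - ∏ i ∈ s, b i) + (a x - b x) * ∏ i ∈ s, b i := by ring
    have n1 : ‖a x‖ ≤ 1 + δ := by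
      have := norm_sub_norm_le (a x) (b x); linarith [h1 x, h2 x]
    have n2 : ‖∏ i ∈ s, b i‖ ≤ 1 := by
      rw [norm_prod]; exact Finset.prod_le_one (fun _ _ => norm_nonneg _) fun i _ => h2 i
    rw [e]
    refine (norm_add_le _ _).trans ?_
    rw [norm_mul, norm_mul]
    have a1 := mul_le_mul n1 ih (norm_nonneg _) (by linarith)
    have a2 := mul_le_mul (h1 x) n2 (norm_nonneg _) hδ
    linarith

lemma generic {ι : Type*} [Fintype ι] (V : Finset (ι → ℤ)) (hV : ∀ v ∈ V, v ≠ 0) :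
    ∃ w : ι → ℤ, ∀ v ∈ V, ∑ i, v i * w i ≠ 0 := by
  classical
  induction V using Finset.induction_on with
  | empty => exact ⟨0, by simp⟩
  | insert x s hx ih =>
    obtain ⟨w, hw⟩ := ih fun v hv => hV v (Finset.mem_insert_of_mem hv)
    obtain ⟨i0, hi0⟩ := Function.ne_iff.1 (hV x (Finset.mem_insert_self _ _))
    set t : ℤ := 1 + ∑ v ∈ insert x s, |∑ i, v i * w i| with ht
    refine ⟨fun i => w i + if i = i0 then t else 0, fun v hv => ?_⟩
    have e : ∑ i, v i * (w i + if i = i0 then t else 0) = ∑ i, v i * w i + v i0 * t := by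
      simp [mul_add, Finset.sum_add_distrib]
    rw [e]
    by_cases h0 : v i0 = 0
    · rcases Finset.mem_insert.1 hv with rfl | h
      · exact absurd h0 hi0
      · rw [h0, zero_mul, add_zero]; exact hw v h
    · intro h
      have h1 := Finset.single_le_sum (f := fun v : ι → ℤ => |∑ i, v i * w i|)
        (fun _ _ => abs_nonneg _) hv
      have h2 : ∑ i, v i * w i = -(v i0 * t) := by linarith
      have h3 := Int.one_le_abs h0
      have h4 : 0 < t := by have := abs_nonneg (∑ i, v i * w i); linarith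
      rw [h2, abs_neg, abs_mul, abs_of_pos h4] at h1
      nlinarith

lemma per_sum {ι : Type} [Fintype ι] [DecidableEq ι] (Λ : ι → ℕ) (f : (∀ i, Fin (Λ i)) → ℂ)
    (k : ℕ) : (k : ℝ) ^ Fintype.card ι * ∑ ρ : ∀ i, Fin (Λ i), ‖FT Λ f (fun i => ρ i)‖ ^ 2
      ≤ ∑ n ∈ Fintype.piFinset (fun i => range (k * Λ i)), ‖FT Λ f n‖ ^ 2 := by
  let φ : (ι → Fin k) × (∀ i, Fin (Λ i)) → ι → ℕ := fun p i => p.2 i + Λ i * p.1 i
  have hinj : Function.Injective φ := by
    rintro ⟨a, ρ⟩ ⟨a', ρ'⟩ h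
    have h1 : ∀ i, (ρ i : ℕ) = ρ' i := fun i => by
      have := congrArg (· % Λ i) (congrFun h i)
      simpa only [φ, Nat.add_mul_mod_self_left, Nat.mod_eq_of_lt (ρ i).isLt,
        Nat.mod_eq_of_lt (ρ' i).isLt] using this
    refine Prod.ext (funext fun i => Fin.ext ?_) (funext fun i => Fin.ext (h1 i))
    have := congrFun h i
    simp only [φ, h1 i, add_right_inj] at this
    exact Nat.eq_of_mul_eq_mul_left (ρ i).pos this
  have e : ∀ p, FT Λ f (φ p) = FT Λ f (fun i => p.2 i) := by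
    intro p
    unfold FT
    refine Finset.sum_congr rfl fun γ _ => ?_
    congr 1
    refine Finset.prod_congr rfl fun i _ => ?_
    apply ee_congr ((p.1 i : ℕ) * (γ i : ℕ))
    have : (Λ i : ℝ) ≠ 0 := by exact_mod_cast (γ i).pos.ne'
    simp only [φ]; push_cast; field_simp
  calc _ = ∑ p, ‖FT Λ f (φ p)‖ ^ 2 := by
        simp only [e]; rw [Fintype.sum_prod_type]; simp
    _ = ∑ n ∈ univ.image φ, ‖FT Λ f n‖ ^ 2 := (Finset.sum_image (f := fun n => ‖FT Λ f n‖ ^ 2) hinj.injOn).symm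
    _ ≤ _ := by
        refine Finset.sum_le_sum_of_subset_of_nonneg (fun n hn => ?_) fun _ _ _ => by positivity
        obtain ⟨p, _, rfl⟩ := Finset.mem_image.1 hn
        rw [Fintype.mem_piFinset]
        intro i
        rw [Finset.mem_range]
        have h1 := (p.2 i).isLt
        have h2 : Λ i * (p.1 i + 1) ≤ Λ i * k := Nat.mul_le_mul_left _ (p.1 i).isLt
        simp only [φ]; rw [mul_comm k]; rw [mul_add] at h2; omega

noncomputable def xi (P : ℝ → ℝ) (φ0 c : ℝ) (M : ℕ) (x : ℝ) : ℂ :=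
  ∑ n ∈ range M, ((√(c / M) : ℝ) : ℂ) * ee (c * M * P (n / M) - φ0) * ee (-(n * x))

lemma lift1 {ε : ℝ} {P T amp Leg : ℝ → ℝ} {φ0 K : ℝ} (h : SPD ε P T amp Leg φ0 K) {L : ℕ}
    (hL : 3 ≤ L) : ∀ᶠ lam : ℕ in atTop, ∀ x : ℝ, ∃ (g : Fin L) (A ψ : ℝ), 0 ≤ A ∧ A ≤ 1 ∧
      ∀ j : ℕ, 0 < j → ∀ γ : Fin L, ‖xi P φ0 (1 / (L * T 1)) (j * lam * L) (x - (γ : ℕ) / L)
        - if γ = g then (A : ℂ) * ee (j * ψ) else 0‖ ≤ ε := by
  have hT := h.T1_ge
  have hLr : (3 : ℝ) ≤ L := by exact_mod_cast hL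
  set c := 1 / (L * T 1) with hc
  have hc0 : 0 < c := by positivity
  obtain ⟨M0, hM0⟩ := eventually_atTop.1 (h.main c (1 / 3) hc0 (by norm_num))
  filter_upwards [eventually_ge_atTop M0, eventually_gt_atTop 0] with lam hlam hlam0 x
  let k : Fin L → ℤ := fun γ => ⌊x - (γ : ℕ) / L + 1 / 3⌋
  let v : Fin L → ℝ := fun γ => x - (γ : ℕ) / L - k γ
  have v1 : ∀ γ, -(1 / 3) ≤ v γ := fun γ => by
    have := Int.floor_le (x - (γ : ℕ) / L + 1 / 3); simp only [v, k]; linarith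
  have v2 : ∀ γ, v γ ≤ 2 / 3 := fun γ => by
    have := Int.lt_floor_add_one (x - (γ : ℕ) / L + 1 / 3); simp only [v, k]; linarith
  have uniq : ∀ γ γ', amp (v γ / c) ≠ 0 → amp (v γ' / c) ≠ 0 → γ = γ' := by
    have key : ∀ γ, amp (v γ / c) ≠ 0 → ⌊L * x⌋ = (γ : ℕ) + L * k γ := by
      intro γ hγ
      obtain ⟨a1, a2⟩ := h.amp_supp _ hγ
      have e : v γ / c = (L * v γ) * T 1 := by rw [hc]; field_simp
      rw [e] at a1 a2
      have b1 : 0 < L * v γ := (pos_iff_pos_of_mul_pos a1).2 (by linarith)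
      have b2 : L * v γ < 1 := by nlinarith
      have e2 : L * v γ = L * x - (γ : ℕ) - L * k γ := by simp only [v]; field_simp
      rw [Int.floor_eq_iff]; push_cast; constructor <;> linarith
    intro γ γ' h1 h2
    have e := (key γ h1).symm.trans (key γ' h2)
    have := congrArg (· % (L : ℤ)) e
    simp only [Int.add_mul_emod_self_left] at this
    rw [Int.emod_eq_of_lt (by positivity) (by exact_mod_cast γ.isLt),
      Int.emod_eq_of_lt (by positivity) (by exact_mod_cast γ'.isLt)] at this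
    exact Fin.ext (by exact_mod_cast this)
  obtain ⟨g, hg⟩ : ∃ g : Fin L, ∀ γ, γ ≠ g → amp (v γ / c) = 0 := by
    by_cases hex : ∃ g, amp (v g / c) ≠ 0
    · obtain ⟨g, hg⟩ := hex
      exact ⟨g, fun γ hγ => by_contra fun h' => hγ (uniq γ g h' hg)⟩
    · push Not at hex
      exact ⟨⟨0, by omega⟩, fun γ _ => hex γ⟩
  refine ⟨g, amp (v g / c), lam / T 1 * Leg (v g / c), h.amp_nonneg _, h.amp_le _, fun j hj γ => ?_⟩
  set M := j * lam * L with hM
  have hMp : 0 < M := by positivity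
  have hMr : (0 : ℝ) < M := by exact_mod_cast hMp
  have hM1 : M0 ≤ M := hlam.trans ((Nat.le_mul_of_pos_left _ hj).trans
    (Nat.le_mul_of_pos_right _ (by omega)))
  have sp := hM0 M hM1 0 (v γ / c) le_rfl zero_le_one (fun y hy => by
    have a1 := h.mono 0 y hy.1
    have a2 := h.mono y 1 hy.2
    rw [h.T0] at a1
    have a3 : c * T y ≤ 1 / 3 := by
      rw [hc, one_div_mul_eq_div, div_le_iff₀ (by positivity)]; nlinarith
    have a4 : 0 ≤ c * T y := by positivity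
    rw [mul_sub, mul_div_cancel₀ _ hc0.ne', abs_le]
    constructor <;> linarith [v1 γ, v2 γ])
  have e1 : xi P φ0 c M (x - (γ : ℕ) / L) = ee (-φ0) *
      (((√(c / M) : ℝ) : ℂ) * ∑ i ∈ range M, ee (ph P c M 0 (v γ / c) i)) := by
    unfold xi
    rw [Finset.mul_sum, Finset.mul_sum]
    refine Finset.sum_congr rfl fun n _ => ?_
    rw [mul_assoc, mul_left_comm (ee (-φ0)), ← ee_add, ← ee_add]
    congr 1
    apply ee_congr (-(n * k γ))
    simp only [ph, v, add_zero]; push_cast; field_simp; ring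
  have e2 : (if γ = g then ((amp (v g / c) : ℝ) : ℂ) * ee (j * (lam / T 1 * Leg (v g / c))) else 0)
      = ee (-φ0) * ((amp (v γ / c) : ℂ) * ee (φ0 + c * M * Leg (v γ / c))) := by
    split_ifs with hγ
    · rw [hγ, mul_left_comm (ee (-φ0)), ← ee_add]
      congr 2
      rw [hM, hc]; push_cast; field_simp; ring
    · simp [hg γ hγ]
  rw [e1, e2, ← mul_sub, norm_mul, norm_ee, one_mul]
  exact sp

lemma liftD {ε : ℝ} (hε : 0 ≤ ε) {P T amp Leg : ℝ → ℝ} {φ0 K : ℝ} (h : SPD ε P T amp Leg φ0 K)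
    {ι : Type} [Fintype ι] [DecidableEq ι] (Λ : ι → ℕ) (hΛ : ∀ i, 3 ≤ Λ i)
    (η : ℕ → (∀ i, Fin (Λ i)) → ℂ) (hη : ∀ γ, Mix fun j => η j γ) :
    ∃ lam : ℕ, 0 < lam ∧ ∀ x : ι → ℝ, ∃ g : ℕ → ℂ, Mix g ∧ ∀ j : ℕ, 0 < j →
      ‖∑ n ∈ Fintype.piFinset (fun i => range (j * lam * Λ i)),
        (∏ i, ((√(1 / (Λ i * T 1) / (j * lam * Λ i : ℕ)) : ℝ) : ℂ) *
          ee (1 / (Λ i * T 1) * (j * lam * Λ i : ℕ) * P (n i / (j * lam * Λ i : ℕ)) - φ0)) *
          FT Λ (η j) n * ee (-∑ i, n i * x i) - g j‖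
        ≤ Fintype.card (∀ i, Fin (Λ i)) * ((1 + ε) ^ Fintype.card ι - 1) := by
  obtain ⟨lam, h1, h2⟩ := ((eventually_all.2 fun i => lift1 h (hΛ i)).and
    (eventually_gt_atTop 0)).exists
  refine ⟨lam, h2, fun x => ?_⟩
  choose g A ψ hA0 hA1 hg using fun i => h1 i (x i)
  refine ⟨fun j => η j g * ∏ i, ((A i : ℂ) * ee (j * ψ i)),
    (hη g).mul (mix_prod _ _ fun i => (mix_real (hA0 i) (hA1 i)).mul (mix_ee _)), fun j hj => ?_⟩
  have e1 : ∑ n ∈ Fintype.piFinset (fun i => range (j * lam * Λ i)),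
        (∏ i, ((√(1 / (Λ i * T 1) / (j * lam * Λ i : ℕ)) : ℝ) : ℂ) *
          ee (1 / (Λ i * T 1) * (j * lam * Λ i : ℕ) * P (n i / (j * lam * Λ i : ℕ)) - φ0)) *
          FT Λ (η j) n * ee (-∑ i, n i * x i)
      = ∑ γ, η j γ * ∏ i, xi P φ0 (1 / (Λ i * T 1)) (j * lam * Λ i) (x i - (γ i : ℕ) / Λ i) := by
    unfold xi FT
    simp only [Finset.prod_univ_sum, Finset.mul_sum, Finset.sum_mul]
    rw [Finset.sum_comm]
    refine Finset.sum_congr rfl fun γ _ => Finset.sum_congr rfl fun n _ => ?_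
    rw [← Finset.sum_neg_distrib, ee_sum, mul_left_comm, mul_assoc, ← Finset.prod_mul_distrib,
      ← Finset.prod_mul_distrib]
    congr 1
    refine Finset.prod_congr rfl fun i _ => ?_
    rw [mul_assoc, ← ee_add]
    congr 2; ring
  have e2 : η j g * ∏ i, ((A i : ℂ) * ee (j * ψ i))
      = ∑ γ, η j γ * ∏ i, if γ i = g i then (A i : ℂ) * ee (j * ψ i) else 0 := by
    rw [Finset.sum_eq_single g]
    · simp
    · intro γ _ hγ
      obtain ⟨i, hi⟩ := Function.ne_iff.1 hγ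
      rw [Finset.prod_eq_zero (Finset.mem_univ i) (if_neg hi), mul_zero]
    · simp
  beta_reduce
  rw [e1, e2, ← Finset.sum_sub_distrib]
  refine (norm_sum_le _ _).trans ((Finset.sum_le_sum (g := fun _ => (1 + ε) ^ Fintype.card ι - 1)
    fun γ _ => ?_).trans (by rw [Finset.sum_const, nsmul_eq_mul, Finset.card_univ]))
  rw [← mul_sub, norm_mul]
  refine (mul_le_of_le_one_left (norm_nonneg _) ((hη γ).norm_le hj)).trans ?_
  refine norm_prod_sub _ _ _ hε (fun i => hg i j hj (γ i)) fun i => ?_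
  split_ifs
  · rw [norm_mul, norm_ee, mul_one, Complex.norm_real, Real.norm_of_nonneg (hA0 i)]; exact hA1 i
  · simp

end Vale.Agent.P110
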