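import Vale.Agent.P110.Basic

namespace Vale.Agent.P110

open Real Finset MeasureTheory Filter Topology

lemma hasSum_congr' {f g : ℕ → ℝ} {a : ℝ} (h : HasSum f a) (e : ∀ i, f i = g i) : HasSum g a :=
  (funext e : f = g) ▸ h

lemma abel_sq {r : ℝ} (h0 : 0 ≤ r) (h1 : r < 1) (x : ℝ) : ∃ A : ℝ, |A| ≤ π / 4 ∧
    HasSum (fun i : ℕ => r ^ (2 * i + 1) * ((ee ((2 * i + 1 : ℕ) * x)).im / (2 * i + 1 : ℕ))) A := by
  set w : ℂ := r * ee x with hw
  have hwn : ‖w‖ = r := by rw [hw, norm_mul, norm_ee, Complex.norm_real, Real.norm_of_nonneg h0, mul_one]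
  have h := Complex.hasSum_arctan (z := -Complex.I * w) (by simpa [hwn] using h1)
  have h2 := Complex.hasSum_im (h.mul_left Complex.I)
  refine ⟨_, ?_, hasSum_congr' h2 ?_⟩
  · have e : -Complex.I * w * Complex.I = w := by
      linear_combination (-w) * Complex.I_mul_I
    unfold Complex.arctan
    rw [e]
    have e2 : Complex.I * (-Complex.I / 2 * Complex.log ((1 + w) / (1 - w)))
        = ((1 / 2 : ℝ) : ℂ) * Complex.log ((1 + w) / (1 - w)) := by
      push_cast
      linear_combination (-Complex.log ((1 + w) / (1 - w)) / 2) * Complex.I_mul_I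
    rw [e2, Complex.im_ofReal_mul, Complex.log_im, abs_mul]
    have : |Complex.arg ((1 + w) / (1 - w))| ≤ π / 2 := by
      rw [Complex.abs_arg_le_pi_div_two_iff, Complex.div_re, ← add_div]
      apply div_nonneg _ (Complex.normSq_nonneg _)
      have : w.re ^ 2 + w.im ^ 2 = r ^ 2 := by
        rw [← hwn, ← Complex.normSq_eq_norm_sq, Complex.normSq_apply]; ring
      simp only [Complex.add_re, Complex.one_re, Complex.sub_re, Complex.add_im, Complex.one_im,
        Complex.sub_im]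
      nlinarith
    rw [abs_of_pos (by norm_num : (0:ℝ) < 1 / 2)]; linarith
  · intro i
    have e : Complex.I * ((-1) ^ i * (-Complex.I * w) ^ (2 * i + 1) / ((2 * i + 1 : ℕ) : ℂ))
        = ((r ^ (2 * i + 1) / (2 * i + 1 : ℕ) : ℝ) : ℂ) * ee ((2 * i + 1 : ℕ) * x) := by
      have : (-Complex.I) ^ (2 * i + 1) = (-1) ^ i * -Complex.I := by
        rw [pow_succ, pow_mul]; simp
      rw [mul_pow, this, hw, mul_pow, ee_pow]
      have h3 : ((-1 : ℂ) ^ i) * (-1) ^ i = 1 := by rw [← mul_pow]; simp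
      push_cast
      linear_combination (-(r : ℂ) ^ (2 * i + 1) * ee ((2 * i + 1) * x) / (2 * i + 1)) *
        ((-1) ^ i * (-1) ^ i) * Complex.I_mul_I
        + ((r : ℂ) ^ (2 * i + 1) * ee ((2 * i + 1) * x) / (2 * i + 1)) * h3
    rw [e, Complex.im_ofReal_mul]; ring

lemma abel_bound {t : ℝ} (ht : 0 < t) (x : ℝ) :
    |∑' i : ℕ, Real.exp (-t) ^ (2 * i + 1) * ((ee ((2 * i + 1 : ℕ) * x)).im / (2 * i + 1 : ℕ))|
      ≤ Real.exp (-t) * (π / 4 + 2 * t) := by
  set r := Real.exp (-t) with hr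
  have h0 : 0 < r := Real.exp_pos _
  have h1 : r < 1 := Real.exp_lt_one_iff.2 (by linarith)
  obtain ⟨A, hA, hs⟩ := abel_sq h0.le h1 x
  rw [hs.tsum_eq]
  have hp := Real.pi_pos
  have hp4 := Real.pi_le_four
  rcases le_total t 1 with h | h
  · refine hA.trans ?_
    have a := (abs_le.1 (Real.abs_exp_sub_one_sub_id_le (x := t) (by rw [abs_of_pos ht]; exact h))).2
    have b : r * Real.exp t = 1 := by rw [hr, ← Real.exp_add]; simp
    have c : Real.exp t ≤ 1 + 2 * t := by nlinarith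
    have d : 1 ≤ r * (1 + 2 * t) := by nlinarith
    nlinarith [mul_pos h0 ht]
  · have hr2 : r ≤ 1 / 2 := by
      have b : r * Real.exp t = 1 := by rw [hr, ← Real.exp_add]; simp
      have := Real.add_one_le_exp t
      nlinarith
    have g := (hasSum_geometric_of_lt_one (r := 1 / 2) (by norm_num) (by norm_num)).mul_left r
    have := hs.norm_le_of_bounded g (fun i => by
      rw [Real.norm_eq_abs, abs_mul, abs_of_pos (by positivity), pow_succ, mul_comm _ r, mul_assoc]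
      apply mul_le_mul_of_nonneg_left _ h0.le
      have a1 : r ^ (2 * i) ≤ (1 / 2) ^ i :=
        (pow_le_pow_left₀ h0.le hr2 _).trans (pow_le_pow_of_le_one (by norm_num) (by norm_num)
          (by omega))
      have a2 : |(ee ((2 * i + 1 : ℕ) * x)).im / (2 * i + 1 : ℕ)| ≤ 1 := by
        rw [abs_div, abs_of_pos (by positivity : (0:ℝ) < (2 * i + 1 : ℕ)), div_le_one (by positivity)]
        refine ((Complex.abs_im_le_norm _).trans (norm_ee _).le).trans ?_
        exact_mod_cast (by omega : 1 ≤ 2 * i + 1)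
      exact (mul_le_of_le_one_right (by positivity) a2).trans a1)
    rw [Real.norm_eq_abs] at this
    refine this.trans (mul_le_mul_of_nonneg_left ?_ h0.le)
    norm_num; linarith

lemma summable_odd {s : ℝ} (hs : 0 < s) :
    Summable fun i : ℕ => ((2 * i + 1 : ℕ) : ℝ) ^ (-(1 + s)) :=
  (Real.summable_nat_rpow.2 (by linarith : -(1 + s) < -1)).comp_injective
    (i := fun i : ℕ => 2 * i + 1) (fun a b h => by simpa using h)

lemma sq_full {s : ℝ} (hs : 0 < s) (x : ℝ) :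
    |∑' i : ℕ, ((2 * i + 1 : ℕ) : ℝ) ^ (-(1 + s)) * (ee ((2 * i + 1 : ℕ) * x)).im|
      ≤ π / 4 + 2 * s := by
  have hG := Real.Gamma_pos_of_pos hs
  set u : ℕ → ℝ := fun i => (ee ((2 * i + 1 : ℕ) * x)).im / (2 * i + 1 : ℕ) with hu
  have hj : ∀ i : ℕ, (0 : ℝ) < (2 * i + 1 : ℕ) := fun i => by positivity
  have I1 : ∀ {a r : ℝ}, 0 < a → 0 < r →
      Integrable (fun t : ℝ => t ^ (a - 1) * Real.exp (-(r * t))) (volume.restrict (Set.Ioi 0)) := by
    intro a r ha hr
    apply Integrable.of_integral_ne_zero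
    rw [Real.integral_rpow_mul_exp_neg_mul_Ioi ha hr]
    have := Real.Gamma_pos_of_pos ha
    positivity
  have e1 : ∀ i : ℕ, (1 / ((2 * i + 1 : ℕ) : ℝ)) ^ s * (1 / ((2 * i + 1 : ℕ) : ℝ))
      = ((2 * i + 1 : ℕ) : ℝ) ^ (-(1 + s)) := by
    intro i
    rw [Real.rpow_neg (hj i).le, Real.rpow_add (hj i), Real.rpow_one, one_div,
      Real.inv_rpow (hj i).le, mul_inv, mul_comm]
  have H := hasSum_integral_of_summable_integral_norm (μ := volume.restrict (Set.Ioi 0))
    (F := fun (i : ℕ) (t : ℝ) => t ^ (s - 1) * Real.exp (-((2 * i + 1 : ℕ) * t)) * u i)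
    (fun i => (I1 hs (hj i)).mul_const _) (by
      refine Summable.of_nonneg_of_le (fun i => integral_nonneg fun _ => norm_nonneg _)
        (fun i => ?_) ((summable_odd hs).mul_left (Real.Gamma s))
      have : ∫ t in Set.Ioi (0:ℝ), ‖t ^ (s - 1) * Real.exp (-((2 * i + 1 : ℕ) * t)) * u i‖
          = ∫ t in Set.Ioi (0:ℝ), t ^ (s - 1) * Real.exp (-((2 * i + 1 : ℕ) * t)) * |u i| := by
        refine setIntegral_congr_fun measurableSet_Ioi fun t ht => ?_
        have : 0 < t := ht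
        simp only [Real.norm_eq_abs]
        rw [abs_mul, abs_of_pos (by positivity)]
      rw [this, integral_mul_const, Real.integral_rpow_mul_exp_neg_mul_Ioi hs (hj i), ← e1]
      have : |u i| ≤ 1 / ((2 * i + 1 : ℕ) : ℝ) := by
        simp only [hu]
        rw [abs_div, abs_of_pos (hj i)]
        exact div_le_div_of_nonneg_right ((Complex.abs_im_le_norm _).trans (norm_ee _).le) (hj i).le
      have h2 := mul_le_mul_of_nonneg_left this
        (by positivity : 0 ≤ (1 / ((2 * i + 1 : ℕ) : ℝ)) ^ s * Real.Gamma s)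
      linarith)
  have e2 : ∀ i : ℕ, ∫ t in Set.Ioi (0:ℝ), t ^ (s - 1) * Real.exp (-((2 * i + 1 : ℕ) * t)) * u i
      = Real.Gamma s * (((2 * i + 1 : ℕ) : ℝ) ^ (-(1 + s)) * (ee ((2 * i + 1 : ℕ) * x)).im) := by
    intro i
    rw [integral_mul_const, Real.integral_rpow_mul_exp_neg_mul_Ioi hs (hj i), ← e1]
    simp only [hu]; ring
  simp only [e2] at H
  have H2 := H.tsum_eq
  rw [tsum_mul_left] at H2
  have bd : ‖∫ t in Set.Ioi (0:ℝ), ∑' i : ℕ, t ^ (s - 1) * Real.exp (-((2 * i + 1 : ℕ) * t)) * u i‖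
      ≤ ∫ t in Set.Ioi (0:ℝ), (π / 4 * (t ^ (s - 1) * Real.exp (-(1 * t)))
        + 2 * (t ^ (s + 1 - 1) * Real.exp (-(1 * t)))) := by
    apply norm_integral_le_of_norm_le
      (((I1 hs one_pos).const_mul _).add ((I1 (by linarith) one_pos).const_mul _))
    rw [ae_restrict_iff' measurableSet_Ioi]
    refine Filter.Eventually.of_forall fun t ht => ?_
    have ht0 : 0 < t := ht
    have e3 : ∀ i : ℕ, t ^ (s - 1) * Real.exp (-((2 * i + 1 : ℕ) * t)) * u i
        = t ^ (s - 1) * (Real.exp (-t) ^ (2 * i + 1) * u i) := by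
      intro i
      rw [← Real.exp_nat_mul, mul_neg, mul_assoc]
    simp only [e3]
    rw [tsum_mul_left, Real.norm_eq_abs, abs_mul, abs_of_pos (by positivity)]
    refine (mul_le_mul_of_nonneg_left (abel_bound ht0 x) (by positivity)).trans (le_of_eq ?_)
    have : t ^ (s + 1 - 1) = t ^ (s - 1) * t := by
      rw [← Real.rpow_add_one ht0.ne']; congr 1; ring
    simp only [Pi.add_apply, one_mul, this]; ring
  rw [integral_add ((I1 hs one_pos).const_mul _) ((I1 (by linarith) one_pos).const_mul _),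
    integral_const_mul, integral_const_mul, Real.integral_rpow_mul_exp_neg_mul_Ioi hs one_pos,
    Real.integral_rpow_mul_exp_neg_mul_Ioi (by linarith) one_pos, Real.Gamma_add_one hs.ne',
    ← H2, Real.norm_eq_abs, abs_mul, abs_of_pos hG] at bd
  simp only [div_one, Real.one_rpow, one_mul] at bd
  apply le_of_mul_le_mul_left _ hG
  linarith

lemma hasSum_odd_sq : HasSum (fun i : ℕ => (1 : ℝ) / ((2 * i + 1 : ℕ) : ℝ) ^ 2) (π ^ 2 / 8) := by
  have h := hasSum_zeta_two
  have he : HasSum (fun k : ℕ => (1 : ℝ) / ((2 * k : ℕ) : ℝ) ^ 2) (1 / 4 * (π ^ 2 / 6)) := by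
    refine hasSum_congr' (h.mul_left (1 / 4)) fun k => ?_
    push_cast; ring
  have ho : Summable fun k : ℕ => (1 : ℝ) / ((2 * k + 1 : ℕ) : ℝ) ^ 2 :=
    h.summable.comp_injective (i := fun i : ℕ => 2 * i + 1) (fun a b h => by simpa using h)
  have := (HasSum.even_add_odd (f := fun n : ℕ => (1 : ℝ) / (n : ℝ) ^ 2) he ho.hasSum).unique h
  have e : π ^ 2 / 8 = ∑' k : ℕ, (1 : ℝ) / ((2 * k + 1 : ℕ) : ℝ) ^ 2 := by linarith
  rw [e]; exact ho.hasSum

theorem sq_wave {ε : ℝ} (hε : 0 < ε) : ∃ s : ℝ, ∃ n : ℕ, 0 < s ∧ s ≤ 1 ∧ 0 < n ∧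
    (∀ x : ℝ, |∑ i ∈ range n, ((2 * i + 1 : ℕ) : ℝ) ^ (-(1 + s)) * (ee ((2 * i + 1 : ℕ) * x)).im|
      ≤ π / 4 + ε) ∧
    π ^ 2 / 8 - ε ≤ ∑ i ∈ range n, (((2 * i + 1 : ℕ) : ℝ) ^ (-(1 + s))) ^ 2 := by
  obtain ⟨n0, hn0⟩ := (hasSum_odd_sq.tendsto_sum_nat.eventually
    (lt_mem_nhds (show π ^ 2 / 8 - ε < π ^ 2 / 8 by linarith))).exists
  have hc : ContinuousAt
      (fun s : ℝ => ∑ i ∈ range n0, (((2 * i + 1 : ℕ) : ℝ) ^ (-(1 + s))) ^ 2) 0 := by
    refine (continuous_finsetSum _ fun i _ => ?_).continuousAt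
    exact ((Real.continuous_const_rpow (by positivity)).comp (by fun_prop)).pow 2
  have h0 : π ^ 2 / 8 - ε < ∑ i ∈ range n0, (((2 * i + 1 : ℕ) : ℝ) ^ (-(1 + (0:ℝ)))) ^ 2 := by
    refine hn0.trans_eq (Finset.sum_congr rfl fun i _ => ?_)
    rw [add_zero, Real.rpow_neg_one, inv_pow, one_div]
  have ev := (hc.tendsto.eventually (lt_mem_nhds h0)).filter_mono
    (nhdsWithin_le_nhds (s := Set.Ioi (0:ℝ)))
  have ev2 : ∀ᶠ s in 𝓝[>] (0:ℝ), s ∈ Set.Ioo 0 (min 1 (ε / 4)) :=
    Ioo_mem_nhdsGT (by positivity)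
  obtain ⟨s, hs1, hs2, hs3⟩ := (ev.and ev2).exists
  have t := (tendsto_sum_nat_add (fun i : ℕ => ((2 * i + 1 : ℕ) : ℝ) ^ (-(1 + s)))).eventually
    (gt_mem_nhds (half_pos hε))
  obtain ⟨n, hn1, hn2⟩ := (t.and (eventually_gt_atTop n0)).exists
  refine ⟨s, n, hs2, (hs3.trans_le (min_le_left _ _)).le, by omega, fun x => ?_, hs1.le.trans ?_⟩
  · have sm : Summable fun i : ℕ =>
        ((2 * i + 1 : ℕ) : ℝ) ^ (-(1 + s)) * (ee ((2 * i + 1 : ℕ) * x)).im := by
      refine Summable.of_norm_bounded (summable_odd hs2) fun i => ?_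
      rw [norm_mul, Real.norm_of_nonneg (by positivity)]
      exact mul_le_of_le_one_right (by positivity) ((Complex.abs_im_le_norm _).trans (norm_ee _).le)
    have a := sm.sum_add_tsum_nat_add n
    have b := sq_full hs2 x
    have c := tsum_of_norm_bounded ((summable_nat_add_iff n).2 (summable_odd hs2)).hasSum
      (f := fun i : ℕ => ((2 * (i + n) + 1 : ℕ) : ℝ) ^ (-(1 + s)) *
        (ee ((2 * (i + n) + 1 : ℕ) * x)).im) (fun i => by
      rw [norm_mul, Real.norm_of_nonneg (by positivity)]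
      exact mul_le_of_le_one_right (by positivity) ((Complex.abs_im_le_norm _).trans (norm_ee _).le))
    rw [Real.norm_eq_abs] at c
    rw [eq_sub_of_add_eq a]
    refine (abs_sub _ _).trans ?_
    have := hs3.trans_le (min_le_right _ _)
    linarith
  · exact Finset.sum_le_sum_of_subset_of_nonneg (Finset.range_mono hn2.le) fun _ _ _ => by positivity

end Vale.Agent.P110
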