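import Vale.Agent.P110.Lift
import Vale.Agent.P110.Sq

namespace Vale.Agent.P110

open Real Finset Filter Topology

lemma small_pow (D : ℕ) {δ : ℝ} (hδ : 0 < δ) : ∃ e : ℝ, 0 < e ∧ (1 + e) ^ D - 1 ≤ δ := by
  have hc : ContinuousAt (fun e : ℝ => (1 + e) ^ D - 1) 0 := by fun_prop
  have := (hc.tendsto.eventually (ge_mem_nhds (show (1 + (0:ℝ)) ^ D - 1 < δ by simpa))).filter_mono
    (nhdsWithin_le_nhds (s := Set.Ioi (0:ℝ)))
  obtain ⟨e, h1, h2⟩ := (this.and self_mem_nhdsWithin).exists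
  exact ⟨e, h2, h1⟩

set_option maxHeartbeats 1000000 in
theorem pre_model {ε : ℝ} (hε : 0 < ε) (hε1 : ε ≤ 1 / 20) :
    ∃ (ι : Type) (_ : Fintype ι) (_ : DecidableEq ι) (j : ι → ℕ) (m : ι → ℤ) (ω : ι → ℝ) (κ : ℝ),
      0 < κ ∧ (∀ ν, Odd (j ν)) ∧ (∀ ν ν', ν ≠ ν' → (j ν : ℤ) * m ν' ≠ j ν' * m ν) ∧
      1 - 5 * ε ≤ κ * (2 * ∑ ν, (j ν : ℝ)) ∧
      ∀ x y : ℝ, |∑ ν, 2 * √(κ * j ν) * (ee (j ν * x + m ν * y + ω ν)).re| ≤ 1 + 4 * ε := by
  classical
  obtain ⟨s, n, hs, hs1, hn, hsup, hmass⟩ := sq_wave hε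
  have hnr : (1 : ℝ) ≤ n := by exact_mod_cast hn
  obtain ⟨ι, _, _, Λ, η, Wt, K, hK, hΛ, hmix, hfl, hms, hrat, hnp⟩ :=
    fin_model (J := 2 * n) (by omega) hs hs1 (ε := ε / n) (by positivity)
  have hεn : ε / n ≤ ε := div_le_self hε.le hnr
  have hεn0 : 0 < ε / n := by positivity
  set D := Fintype.card ι with hD
  set G : ℝ := ((Fintype.card (∀ i, Fin (Λ i)) : ℕ) : ℝ) with hG
  have hG0 : 0 ≤ G := by positivity
  obtain ⟨e, he0, he⟩ := small_pow D (δ := ε / (2 * n * (G + 1))) (by positivity)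
  obtain ⟨P, T, amp, Leg, φ0, K', hsp⟩ := sp_exists he0
  obtain ⟨lam, hlam, hlift⟩ := liftD he0.le hsp Λ hΛ η hmix
  have hT := hsp.T1_ge
  have hTD : T 1 ^ D ≤ 1 + ε := by
    have a := pow_le_pow_left₀ (by linarith) hsp.T1_le D
    have b : ε / (2 * n * (G + 1)) ≤ ε := div_le_self hε.le (by nlinarith)
    linarith
  set S : Finset ℕ := (range n).map ⟨fun i => 2 * i + 1, fun a b h => by simpa using h⟩ with hS
  have hSm : ∀ j ∈ S, Odd j ∧ 1 ≤ j ∧ j ≤ 2 * n := by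
    intro j hj
    obtain ⟨i, hi, rfl⟩ := Finset.mem_map.1 hj
    rw [Finset.mem_range] at hi
    exact ⟨⟨i, rfl⟩, show 1 ≤ 2 * i + 1 by omega, show 2 * i + 1 ≤ 2 * n by omega⟩
  set E : ℝ := D + 3 + 2 * s with hE
  set Q : ℝ := ∏ i, (Λ i : ℝ) with hQ
  have hΛr : ∀ i, (0 : ℝ) < Λ i := fun i => by have := hΛ i; positivity
  have hQ0 : 0 < Q := Finset.prod_pos fun i _ => hΛr i
  have hp := Real.pi_pos
  set ρ : ℕ → ℝ := fun j => √(K * (j : ℝ) ^ E / Wt j) with hρ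
  set a : ℕ → ℝ := fun j => 2 / π * (j : ℝ) ^ (-(1 + s)) * ρ j with ha
  have hWt : ∀ j ∈ S, 0 < Wt j := fun j hj => by
    have : (0 : ℝ) < j := by exact_mod_cast (hSm j hj).2.1
    exact lt_of_lt_of_le (by positivity) (hrat j (hSm j hj).2.1 (hSm j hj).2.2).1
  have hρb : ∀ j ∈ S, 1 - ε / n ≤ ρ j ∧ ρ j ≤ 1 := by
    intro j hj
    obtain ⟨h1, h2⟩ := hrat j (hSm j hj).2.1 (hSm j hj).2.2
    have h3 := hWt j hj
    constructor
    · apply Real.le_sqrt_of_sq_le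
      rw [le_div_iff₀ h3]
      have h4 : 0 ≤ K * (j : ℝ) ^ E := by positivity
      have h5 : (1 - ε / n) ^ 2 * (1 + ε / n) ≤ 1 := by
        have : ∀ t : ℝ, 0 < t → t ≤ 1 / 20 → (1 - t) ^ 2 * (1 + t) ≤ 1 := fun t a b => by
          nlinarith [mul_pos a a, mul_pos a (mul_pos a a)]
        exact this _ hεn0 (hεn.trans hε1)
      calc _ ≤ (1 - ε / n) ^ 2 * ((1 + ε / n) * (K * (j : ℝ) ^ E)) := by gcongr
        _ = ((1 - ε / n) ^ 2 * (1 + ε / n)) * (K * (j : ℝ) ^ E) := by ring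
        _ ≤ _ := mul_le_of_le_one_left h4 h5
    · exact Real.sqrt_le_one.2 ((div_le_one h3).2 h1)
  have hpw : ∀ j ∈ S, (j : ℝ) ^ (-(1 + s)) ≤ 1 := fun j hj =>
    Real.rpow_le_one_of_one_le_of_nonpos (by exact_mod_cast (hSm j hj).2.1) (by linarith)
  have h4p : 4 / π ≤ 4 / 3 := div_le_div_of_nonneg_left (by norm_num) (by norm_num) Real.pi_gt_three.le
  have ha0 : ∀ j, 0 ≤ a j := fun j => by simp only [ha, hρ]; positivity
  have ha1 : ∀ j ∈ S, a j ≤ 1 := fun j hj => by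
    have : 2 / π ≤ 1 := by rw [div_le_one hp]; linarith [Real.pi_gt_three]
    exact mul_le_one₀ (mul_le_one₀ this (by positivity) (hpw j hj)) (Real.sqrt_nonneg _) (hρb j hj).2
  set b : ℕ → ℂ := fun j => -Complex.I * ((2 * a j : ℝ) : ℂ) with hb
  have hbsup : ∀ x : ℝ, |∑ j ∈ S, (b j * ee (j * x)).re| ≤ 1 + 3 * ε := by
    intro x
    have e1 : ∀ j ∈ S, (b j * ee (j * x)).re = 4 / π * ((j : ℝ) ^ (-(1 + s)) * (ee (j * x)).im)
        - 4 / π * ((1 - ρ j) * ((j : ℝ) ^ (-(1 + s)) * (ee (j * x)).im)) := by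
      intro j _
      simp only [hb, ha, Complex.mul_re, Complex.neg_re, Complex.I_re, Complex.neg_im, Complex.I_im,
        Complex.ofReal_re, Complex.ofReal_im, Complex.mul_im]
      ring
    rw [Finset.sum_congr rfl e1, Finset.sum_sub_distrib, ← Finset.mul_sum, ← Finset.mul_sum]
    refine (abs_sub _ _).trans ?_
    rw [abs_mul, abs_mul, abs_of_pos (by positivity : 0 < 4 / π)]
    have b1 : |∑ j ∈ S, (j : ℝ) ^ (-(1 + s)) * (ee (j * x)).im| ≤ π / 4 + ε := by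
      rw [hS, Finset.sum_map]; exact hsup x
    have b2 : |∑ j ∈ S, (1 - ρ j) * ((j : ℝ) ^ (-(1 + s)) * (ee (j * x)).im)| ≤ ε := by
      refine (Finset.abs_sum_le_sum_abs _ _).trans ((Finset.sum_le_sum (g := fun _ => ε / n)
        fun j hj => ?_).trans ?_)
      · rw [abs_mul, abs_mul, abs_of_nonneg (by linarith [(hρb j hj).2]),
          abs_of_nonneg (by positivity : 0 ≤ (j : ℝ) ^ (-(1 + s)))]
        refine (mul_le_of_le_one_right (by linarith [(hρb j hj).2]) (mul_le_one₀ (hpw j hj)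
          (abs_nonneg _) ((Complex.abs_im_le_norm _).trans (norm_ee _).le))).trans ?_
        linarith [(hρb j hj).1]
      · rw [Finset.sum_const, hS, Finset.card_map, Finset.card_range, nsmul_eq_mul]
        apply le_of_eq; field_simp
    have b3 : 4 / π * (π / 4 + ε) = 1 + 4 / π * ε := by field_simp
    have b4 := mul_le_mul_of_nonneg_left b1 (by positivity : 0 ≤ 4 / π)
    have b5 := mul_le_mul_of_nonneg_left b2 (by positivity : 0 ≤ 4 / π)
    nlinarith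
  set cf : ℕ → (ι → ℕ) → ℂ := fun j nn =>
    ∏ i, ((√(1 / (Λ i * T 1) / (j * lam * Λ i : ℕ)) : ℝ) : ℂ) *
      ee (1 / (Λ i * T 1) * (j * lam * Λ i : ℕ) * P (nn i / (j * lam * Λ i : ℕ)) - φ0) with hcf
  have hlamr : (0 : ℝ) < lam := by exact_mod_cast hlam
  have hcfn : ∀ j ∈ S, ∀ nn, ‖cf j nn‖ ^ 2 = 1 / (Q ^ 2 * (T 1 * lam) ^ D * j ^ D) := by
    intro j hj nn
    have hj0 : (0 : ℝ) < j := by exact_mod_cast (hSm j hj).2.1
    simp only [hcf]
    rw [norm_prod, ← Finset.prod_pow]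
    have : ∀ i ∈ (univ : Finset ι), ‖((√(1 / (Λ i * T 1) / (j * lam * Λ i : ℕ)) : ℝ) : ℂ) *
      ee (1 / (Λ i * T 1) * (j * lam * Λ i : ℕ) * P (nn i / (j * lam * Λ i : ℕ)) - φ0)‖ ^ 2
        = ((Λ i : ℝ) ^ 2 * (T 1 * lam * j))⁻¹ := by
      intro i _
      have := hΛr i
      rw [norm_mul, norm_ee, mul_one, Complex.norm_real, Real.norm_of_nonneg (Real.sqrt_nonneg _),
        Real.sq_sqrt (by positivity)]
      push_cast; field_simp
    rw [Finset.prod_congr rfl this, Finset.prod_inv_distrib, Finset.prod_mul_distrib,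
      Finset.prod_pow, Finset.prod_const, Finset.card_univ, one_div, mul_pow (T 1 * lam), mul_assoc]
  set κ : ℝ := (2 / π) ^ 2 * K / (Q ^ 2 * (T 1 * lam) ^ D) with hκ
  have hκ0 : 0 < κ := by positivity
  have hak : ∀ j ∈ S, a j ^ 2 * (1 / (Q ^ 2 * (T 1 * lam) ^ D * j ^ D)) * Wt j = κ * j := by
    intro j hj
    have hj0 : (0 : ℝ) < j := by exact_mod_cast (hSm j hj).2.1
    have h3 := hWt j hj
    have e1 : ((j : ℝ) ^ (-(1 + s))) ^ 2 * (j : ℝ) ^ E = j ^ D * j := by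
      rw [← Real.rpow_natCast, ← Real.rpow_mul hj0.le, ← Real.rpow_add hj0, ← pow_succ,
        ← Real.rpow_natCast]
      congr 1; rw [hE]; push_cast; ring
    simp only [ha, hρ]
    rw [mul_pow, mul_pow, Real.sq_sqrt (by positivity), hκ]
    field_simp
    linear_combination e1
  set N0 : Finset (Σ _ : ℕ, ι → ℕ) :=
    S.sigma fun j => Fintype.piFinset fun i => range (j * lam * Λ i) with hN0
  set N1 := N0.filter fun p => ‖FT Λ (η p.1) p.2‖ ^ 2 ≠ 0 with hN1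
  have hN1m : ∀ p ∈ N1, p.1 ∈ S ∧ ‖FT Λ (η p.1) p.2‖ ^ 2 ≠ 0 := fun p hp =>
    ⟨(Finset.mem_sigma.1 (Finset.mem_filter.1 hp).1).1, (Finset.mem_filter.1 hp).2⟩
  set C : (Σ _ : ℕ, ι → ℕ) → ℂ := fun p => b p.1 * (cf p.1 p.2 * FT Λ (η p.1) p.2) with hC
  have hCn : ∀ p, p.1 ∈ S → ‖C p‖ ^ 2 = 4 * (a p.1 ^ 2 * (1 / (Q ^ 2 * (T 1 * lam) ^ D * p.1 ^ D))
      * ‖FT Λ (η p.1) p.2‖ ^ 2) := by
    intro p hp
    simp only [hC, hb]
    rw [norm_mul, norm_mul, norm_mul, norm_neg, Complex.norm_I, one_mul, mul_pow, mul_pow,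
      hcfn _ hp, Complex.norm_real, Real.norm_eq_abs, sq_abs]
    ring
  have hCn2 : ∀ p ∈ N1, ‖C p‖ ^ 2 = 4 * (κ * p.1) := by
    intro p hp
    obtain ⟨h1, h2⟩ := hN1m p hp
    rw [hCn p h1, (hfl p.1 p.2).resolve_right h2, hak _ h1]
  have hω : ∀ p : N1, ∃ ω : ℝ, C p.1 = ((2 * √(κ * p.1.1) : ℝ) : ℂ) * ee ω := by
    intro p
    have hj0 : (0 : ℝ) < p.1.1 := by exact_mod_cast (hSm _ (hN1m p.1 p.2).1).2.1
    have h0 : 0 < 2 * √(κ * p.1.1) := by positivity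
    have h1 : ‖C p.1‖ = 2 * √(κ * p.1.1) := by
      rw [← sq_eq_sq₀ (norm_nonneg _) h0.le, hCn2 p.1 p.2, mul_pow, Real.sq_sqrt (by positivity)]
      norm_num
    obtain ⟨ω, hω⟩ := exists_ee (z := C p.1 / ((2 * √(κ * p.1.1) : ℝ) : ℂ)) (by
      rw [norm_div, h1, Complex.norm_real, Real.norm_of_nonneg h0.le, div_self h0.ne'])
    refine ⟨ω, ?_⟩
    rw [← hω, mul_div_cancel₀]
    exact_mod_cast h0.ne'
  choose ω hω using hω
  obtain ⟨w, hw⟩ := generic (((univ : Finset (N1 × N1)).filter fun q => q.1 ≠ q.2).image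
    fun q i => (q.2.1.1 : ℤ) * q.1.1.2 i - q.1.1.1 * q.2.1.2 i) (by
      intro v hv
      obtain ⟨⟨p, p'⟩, hq, rfl⟩ := Finset.mem_image.1 hv
      have hne : p ≠ p' := (Finset.mem_filter.1 hq).2
      obtain ⟨h1, h2⟩ := hN1m p.1 p.2
      obtain ⟨h1', h2'⟩ := hN1m p'.1 p'.2
      have : ∃ i, p'.1.1 * p.1.2 i ≠ p.1.1 * p'.1.2 i := by
        by_cases hj : p.1.1 = p'.1.1
        · by_contra hcon
          push Not at hcon
          apply hne
          apply Subtype.ext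
          refine Sigma.ext hj (heq_of_eq (funext fun i => ?_))
          have := hcon i
          rw [← hj] at this
          exact Nat.eq_of_mul_eq_mul_left (hSm _ h1).2.1 this
        · exact hnp _ _ _ _ (hSm _ h1).2.1 (hSm _ h1).2.2 (hSm _ h1').2.1 (hSm _ h1').2.2 hj h2 h2'
      obtain ⟨i, hi⟩ := this
      intro h0
      have := congrFun h0 i
      simp only [Pi.zero_apply, sub_eq_zero] at this
      exact hi (by exact_mod_cast this))
  refine ⟨N1, inferInstance, inferInstance, fun p => p.1.1, fun p => -∑ i, (p.1.2 i : ℤ) * w i, ω, κ,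
    hκ0, fun p => (hSm _ (hN1m p.1 p.2).1).1, fun p p' hne h => ?_, ?_, fun x y => ?_⟩
  · apply hw _ (Finset.mem_image.2 ⟨(p, p'), Finset.mem_filter.2 ⟨Finset.mem_univ _, hne⟩, rfl⟩)
    simp only [sub_mul, Finset.sum_sub_distrib, mul_assoc, ← Finset.mul_sum]
    linear_combination h
  · have e1 : κ * (2 * ∑ p : N1, (p.1.1 : ℝ)) = 2 * ∑ j ∈ S, a j ^ 2 *
        (1 / (Q ^ 2 * (T 1 * lam) ^ D * j ^ D)) *
        ∑ nn ∈ Fintype.piFinset (fun i => range (j * lam * Λ i)), ‖FT Λ (η j) nn‖ ^ 2 := by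
      rw [mul_left_comm, Finset.mul_sum, Finset.sum_coe_sort N1 (fun p => κ * (p.1 : ℝ))]
      congr 1
      simp only [Finset.mul_sum]
      rw [Finset.sum_sigma', ← hN0, ← Finset.sum_filter_of_ne (s := N0)
        (p := fun p => ‖FT Λ (η p.1) p.2‖ ^ 2 ≠ 0)
        (fun p _ h h0 => h (by rw [h0, mul_zero]))]
      refine Finset.sum_congr rfl fun p hp => ?_
      have := hCn2 p hp
      rw [hCn p (hN1m p hp).1] at this
      linarith
    have e2 : ∀ j ∈ S, (2 / π) ^ 2 * (1 - ε) ^ 4 * ((j : ℝ) ^ (-(1 + s))) ^ 2 ≤ a j ^ 2 *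
        (1 / (Q ^ 2 * (T 1 * lam) ^ D * j ^ D)) *
        ∑ nn ∈ Fintype.piFinset (fun i => range (j * lam * Λ i)), ‖FT Λ (η j) nn‖ ^ 2 := by
      intro j hj
      have hj0 : (0 : ℝ) < j := by exact_mod_cast (hSm j hj).2.1
      have c1 := (mul_le_mul_of_nonneg_left (hms j) (by positivity)).trans
        (per_sum Λ (η j) (j * lam))
      refine le_trans ?_ (mul_le_mul_of_nonneg_left c1 (by positivity))
      have c2 : a j ^ 2 * (1 / (Q ^ 2 * (T 1 * lam) ^ D * j ^ D)) *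
          (((j * lam : ℕ) : ℝ) ^ D * ((1 - ε / n) * Q ^ 2))
          = (2 / π) ^ 2 * (ρ j ^ 2 * (1 - ε / n) / T 1 ^ D) * ((j : ℝ) ^ (-(1 + s))) ^ 2 := by
        simp only [ha]; push_cast; rw [mul_pow, mul_pow, mul_pow, mul_pow]; field_simp
      rw [c2]
      gcongr
      rw [le_div_iff₀ (by positivity)]
      have c3 : (1 - ε) ^ 2 ≤ ρ j ^ 2 := pow_le_pow_left₀ (by linarith) (by linarith [(hρb j hj).1]) 2
      calc (1 - ε) ^ 4 * T 1 ^ D ≤ (1 - ε) ^ 4 * (1 + ε) := by gcongr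
        _ = (1 - ε) ^ 2 * (1 - ε) * (1 - ε ^ 2) := by ring
        _ ≤ (1 - ε) ^ 2 * (1 - ε) :=
          mul_le_of_le_one_right (mul_nonneg (by positivity) (by linarith)) (by nlinarith)
        _ ≤ _ := mul_le_mul c3 (by linarith) (by linarith) (by positivity)
    rw [e1]
    refine le_trans ?_ (mul_le_mul_of_nonneg_left (Finset.sum_le_sum e2) (by norm_num))
    rw [← Finset.mul_sum, hS, Finset.sum_map]
    refine le_trans ?_ (mul_le_mul_of_nonneg_left (mul_le_mul_of_nonneg_left hmass (by positivity))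
      (by norm_num))
    have c4 : 2 * ((2 / π) ^ 2 * (1 - ε) ^ 4 * (π ^ 2 / 8 - ε))
        = (1 - ε) ^ 4 * (1 - 8 / π ^ 2 * ε) := by field_simp; ring
    have c5 : 8 / π ^ 2 ≤ 1 := by rw [div_le_one (by positivity)]; nlinarith [Real.pi_gt_three]
    have c6 := one_add_mul_le_pow (a := -ε) (by linarith) 5
    rw [c4]
    calc 1 - 5 * ε ≤ (1 - ε) ^ 4 * (1 - ε) := by push_cast at c6; linarith [show (1 + -ε) ^ 5 = (1 - ε) ^ 4 * (1 - ε) by ring]
      _ ≤ _ := by gcongr; nlinarith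
  · obtain ⟨g, hg1, hg2⟩ := hlift (fun i => w i * y)
    have e1 : ∑ p : N1, 2 * √(κ * p.1.1) *
        (ee (p.1.1 * x + ((-∑ i, (p.1.2 i : ℤ) * w i : ℤ) : ℝ) * y + ω p)).re
        = ∑ j ∈ S, (b j * (∑ nn ∈ Fintype.piFinset (fun i => range (j * lam * Λ i)),
          cf j nn * FT Λ (η j) nn * ee (-∑ i, nn i * (w i * y))) * ee (j * x)).re := by
      have : ∀ p : N1, 2 * √(κ * p.1.1) *
          (ee (p.1.1 * x + ((-∑ i, (p.1.2 i : ℤ) * w i : ℤ) : ℝ) * y + ω p)).re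
          = (C p.1 * ee (-∑ i, p.1.2 i * (w i * y)) * ee (p.1.1 * x)).re := by
        intro p
        rw [hω p, ← Complex.re_ofReal_mul, mul_assoc, mul_assoc, ← ee_add, ← ee_add]
        congr 3
        push_cast
        simp only [← mul_assoc, ← Finset.sum_mul]; ring
      simp only [this]
      rw [Finset.sum_coe_sort N1
        (fun p => (C p * ee (-∑ i, p.2 i * (w i * y)) * ee (p.1 * x)).re), hN1,
        Finset.sum_filter_of_ne (s := N0) (p := fun p => ‖FT Λ (η p.1) p.2‖ ^ 2 ≠ 0)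
          (f := fun p => (C p * ee (-∑ i, p.2 i * (w i * y)) * ee (p.1 * x)).re)
          (fun p _ h h0 => h (by
          simp only [hC]; rw [norm_eq_zero.1 (pow_eq_zero_iff two_ne_zero |>.1 h0)]; simp)),
        hN0, Finset.sum_sigma]
      refine Finset.sum_congr rfl fun j _ => ?_
      rw [← Complex.re_sum, Finset.mul_sum, Finset.sum_mul]
      congr 1
      refine Finset.sum_congr rfl fun nn _ => ?_
      simp only [hC]; ring
    rw [e1]
    have m1 := hg1 S b _ hbsup x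
    have m2 : |∑ j ∈ S, (b j * (∑ nn ∈ Fintype.piFinset (fun i => range (j * lam * Λ i)),
          cf j nn * FT Λ (η j) nn * ee (-∑ i, nn i * (w i * y))) * ee (j * x)).re
          - ∑ j ∈ S, (b j * g j * ee (j * x)).re| ≤ ε := by
      rw [← Finset.sum_sub_distrib]
      refine (Finset.abs_sum_le_sum_abs _ _).trans ((Finset.sum_le_sum (g := fun _ => ε / n)
        fun j hj => ?_).trans ?_)
      · rw [← Complex.sub_re, ← sub_mul, ← mul_sub]
        refine (Complex.abs_re_le_norm _).trans ?_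
        rw [norm_mul, norm_mul, norm_ee, mul_one]
        have c1 : ‖b j‖ ≤ 2 := by
          simp only [hb]
          rw [norm_mul, norm_neg, Complex.norm_I, one_mul, Complex.norm_real,
            Real.norm_of_nonneg (by linarith [ha0 j])]
          linarith [ha1 j hj]
        have c2 := (hg2 j (hSm j hj).2.1).trans (mul_le_mul_of_nonneg_left he hG0)
        refine (mul_le_mul c1 c2 (norm_nonneg _) (by norm_num)).trans ?_
        have : 2 * (G * (ε / (2 * n * (G + 1)))) = ε / n * (G / (G + 1)) := by field_simp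
        rw [this]
        exact mul_le_of_le_one_right hεn0.le (by rw [div_le_one (by linarith)]; linarith)
      · rw [Finset.sum_const, hS, Finset.card_map, Finset.card_range, nsmul_eq_mul]
        apply le_of_eq; field_simp
    have := abs_sub_abs_le_abs_sub (∑ j ∈ S, (b j *
      (∑ nn ∈ Fintype.piFinset (fun i => range (j * lam * Λ i)),
          cf j nn * FT Λ (η j) nn * ee (-∑ i, nn i * (w i * y))) * ee (j * x)).re)
      (∑ j ∈ S, (b j * g j * ee (j * x)).re)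
    linarith

theorem model {ε : ℝ} (hε : 0 < ε) :
    ∃ (ι : Type) (_ : Fintype ι) (_ : DecidableEq ι) (_ : Nonempty ι) (j : ι → ℕ) (m : ι → ℤ)
      (ω : ι → ℝ), (∀ ν, Odd (j ν)) ∧ (∀ ν ν', ν ≠ ν' → (j ν : ℤ) * m ν' ≠ j ν' * m ν) ∧
      ∀ x y : ℝ, |∑ ν, 2 * √(j ν / (2 * ∑ ν', (j ν' : ℝ))) * (ee (j ν * x + m ν * y + ω ν)).re|
        ≤ 1 + ε := by
  set e := min ε 1 / 20 with he
  have he0 : 0 < e := by positivity
  have he1 : e ≤ 1 / 20 := by have := min_le_right ε 1; linarith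
  have he2 : 20 * e ≤ ε := by have := min_le_left ε 1; linarith
  obtain ⟨ι, _, _, j, m, ω, κ, hκ, h1, h2, h3, h4⟩ := pre_model he0 he1
  set Γ := 2 * ∑ ν, (j ν : ℝ) with hΓ
  have hΓ0 : 0 < Γ := (pos_iff_pos_of_mul_pos (show 0 < κ * Γ by linarith)).1 hκ
  have hne : Nonempty ι := by
    by_contra h
    rw [not_nonempty_iff] at h
    simp [hΓ] at hΓ0
  refine ⟨ι, inferInstance, inferInstance, hne, j, m, ω, h1, h2, fun x y => ?_⟩
  have hs : 1 - 5 * e ≤ √(κ * Γ) := Real.le_sqrt_of_sq_le (by nlinarith)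
  have hs0 : 0 < √(κ * Γ) := by linarith
  have e1 : ∀ ν, 2 * √(j ν / Γ) * (ee (j ν * x + m ν * y + ω ν)).re
      = 2 * √(κ * j ν) * (ee (j ν * x + m ν * y + ω ν)).re / √(κ * Γ) := by
    intro ν
    have : √(j ν / Γ) = √(κ * j ν) / √(κ * Γ) := by
      rw [← Real.sqrt_div (by positivity)]; congr 1; field_simp
    rw [this]; ring
  rw [← hΓ, Finset.sum_congr rfl (fun ν _ => e1 ν), ← Finset.sum_div, abs_div, abs_of_pos hs0, div_le_iff₀ hs0]
  refine (h4 x y).trans (le_trans ?_ (mul_le_mul_of_nonneg_left hs (by linarith)))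
  nlinarith

end Vale.Agent.P110
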