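import Vale.Agent.P110.Kernel

namespace Vale.Agent.P110

open Complex Real Finset Filter Topology

lemma sum_shift (f : ℤ → ℂ) (G : ℕ) (hf : ∀ m, f (m + G) = f m) (a : ℤ) :
    ∑ m ∈ range G, f (a + m) = ∑ m ∈ range G, f m := by
  have step : ∀ a : ℤ, ∑ m ∈ range G, f (a + 1 + m) = ∑ m ∈ range G, f (a + m) := by
    intro a
    have h1 := Finset.sum_range_succ (fun m : ℕ => f (a + m)) G
    have h2 := Finset.sum_range_succ' (fun m : ℕ => f (a + m)) G
    rw [h1, hf] at h2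
    simp only [Nat.cast_zero, add_zero, add_left_inj] at h2
    rw [h2]
    refine Finset.sum_congr rfl fun m _ => ?_
    congr 1; push_cast; ring
  induction a using Int.induction_on with
  | zero => simp
  | succ n ih => rw [step, ih]
  | pred n ih => rw [← ih, ← step (-(n : ℤ) - 1)]; simp

lemma local_est (H : ℤ → ℂ) (τ : ℤ → ℝ) {δ : ℝ} (hn : ∀ m, ‖H m‖ = 1)
    (h1 : ∀ m, ‖H (m + 1) - H m * ee (τ m / 2)‖ ≤ δ) (h2 : ∀ m, |τ (m + 1) - τ m| ≤ δ)
    (m0 e : ℤ) : |τ (m0 + e) - τ m0| ≤ |(e : ℝ)| * δ ∧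
      ‖H (m0 + e) - H m0 * ee (τ m0 * e / 2)‖ ≤ |(e : ℝ)| * (1 + 4 * |(e : ℝ)|) * δ := by
  have hδ : 0 ≤ δ := (abs_nonneg _).trans (h2 0)
  induction e using Int.induction_on with
  | zero => simp
  | succ n ih =>
    obtain ⟨i1, i2⟩ := ih
    have hn0 : (0 : ℝ) ≤ n := Nat.cast_nonneg n
    push_cast at i1 i2 ⊢
    rw [abs_of_nonneg hn0] at i1 i2
    rw [abs_of_nonneg (by linarith : (0:ℝ) ≤ n + 1), ← add_assoc]
    have a := h1 (m0 + n)
    have b := h2 (m0 + n)
    constructor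
    · have := abs_sub_le (τ (m0 + n + 1)) (τ (m0 + n)) (τ m0); linarith
    · have e : H (m0 + n + 1) - H m0 * ee (τ m0 * (n + 1) / 2)
          = (H (m0 + n + 1) - H (m0 + n) * ee (τ (m0 + n) / 2))
            + H (m0 + n) * (ee (τ (m0 + n) / 2) - ee (τ m0 / 2))
            + (H (m0 + n) - H m0 * ee (τ m0 * n / 2)) * ee (τ m0 / 2) := by
        have : ee (τ m0 * (n + 1) / 2) = ee (τ m0 * n / 2) * ee (τ m0 / 2) := by
          rw [← ee_add]; congr 1; ring
        rw [this]; ring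
      rw [e]
      refine (norm_add_le _ _).trans ((add_le_add_left (norm_add_le _ _) _).trans ?_)
      rw [norm_mul, norm_mul, hn, norm_ee, one_mul, mul_one]
      have c := norm_ee_sub_le (τ (m0 + n) / 2) (τ m0 / 2)
      rw [← sub_div, abs_div, abs_two] at c
      nlinarith [mul_nonneg hn0 hδ]
  | pred n ih =>
    obtain ⟨i1, i2⟩ := ih
    have hn0 : (0 : ℝ) ≤ n := Nat.cast_nonneg n
    push_cast at i1 i2 ⊢
    rw [abs_neg, abs_of_nonneg hn0] at i1 i2
    rw [abs_of_nonpos (by linarith : -(n:ℝ) - 1 ≤ 0)]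
    have a := h1 (m0 + (-n - 1))
    have b := h2 (m0 + (-n - 1))
    have em : m0 + (-(n : ℤ) - 1) + 1 = m0 + -n := by ring
    rw [em] at a b
    have t : |τ (m0 + (-n - 1)) - τ m0| ≤ (n + 1) * δ := by
      have := abs_sub_le (τ (m0 + (-n - 1))) (τ (m0 + -n)) (τ m0)
      rw [abs_sub_comm] at b; linarith
    constructor
    · linarith
    · have e : (H (m0 + (-n - 1)) - H m0 * ee (τ m0 * (-n - 1) / 2)) * ee (τ m0 / 2)
          = -(H (m0 + -n) - H (m0 + (-n - 1)) * ee (τ (m0 + (-n - 1)) / 2))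
            - H (m0 + (-n - 1)) * (ee (τ (m0 + (-n - 1)) / 2) - ee (τ m0 / 2))
            + (H (m0 + -n) - H m0 * ee (τ m0 * -n / 2)) := by
        have : ee (τ m0 * -n / 2) = ee (τ m0 * (-n - 1) / 2) * ee (τ m0 / 2) := by
          rw [← ee_add]; congr 1; ring
        rw [this]; ring
      have e2 := congrArg norm e
      rw [norm_mul, norm_ee, mul_one] at e2
      rw [e2]
      refine (norm_add_le _ _).trans ((add_le_add_left (norm_sub_le _ _) _).trans ?_)
      rw [norm_neg, norm_mul, hn, one_mul]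
      have c := norm_ee_sub_le (τ (m0 + (-n - 1)) / 2) (τ m0 / 2)
      rw [← sub_div, abs_div, abs_two] at c
      nlinarith [mul_nonneg hn0 hδ]

lemma sum_natAbs (g : ℕ → ℝ) (hg : ∀ i, 0 ≤ g i) (N : ℕ) :
    ∑ d ∈ range (2 * N), g ((-(N : ℤ) + d).natAbs) ≤ 2 * ∑ i ∈ range (N + 1), g i := by
  rw [two_mul, Finset.sum_range_add, two_mul]
  apply add_le_add
  · rw [Finset.sum_range_succ', ← Finset.sum_range_reflect (fun i => g (i + 1))]
    have : ∀ d ∈ range N, g ((-(N : ℤ) + d).natAbs) = g (N - 1 - d + 1) := by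
      intro d hd; rw [Finset.mem_range] at hd; congr 1; omega
    rw [Finset.sum_congr rfl this]; linarith [hg 0]
  · rw [Finset.sum_range_succ]
    have : ∀ d ∈ range N, g ((-(N : ℤ) + (N + d : ℕ)).natAbs) = g d := by
      intro d _; congr 1; omega
    rw [Finset.sum_congr rfl this]; linarith [hg N]

/-- The coefficient sequence attached to a function on the grid. -/
noncomputable def bco (N : ℕ) (H : ℤ → ℂ) (k : ℤ) : ℂ :=
  ((√N / (2 * N) : ℝ) : ℂ) * ∑ m ∈ range (2 * N), H m * ee (-(k * (m + 1 / 2) / (2 * N)))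

noncomputable def wt (n1 n2 k : ℕ) : ℝ :=
  (1 / n2 : ℝ) * ∑ q ∈ range n2, if q ≤ k ∧ k < q + n1 then 1 else 0

lemma wt_nonneg (n1 n2 k : ℕ) : 0 ≤ wt n1 n2 k := by
  unfold wt
  apply mul_nonneg (by positivity)
  apply Finset.sum_nonneg; intro q _; split_ifs <;> norm_num

lemma wt_le (n1 n2 k : ℕ) : wt n1 n2 k ≤ 1 := by
  unfold wt
  have : ∑ q ∈ range n2, (if q ≤ k ∧ k < q + n1 then (1:ℝ) else 0) ≤ n2 := by
    refine (Finset.sum_le_sum (g := fun _ => 1) fun q _ => ?_).trans (by simp)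
    split_ifs <;> norm_num
  rcases Nat.eq_zero_or_pos n2 with rfl | h
  · simp
  · have : (0 : ℝ) < n2 := by exact_mod_cast h
    rw [one_div, inv_mul_le_iff₀ this]; linarith

lemma poly_eq {N n1 n2 : ℕ} (hN : n1 + n2 = N + 1) (H : ℤ → ℂ) (θ : ℝ) :
    ∑ k ∈ range N, (wt n1 n2 k : ℂ) * bco N H (k + 1 - n2) * ee (k * θ)
      = ee ((n2 - 1) * θ) * ((√N / (2 * N) : ℝ) : ℂ) *
        ∑ m ∈ range (2 * N), H m * WW n1 n2 (θ - (m + 1 / 2) / (2 * N)) := by
  have e1 : ∑ k ∈ range N, (wt n1 n2 k : ℂ) * bco N H (k + 1 - n2) * ee (k * θ)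
      = (1 / n2 : ℂ) * ∑ q ∈ range n2, ∑ p ∈ range n1,
          bco N H (p + q + 1 - n2) * ee ((p + q) * θ) := by
    unfold wt
    push_cast
    simp only [mul_assoc]
    rw [← Finset.mul_sum]
    congr 1
    simp only [Finset.sum_mul]
    rw [Finset.sum_comm]
    refine Finset.sum_congr rfl fun q hq => ?_
    rw [Finset.mem_range] at hq
    simp only [apply_ite ((↑) : ℝ → ℂ), Complex.ofReal_one, Complex.ofReal_zero, ite_mul, one_mul,
      zero_mul]
    rw [← Finset.sum_filter]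
    have : (range N).filter (fun k => q ≤ k ∧ k < q + n1) = Ico q (q + n1) := by
      ext k; simp only [Finset.mem_filter, Finset.mem_range, Finset.mem_Ico]; omega
    rw [this, Finset.sum_Ico_eq_sum_range, Nat.add_sub_cancel_left]
    refine Finset.sum_congr rfl fun p _ => ?_
    push_cast
    rw [add_comm (q : ℤ), add_comm (q : ℝ)]
  rw [e1]
  unfold bco WW
  simp only [Finset.mul_sum, Finset.sum_mul]
  rw [Finset.sum_comm (s := range (2 * N))]
  refine Finset.sum_congr rfl fun q _ => ?_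
  rw [Finset.sum_comm (s := range (2 * N))]
  refine Finset.sum_congr rfl fun p _ => Finset.sum_congr rfl fun m _ => ?_
  have : ee (-(((p + q + 1 - n2 : ℤ) : ℝ) * (m + 1 / 2) / (2 * N))) * ee ((p + q) * θ)
      = ee ((n2 - 1) * θ) * ee ((p + q + 1 - n2 : ℝ) * (θ - (m + 1 / 2) / (2 * N))) := by
    rw [← ee_add, ← ee_add]; congr 1; push_cast; ring
  linear_combination (1 / (n2 : ℂ) * ((√N / (2 * N) : ℝ) : ℂ) * H m) * this

lemma pside_core {N n1 n2 R : ℕ} (hN : n1 + n2 = N + 1) (hn2 : 0 < n2) (H : ℤ → ℂ) (τ : ℤ → ℝ)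
    {δ : ℝ} (hN0 : 0 < N) (hper : ∀ m, H (m + (2 * N : ℕ)) = H m) (hn : ∀ m, ‖H m‖ = 1)
    (hτ : ∀ m, 0 ≤ τ m ∧ τ m * N + 2 * n2 ≤ N)
    (h1 : ∀ m, ‖H (m + 1) - H m * ee (τ m / 2)‖ ≤ δ) (h2 : ∀ m, |τ (m + 1) - τ m| ≤ δ) (θ : ℝ) :
    |‖∑ m ∈ range (2 * N), H m * WW n1 n2 (θ - (m + 1 / 2) / (2 * N))‖ - 2 * N|
      ≤ 2 * ((R + 1) * ((R * (1 + 4 * R) * δ + 4 * R / N) * N) + 128 * N ^ 2 / n2 * (2 / (R + 1))) := by
  have hNr : (0 : ℝ) < N := by exact_mod_cast hN0
  have hn2r : (0 : ℝ) < n2 := by exact_mod_cast hn2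
  have hδ : 0 ≤ δ := (abs_nonneg _).trans (h2 0)
  set m0 := ⌊2 * N * θ⌋ with hm0
  have f1 : (m0 : ℝ) ≤ 2 * N * θ := Int.floor_le _
  have f2 : 2 * N * θ < m0 + 1 := Int.lt_floor_add_one _
  set k := ⌊τ m0 * N⌋₊ with hk
  have k1 : (k : ℝ) ≤ τ m0 * N := Nat.floor_le (mul_nonneg (hτ m0).1 hNr.le)
  have k2 : τ m0 * N < k + 1 := Nat.lt_floor_add_one _
  have hkn : k + n2 ≤ n1 := by
    have : (k : ℝ) + 2 * n2 ≤ N := by linarith [(hτ m0).2]
    have : k + 2 * n2 ≤ N := by exact_mod_cast this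
    omega
  have sh := sum_shift (fun m : ℤ => H m * WW n1 n2 (θ - (m + 1 / 2) / (2 * N))) (2 * N)
    (fun m => by
      simp only [hper]
      rw [← WW_add_int n1 n2 _ 1]; congr 2; push_cast; field_simp; ring) (m0 - N)
  simp only [Int.cast_natCast] at sh
  rw [← sh]
  have rp := repro (n1 := n1) (n2 := n2) (G := 2 * N) hn2 (by omega) k hkn (m0 - N + 1 / 2) θ
  set Z := H m0 * ee (-(k * (m0 + 1 / 2) / (2 * N))) with hZ
  have hmain : ‖Z * ((2 * N : ℕ) * ee (k * θ))‖ = 2 * N := by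
    rw [hZ, norm_mul, norm_mul, norm_mul, hn, norm_ee, norm_ee]; simp
  set g : ℕ → ℝ := fun i => if i ≤ R then (R * (1 + 4 * R) * δ + 4 * R / N) * N
    else 128 * N ^ 2 / n2 * ((i : ℝ) ^ 2)⁻¹ with hg
  have hg0 : ∀ i, 0 ≤ g i := by intro i; simp only [hg]; split_ifs <;> positivity
  have herr : ‖∑ d ∈ range (2 * N), H (m0 - N + d) *
        WW n1 n2 (θ - (((m0 - N + d : ℤ) : ℝ) + 1 / 2) / (2 * N)) - Z * ((2 * N : ℕ) * ee (k * θ))‖
      ≤ ∑ d ∈ range (2 * N), g ((-(N : ℤ) + d).natAbs) := by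
    rw [← rp, Finset.mul_sum, ← Finset.sum_sub_distrib]
    refine (norm_sum_le _ _).trans (Finset.sum_le_sum fun d hd => ?_)
    rw [Finset.mem_range] at hd
    set e : ℤ := -(N : ℤ) + d with he
    have her : (e : ℝ) = -N + d := by rw [he]; push_cast; ring
    have e1 : m0 - N + d = m0 + e := by rw [he]; ring
    have e2 : θ - (d + (m0 - N + 1 / 2)) / ((2 * N : ℕ) : ℝ)
        = θ - (((m0 - N + d : ℤ) : ℝ) + 1 / 2) / (2 * N) := by push_cast; ring
    have e3 : Z * ee (k * (d + (m0 - N + 1 / 2)) / ((2 * N : ℕ) : ℝ)) = H m0 * ee (k * e / (2 * N)) := by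
      rw [hZ, mul_assoc, ← ee_add]; congr 2; rw [her]; push_cast; ring
    rw [e2, ← mul_assoc, e3, ← sub_mul, norm_mul, e1]
    set s := θ - (((m0 + e : ℤ) : ℝ) + 1 / 2) / (2 * N) with hs
    have habs : ((e.natAbs : ℕ) : ℝ) = |(e : ℝ)| := by
      rw [← Int.cast_abs, Int.abs_eq_natAbs]; simp
    simp only [hg]
    split_ifs with hR
    · have hR' : |(e : ℝ)| ≤ R := by rw [← habs]; exact_mod_cast hR
      have a := (local_est H τ hn h1 h2 m0 e).2
      have b := norm_ee_sub_le (τ m0 * e / 2) (k * e / (2 * N))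
      have c : |τ m0 * e / 2 - k * e / (2 * N)| ≤ R / (2 * N) := by
        have : τ m0 * e / 2 - k * e / (2 * N) = (τ m0 * N - k) * e / (2 * N) := by field_simp
        rw [this, abs_div, abs_mul, abs_of_pos (by positivity : (0:ℝ) < 2 * N)]
        apply div_le_div_of_nonneg_right _ (by positivity)
        have : |τ m0 * N - k| ≤ 1 := abs_le.2 ⟨by linarith, by linarith⟩
        nlinarith [abs_nonneg (e : ℝ), abs_nonneg (τ m0 * N - k)]
      apply mul_le_mul _ _ (norm_nonneg _) (by positivity)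
      · have : H (m0 + e) - H m0 * ee (k * e / (2 * N))
            = (H (m0 + e) - H m0 * ee (τ m0 * e / 2))
              + H m0 * (ee (τ m0 * e / 2) - ee (k * e / (2 * N))) := by ring
        rw [this]
        refine (norm_add_le _ _).trans (add_le_add (a.trans ?_) ?_)
        · gcongr
        · rw [norm_mul, hn, one_mul]
          have e : 4 * (R : ℝ) / N = 8 * (R / (2 * N)) := by field_simp; ring
          have : 0 ≤ (R : ℝ) / (2 * N) := by positivity
          linarith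
      · rw [norm_WW, div_le_iff₀ hn2r, mul_comm]
        apply mul_le_mul ((norm_DD_le _ _).trans _) (norm_DD_le _ _) (norm_nonneg _) hNr.le
        have : n1 ≤ N := by omega
        exact_mod_cast this
    · have hR1 : (1 : ℝ) ≤ |(e : ℝ)| := by
        rw [← habs]; have : 1 ≤ e.natAbs := by omega
        exact_mod_cast this
      have heN : |(e : ℝ)| ≤ N := by
        rw [← habs]; have : e.natAbs ≤ N := by omega
        exact_mod_cast this
      have hs2 : s = (2 * N * θ - m0 - 1 / 2 - e) / (2 * N) := by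
        rw [hs]; push_cast; field_simp; ring
      have hx : |2 * N * θ - m0 - 1 / 2| ≤ 1 / 2 := abs_le.2 ⟨by linarith, by linarith⟩
      have t1 := abs_sub_abs_le_abs_sub (e : ℝ) (2 * N * θ - m0 - 1 / 2)
      rw [abs_sub_comm (e : ℝ)] at t1
      have t2 := abs_sub (2 * N * θ - m0 - 1 / 2) (e : ℝ)
      have hN1 : (1 : ℝ) ≤ N := by exact_mod_cast hN0
      have hsa : |s| = |2 * N * θ - m0 - 1 / 2 - e| / (2 * N) := by
        rw [hs2, abs_div, abs_of_pos (by positivity : (0:ℝ) < 2 * N)]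
      have lo : |(e : ℝ)| / (4 * N) ≤ |s| := by
        rw [hsa, div_le_div_iff₀ (by positivity) (by positivity)]
        have := mul_le_mul_of_nonneg_right
          (show |(e : ℝ)| ≤ 2 * |2 * N * θ - m0 - 1 / 2 - e| by linarith) hNr.le
        linarith
      have hi : |s| ≤ 3 / 4 := by
        rw [hsa, div_le_iff₀ (by positivity)]; linarith
      have hs0 : s ≠ 0 := by
        intro h; rw [h, abs_zero] at lo
        have : 0 < |(e : ℝ)| / (4 * N) := by positivity
        linarith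
      have hD : ∀ n, ‖DD n s‖ ≤ 8 * N / |(e : ℝ)| := fun n =>
        (norm_DD_le' n hs0 hi).trans ((div_le_div_of_nonneg_left (by norm_num) (by positivity)
          lo).trans (le_of_eq (by field_simp; ring)))
      have hH : ‖H (m0 + e) - H m0 * ee (k * e / (2 * N))‖ ≤ 2 := by
        refine (norm_sub_le _ _).trans ?_
        rw [norm_mul, hn, hn, norm_ee]; norm_num
      rw [norm_WW, habs]
      refine (mul_le_mul hH (div_le_div_of_nonneg_right (mul_le_mul (hD _) (hD _) (norm_nonneg _)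
        (by positivity)) hn2r.le) (by positivity) (by norm_num)).trans (le_of_eq ?_)
      field_simp; ring
  have hsum : ∑ i ∈ range (N + 1), g i ≤ (R + 1) * ((R * (1 + 4 * R) * δ + 4 * R / N) * N)
      + 128 * N ^ 2 / n2 * (2 / (R + 1)) := by
    simp only [hg]
    rw [Finset.sum_ite]
    apply add_le_add
    · rw [Finset.sum_const, nsmul_eq_mul]
      apply mul_le_mul_of_nonneg_right _ (by positivity)
      have : ((range (N + 1)).filter (fun i => i ≤ R)).card ≤ (range (R + 1)).card :=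
        Finset.card_le_card fun i hi => by
          simp only [Finset.mem_filter, Finset.mem_range] at hi ⊢; omega
      rw [Finset.card_range] at this
      exact_mod_cast this
    · rw [← Finset.mul_sum]
      apply mul_le_mul_of_nonneg_left _ (by positivity)
      have : (range (N + 1)).filter (fun i => ¬ i ≤ R) = Ioo R (N + 1) := by
        ext i; simp only [Finset.mem_filter, Finset.mem_range, Finset.mem_Ioo]; omega
      rw [this]
      exact sum_Ioo_inv_sq_le R (N + 1)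
  have := abs_norm_sub_norm_le (∑ d ∈ range (2 * N), H (m0 - N + d) *
        WW n1 n2 (θ - (((m0 - N + d : ℤ) : ℝ) + 1 / 2) / (2 * N))) (Z * ((2 * N : ℕ) * ee (k * θ)))
  rw [hmain] at this
  have s2 := sum_natAbs g hg0 N
  linarith

theorem pside {ε η C : ℝ} (hε : 0 < ε) (hη : 0 < η) (hη1 : η ≤ 1 / 4) :
    ∀ᶠ N : ℕ in atTop, ∃ n2 : ℕ, ∃ w : ℕ → ℝ, (n2 : ℝ) ≤ η * N ∧ 0 < n2 ∧
      (∀ k, 0 ≤ w k ∧ w k ≤ 1) ∧ ∀ (H : ℤ → ℂ) (τ : ℤ → ℝ), (∀ m, H (m + (2 * N : ℕ)) = H m) →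
      (∀ m, ‖H m‖ = 1) → (∀ m, 0 ≤ τ m ∧ τ m ≤ 1 - 2 * η) →
      (∀ m, ‖H (m + 1) - H m * ee (τ m / 2)‖ ≤ C / N) → (∀ m, |τ (m + 1) - τ m| ≤ C / N) →
      ∀ θ : ℝ, |‖∑ k ∈ range N, (w k : ℂ) * bco N H (k + 1 - n2) * ee (k * θ)‖ - √N| ≤ ε * √N := by
  obtain ⟨R, hR⟩ := exists_nat_ge (1024 / (η * ε))
  have t1 : Tendsto (fun N : ℕ => (N : ℝ)) atTop atTop := tendsto_natCast_atTop_atTop
  filter_upwards [t1.eventually_ge_atTop (2 / η),
    t1.eventually_ge_atTop (2 * ((R + 1) * (R * (1 + 4 * R) * C + 4 * R)) / ε),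
    eventually_gt_atTop 0] with N e1 e2 hN0
  have hNr : (0 : ℝ) < N := by exact_mod_cast hN0
  set n2 := ⌊η * N⌋₊ with hn2
  have a1 : (n2 : ℝ) ≤ η * N := Nat.floor_le (by positivity)
  have a2 : η * N < n2 + 1 := Nat.lt_floor_add_one _
  rw [div_le_iff₀ hη] at e1
  have a3 : η * N / 2 ≤ n2 := by linarith
  have hn2r : (0 : ℝ) < n2 := lt_of_lt_of_le (by positivity) a3
  have hn20 : 0 < n2 := by exact_mod_cast hn2r
  have a4 : n2 ≤ N := by
    have : (n2 : ℝ) ≤ N := by nlinarith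
    exact_mod_cast this
  refine ⟨n2, wt (N + 1 - n2) n2, a1, hn20, fun k => ⟨wt_nonneg _ _ _, wt_le _ _ _⟩, ?_⟩
  intro H τ hper hn hτ h1 h2 θ
  rw [poly_eq (by omega), norm_mul, norm_mul, norm_ee, one_mul, Complex.norm_real, Real.norm_eq_abs,
    abs_of_nonneg (by positivity : (0:ℝ) ≤ √N / (2 * N))]
  have core := pside_core (n1 := N + 1 - n2) (n2 := n2) (R := R) (by omega) hn20 H τ hN0 hper hn
    (fun m => ⟨(hτ m).1, by nlinarith [(hτ m).2]⟩) h1 h2 θ
  set X := ‖∑ m ∈ range (2 * N), H m * WW (N + 1 - n2) n2 (θ - (m + 1 / 2) / (2 * N))‖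
  have e : √N / (2 * N) * X - √N = √N / (2 * N) * (X - 2 * N) := by field_simp
  rw [e, abs_mul, abs_of_nonneg (by positivity : (0:ℝ) ≤ √N / (2 * N))]
  have b1 : (R + 1) * ((R * (1 + 4 * R) * (C / N) + 4 * R / N) * N) ≤ ε / 2 * N := by
    rw [div_le_iff₀ hε] at e2
    have : (R * (1 + 4 * R) * (C / N) + 4 * R / N) * N = R * (1 + 4 * R) * C + 4 * R := by
      field_simp
    rw [this]; linarith
  have b2 : 128 * (N : ℝ) ^ 2 / n2 * (2 / (R + 1)) ≤ ε / 2 * N := by
    have c1 : 128 * (N : ℝ) ^ 2 / n2 ≤ 128 * (N : ℝ) ^ 2 / (η * N / 2) :=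
      div_le_div_of_nonneg_left (by positivity) (by positivity) a3
    have c2 : 2 / ((R : ℝ) + 1) ≤ 2 / (1024 / (η * ε)) :=
      div_le_div_of_nonneg_left (by positivity) (by positivity) (by linarith)
    refine (mul_le_mul c1 c2 (by positivity) (by positivity)).trans (le_of_eq ?_)
    field_simp; ring
  refine (mul_le_mul_of_nonneg_left (core.trans (show _ ≤ 2 * (ε * N) by linarith))
    (by positivity)).trans (le_of_eq ?_)
  field_simp

end Vale.Agent.P110
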