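import Mathlib

namespace Vale.Agent.P110

open Finset

lemma crt {σ : Type*} [Fintype σ] (s : σ → ℕ) (hs : ∀ i, 0 < s i)
    (pp : Pairwise (Function.onFun Nat.Coprime s)) (a : σ → ℤ) :
    ∃ z : ℤ, ∀ i, z ≡ a i [ZMOD s i] := by
  obtain ⟨k, hk⟩ := Nat.chineseRemainderOfFinset (fun i => (a i % s i).toNat) s Finset.univ
    (fun i _ => (hs i).ne') (by simpa using pp.set_pairwise _)
  refine ⟨k, fun i => ?_⟩
  have h1 := Int.natCast_modEq_iff.2 (hk i (Finset.mem_univ i))
  rw [Int.toNat_of_nonneg (Int.emod_nonneg _ (by exact_mod_cast (hs i).ne'))] at h1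
  exact h1.trans (Int.mod_modEq _ _)

lemma sol_count {C : ℕ} [NeZero C] {a : ℤ} (ha : a ≠ 0) (b : ZMod C) :
    (univ.filter (fun x : ZMod C => (a : ZMod C) * x = b)).card ≤ a.natAbs := by
  have hC : 0 < C := Nat.pos_of_ne_zero (NeZero.ne C)
  rw [← Finset.card_range a.natAbs]
  apply Finset.card_le_card_of_injOn (fun x => a.natAbs * x.val / C)
  · intro x _
    simp only [Finset.coe_range, Set.mem_Iio]
    rw [Nat.div_lt_iff_lt_mul hC]
    exact Nat.mul_lt_mul_of_pos_left (ZMod.val_lt x) (Int.natAbs_pos.2 ha)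
  · intro x hx y hy hxy
    simp only [Finset.coe_filter, Finset.mem_univ, true_and, Set.mem_setOf_eq] at hx hy
    have h1 : ((a.natAbs * x.val : ℕ) : ZMod C) = ((a.natAbs * y.val : ℕ) : ZMod C) := by
      push_cast
      rw [ZMod.natCast_zmod_val, ZMod.natCast_zmod_val]
      have := hx.trans hy.symm
      rcases Int.natAbs_eq a with h | h
      · rw [h, Int.cast_natCast] at this; exact this
      · rw [h, Int.cast_neg, Int.cast_natCast, neg_mul, neg_mul, neg_inj] at this; exact this
    rw [ZMod.natCast_eq_natCast_iff'] at h1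
    have h2 : a.natAbs * x.val = a.natAbs * y.val := by
      rw [← Nat.div_add_mod (a.natAbs * x.val) C, ← Nat.div_add_mod (a.natAbs * y.val) C, h1]
      simp only at hxy
      rw [hxy]
    exact ZMod.val_injective C (Nat.eq_of_mul_eq_mul_left (Int.natAbs_pos.2 ha) h2)

lemma ker_count {G H : Type*} [AddCommGroup G] [Fintype G] [AddCommGroup H] [Fintype H]
    [DecidableEq H] (φ : G →+ H) :
    Fintype.card G ≤ (univ.filter (fun x => φ x = 0)).card * Fintype.card H := by
  have h1 := AddSubgroup.card_mul_index φ.ker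
  rw [AddSubgroup.index_ker] at h1
  have h2 : Nat.card φ.range ≤ Fintype.card H := by
    rw [← Nat.card_eq_fintype_card]; exact Nat.card_le_card_of_injective _ Subtype.val_injective
  have h3 : Nat.card φ.ker = (univ.filter (fun x => φ x = 0)).card := by
    rw [← Fintype.card_subtype, ← Nat.card_eq_fintype_card]; rfl
  rw [← Nat.card_eq_fintype_card, ← h1, h3]
  exact Nat.mul_le_mul_left _ h2

/-- Class of a cell: the long interval up to mirror symmetry. -/
def kap (L v : ℕ) : ℕ := min (v / L) (2 * L - 1 - v / L)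

lemma kap_lt {L : ℕ} (hL : 0 < L) (v : ℕ) : kap L v < L := by unfold kap; omega

lemma kap_mirror {L : ℕ} (hL : 0 < L) {x y : ℕ} (h : x + y + 1 = 2 * L * L) : kap L x = kap L y := by
  have key : x / L + y / L + 1 = 2 * L := by
    have h1 := Nat.div_add_mod x L
    have h2 := Nat.div_add_mod y L
    have h3 := Nat.mod_lt x hL
    have h4 := Nat.mod_lt y hL
    have e : L * (2 * L) = 2 * L * L := by ring
    have h5 : L * (x / L + y / L) < L * (2 * L) := by rw [mul_add, e]; omega
    have h6 : L * (2 * L) < L * (x / L + y / L + 2) := by rw [mul_add, mul_add, e]; omega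
    have := Nat.lt_of_mul_lt_mul_left h5
    have := Nat.lt_of_mul_lt_mul_left h6
    omega
  unfold kap
  generalize x / L = a at *
  generalize y / L = b at *
  omega

variable {ι : Type} [Fintype ι] [DecidableEq ι]

def cel (C : ℕ) (j : ι → ℕ) (m : ι → ℤ) (w : ZMod C × ZMod C) (ν : ι) : ZMod C :=
  (j ν : ZMod C) * w.1 + (m ν : ZMod C) * w.2

def Good (L : ℕ) (j : ι → ℕ) (m : ι → ℤ) (w : ZMod (2 * L * L) × ZMod (2 * L * L)) : Prop :=
  (∀ ν, (cel _ j m w ν).val % L + j ν ≤ L) ∧
    ∀ ν ν', ν ≠ ν' → kap L (cel _ j m w ν).val ≠ kap L (cel _ j m w ν').val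

omit [Fintype ι] [DecidableEq ι] in
lemma cel_inj {C : ℕ} {j : ι → ℕ} {m : ι → ℤ} {ν : ι} (h : Nat.Coprime (j ν) C)
    {w w' : ZMod C × ZMod C} (h1 : cel C j m w ν = cel C j m w' ν) (h2 : w.2 = w'.2) : w = w' := by
  refine Prod.ext ?_ h2
  unfold cel at h1
  rw [h2, add_left_inj] at h1
  exact ((ZMod.isUnit_iff_coprime _ _).2 h).mul_left_cancel h1

open Classical in
lemma bad_count {L : ℕ} [NeZero (2 * L * L)] (j : ι → ℕ) (m : ι → ℤ)
    (hj : ∀ ν, Nat.Coprime (j ν) (2 * L * L))
    (hdet : ∀ ν ν', ν ≠ ν' → (j ν : ℤ) * m ν' ≠ j ν' * m ν) :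
    (univ.filter (fun w => ¬ Good L j m w)).card * L ≤ (2 * L * L) ^ 2 *
      (∑ ν, j ν + ∑ p : ι × ι, ((j p.1 : ℤ) * m p.2 - j p.2 * m p.1).natAbs) := by
  have hL : 0 < L := by
    rcases Nat.eq_zero_or_pos L with h | h
    · exact absurd (by simp [h]) (NeZero.ne (2 * L * L))
    · exact h
  set C := 2 * L * L with hC
  have b1 : ∀ ν, (univ.filter (fun w : ZMod C × ZMod C => ¬ (cel C j m w ν).val % L + j ν ≤ L)).card
      ≤ 2 * L * j ν * C := by
    intro ν
    have : 2 * L * j ν * C = ((range (2 * L) ×ˢ range (j ν)) ×ˢ (univ : Finset (ZMod C))).card := by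
      simp
    rw [this]
    apply Finset.card_le_card_of_injOn
      (fun w => (((cel C j m w ν).val / L, L - 1 - (cel C j m w ν).val % L), w.2))
    · intro w hw
      simp only [Finset.coe_filter, Finset.mem_univ, true_and, Set.mem_setOf_eq] at hw
      simp only [Finset.coe_product, Finset.coe_range, Finset.coe_univ, Set.mem_prod, Set.mem_Iio,
        Set.mem_univ, and_true]
      have := Nat.mod_lt (cel C j m w ν).val hL
      exact ⟨(Nat.div_lt_iff_lt_mul hL).2 (ZMod.val_lt _), by omega⟩
    · intro w _ w' _ h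
      simp only [Prod.mk.injEq] at h
      obtain ⟨⟨h1, h2⟩, h3⟩ := h
      refine cel_inj (m := m) (hj ν) (ZMod.val_injective C ?_) h3
      have a1 := Nat.mod_lt (cel C j m w ν).val hL
      have a2 := Nat.mod_lt (cel C j m w' ν).val hL
      rw [← Nat.div_add_mod (cel C j m w ν).val L, ← Nat.div_add_mod (cel C j m w' ν).val L, h1]
      omega
  have b2 : ∀ p : ι × ι, (univ.filter (fun w : ZMod C × ZMod C => p.1 ≠ p.2 ∧
      kap L (cel C j m w p.1).val = kap L (cel C j m w p.2).val)).card
      ≤ ((j p.1 : ℤ) * m p.2 - j p.2 * m p.1).natAbs * (C * 2 * L) := by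
    rintro ⟨ν, ν'⟩
    have : C * 2 * L = (((univ : Finset (ZMod C)) ×ˢ (univ : Finset Bool)) ×ˢ range L).card := by
      simp
    rw [this]
    apply Finset.card_le_mul_card_image_of_maps_to
      (f := fun w => ((cel C j m w ν, decide ((cel C j m w ν').val / L = (cel C j m w ν).val / L)),
        (cel C j m w ν').val % L))
    · intro w _
      simp only [Finset.mem_product, Finset.mem_univ, true_and, Finset.mem_range]
      exact Nat.mod_lt _ hL
    · intro y _
      by_contra hcon
      obtain ⟨w0, hw0⟩ := Finset.card_pos.1 ((Nat.zero_le _).trans_lt (not_le.1 hcon))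
      apply hcon
      simp only [Finset.mem_filter, Finset.mem_univ, true_and] at hw0
      obtain ⟨⟨hne, hk0⟩, rfl⟩ := hw0
      refine le_trans ?_ (sol_count (C := C) (sub_ne_zero.2 (hdet ν ν' hne))
        ((j ν : ZMod C) * cel C j m w0 ν' - (j ν' : ZMod C) * cel C j m w0 ν))
      have key : ∀ w, kap L (cel C j m w ν).val = kap L (cel C j m w ν').val →
          ((cel C j m w ν, decide ((cel C j m w ν').val / L = (cel C j m w ν).val / L)),
          (cel C j m w ν').val % L) = ((cel C j m w0 ν,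
            decide ((cel C j m w0 ν').val / L = (cel C j m w0 ν).val / L)),
            (cel C j m w0 ν').val % L) →
          cel C j m w ν = cel C j m w0 ν ∧ cel C j m w ν' = cel C j m w0 ν' := by
        intro w hk h
        simp only [Prod.mk.injEq, decide_eq_decide] at h
        obtain ⟨⟨h1, h2⟩, h3⟩ := h
        refine ⟨h1, ZMod.val_injective C ?_⟩
        rw [← Nat.div_add_mod (cel C j m w ν').val L, ← Nat.div_add_mod (cel C j m w0 ν').val L, h3]
        have a1 := (Nat.div_lt_iff_lt_mul hL).2 (ZMod.val_lt (cel C j m w ν'))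
        have a2 := (Nat.div_lt_iff_lt_mul hL).2 (ZMod.val_lt (cel C j m w0 ν'))
        have a3 := (Nat.div_lt_iff_lt_mul hL).2 (ZMod.val_lt (cel C j m w0 ν))
        rw [h1] at h2 hk
        unfold kap at hk hk0
        have : (cel C j m w ν').val / L = (cel C j m w0 ν').val / L := by omega
        rw [this]
      apply Finset.card_le_card_of_injOn (fun w => w.2)
      · intro w hw
        simp only [Finset.coe_filter, Finset.mem_filter, Finset.mem_univ, true_and,
          Set.mem_setOf_eq] at hw ⊢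
        obtain ⟨h1, h2⟩ := key w hw.1.2 hw.2
        rw [← h1, ← h2]; unfold cel; push_cast; ring
      · intro w hw w' hw' h
        simp only [Finset.coe_filter, Finset.mem_filter, Finset.mem_univ, true_and,
          Set.mem_setOf_eq] at hw hw'
        exact cel_inj (hj ν) ((key w hw.1.2 hw.2).1.trans (key w' hw'.1.2 hw'.2).1.symm) h
  have sub : univ.filter (fun w => ¬ Good L j m w) ⊆
      univ.biUnion (fun ν => univ.filter (fun w : ZMod C × ZMod C =>
        ¬ (cel C j m w ν).val % L + j ν ≤ L)) ∪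
      univ.biUnion (fun p : ι × ι => univ.filter (fun w : ZMod C × ZMod C => p.1 ≠ p.2 ∧
        kap L (cel C j m w p.1).val = kap L (cel C j m w p.2).val)) := by
    intro w hw
    simp only [Finset.mem_filter, Finset.mem_univ, true_and, Good, not_and_or, not_forall] at hw
    simp only [Finset.mem_union, Finset.mem_biUnion, Finset.mem_filter, Finset.mem_univ, true_and]
    rcases hw with ⟨ν, h⟩ | ⟨ν, ν', h1, h2⟩
    · exact Or.inl ⟨ν, h⟩
    · exact Or.inr ⟨(ν, ν'), h1, not_not.1 h2⟩
  have c := (Finset.card_le_card sub).trans ((Finset.card_union_le _ _).trans (add_le_add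
    (Finset.card_biUnion_le.trans (Finset.sum_le_sum fun ν _ => b1 ν))
    (Finset.card_biUnion_le.trans (Finset.sum_le_sum fun p _ => b2 p))))
  refine (Nat.mul_le_mul_right L c).trans (le_of_eq ?_)
  rw [add_mul, mul_add, Finset.sum_mul, Finset.sum_mul, Finset.mul_sum, Finset.mul_sum]
  congr 1 <;> refine Finset.sum_congr rfl fun _ _ => ?_ <;> rw [hC] <;> ring

lemma moduli (L W0 X : ℕ) :
    (∀ κ a, a ∣ W0 → Nat.Coprime a (1 + (X + κ) * (W0 * L.factorial))) ∧
    ∀ κ κ', κ < L → κ' < L → κ ≠ κ' →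
      Nat.Coprime (1 + (X + κ) * (W0 * L.factorial)) (1 + (X + κ') * (W0 * L.factorial)) := by
  have c1 : ∀ κ p, p ∣ W0 * L.factorial → p ∣ 1 + (X + κ) * (W0 * L.factorial) → p ∣ 1 :=
    fun κ p h1 h2 => (Nat.dvd_add_left (h1.mul_left _)).1 h2
  constructor
  · intro κ a ha
    exact Nat.coprime_of_dvd' fun p _ h1 h2 => c1 κ p ((h1.trans ha).mul_right _) h2
  · have key : ∀ κ κ', κ' < L → κ < κ' →
        Nat.Coprime (1 + (X + κ) * (W0 * L.factorial)) (1 + (X + κ') * (W0 * L.factorial)) := by
      intro κ κ' h1 h2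
      refine Nat.coprime_of_dvd' fun p hp a1 a2 => c1 κ p ?_ a1
      obtain ⟨t, rfl⟩ := Nat.exists_eq_add_of_lt h2
      have e : 1 + (X + (κ + t + 1)) * (W0 * L.factorial)
          = 1 + (X + κ) * (W0 * L.factorial) + (t + 1) * (W0 * L.factorial) := by ring
      rw [e, Nat.dvd_add_right a1] at a2
      rcases (Nat.Prime.dvd_mul hp).1 a2 with h | h
      · exact (Nat.dvd_factorial hp.pos ((Nat.le_of_dvd (by omega) h).trans (by omega))).mul_left _
      · exact h
    intro κ κ' h1 h2 h3
    rcases lt_or_gt_of_ne h3 with h | h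
    · exact key κ κ' h2 h
    · exact (key κ' κ h1 h).symm

end Vale.Agent.P110
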