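import Vale.Agent.P110.Pack1

namespace Vale.Agent.P110

open Finset

variable {ι : Type} [Fintype ι] [DecidableEq ι]

def kf {L : ℕ} (hL : 0 < L) (j : ι → ℕ) (m : ι → ℤ) (w : ZMod (2 * L * L) × ZMod (2 * L * L))
    (ν : ι) : Fin L := ⟨kap L (cel _ j m w ν).val, kap_lt hL _⟩

lemma eq_of_modEq {a b : ℕ} {d : ℕ} (h : (a : ℤ) ≡ b [ZMOD d]) (ha : a < d) (hb : b < d) : a = b :=
  Nat.ModEq.eq_of_lt_of_lt (Int.natCast_modEq_iff.1 h) ha hb

lemma pack_core {L R : ℕ} [NeZero (2 * L * L)] (hL : 0 < L) (j : ι → ℕ) (m : ι → ℤ)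
    (hj0 : ∀ ν, 0 < j ν) (hj : ∀ ν, Nat.Coprime (j ν) (2 * L * L)) (D : ℕ) [NeZero D]
    (hD : D = 2 * ((∑ ν, j ν) * (2 * L * L * R))) (d : Fin L → ℕ) (hd : ∀ κ, D < d κ)
    (c1 : Pairwise (Function.onFun Nat.Coprime d)) (c2 : ∀ κ, Nat.Coprime (2 * L * L) (d κ))
    (c3 : ∀ κ ν, Nat.Coprime (j ν) (d κ))
    (c4 : ∀ κ ν ν', ν ≠ ν' → Nat.Coprime ((j ν : ℤ) * m ν' - j ν' * m ν).natAbs (d κ)) :
    ∃ z0 z1 : {p : (ZMod (2 * L * L) × ZMod (2 * L * L)) × Fin R × (Fin L → ZMod D) //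
        Good L j m p.1 ∧ ∑ ν, p.2.2 (kf hL j m p.1 ν) = 0} → ℤ,
      (∀ b ν (i : ℕ) b' ν' (i' : ℕ), i < j ν → i' < j ν' →
        j ν * z0 b + m ν * z1 b + i ≡ j ν' * z0 b' + m ν' * z1 b' + i'
          [ZMOD (2 * L * L * ∏ κ, d κ : ℕ)] → b = b' ∧ ν = ν' ∧ i = i') ∧
      (∀ b ν (i : ℕ) b' ν' (i' : ℕ), i < j ν → i' < j ν' →
        ¬ j ν * z0 b + m ν * z1 b + i ≡ -(j ν' * z0 b' + m ν' * z1 b' + i') - 1
          [ZMOD (2 * L * L * ∏ κ, d κ : ℕ)]) := by
  classical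
  set C := 2 * L * L with hC
  let enc := Fintype.equivFin ((Σ ν, Fin (j ν)) × ZMod C × Fin R)
  have hcard : Fintype.card ((Σ ν, Fin (j ν)) × ZMod C × Fin R) = (∑ ν, j ν) * (C * R) := by
    simp [Fintype.card_sigma, ZMod.card]
  let row : ZMod C × ZMod C → Fin R → ι → ℕ := fun w ρ ν =>
    1 + (enc (⟨ν, ⟨(cel C j m w ν).val % j ν, Nat.mod_lt _ (hj0 ν)⟩⟩, w.2, ρ)).val
  have row_le : ∀ w ρ ν, 1 ≤ row w ρ ν ∧ 2 * row w ρ ν ≤ D := by
    intro w ρ ν
    have := (enc (⟨ν, ⟨(cel C j m w ν).val % j ν, Nat.mod_lt _ (hj0 ν)⟩⟩, w.2, ρ)).isLt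
    simp only [row]
    omega
  have row_inj : ∀ w ρ ν w' ρ' ν', row w ρ ν = row w' ρ' ν' → ν = ν' ∧
      (cel C j m w ν).val % j ν = (cel C j m w' ν).val % j ν ∧ w.2 = w'.2 ∧ ρ = ρ' := by
    intro w ρ ν w' ρ' ν' h
    have h1 := enc.injective (Fin.ext (Nat.add_left_cancel h))
    simp only [Prod.mk.injEq] at h1
    obtain ⟨h2, h3, h4⟩ := h1
    have h5 : ν = ν' := congrArg Sigma.fst h2
    subst h5
    have h6 := sigma_mk_injective h2
    exact ⟨rfl, congrArg Fin.val h6, h3, h4⟩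
  have loc : ∀ (w : ZMod C × ZMod C) (ρ : Fin R) (κ : Fin L), ∃ x u0 u1 : ℤ, Good L j m w →
      (∀ ν, κ = kf hL j m w ν → u0 = -m ν ∧ u1 = j ν ∧
        j ν * x ≡ row w ρ ν + (cel C j m w ν).val - L * L [ZMOD d κ]) ∧
      (∀ ν, κ ≠ kf hL j m w ν → IsCoprime ((j ν : ℤ) * u0 + m ν * u1) (d κ)) := by
    intro w ρ κ
    by_cases h : ∃ ν, κ = kf hL j m w ν
    · obtain ⟨ν0, h0⟩ := h
      obtain ⟨a, b, hab⟩ := Nat.isCoprime_iff_coprime.2 (c3 κ ν0)
      refine ⟨a * (row w ρ ν0 + (cel C j m w ν0).val - L * L), -m ν0, j ν0, fun hg => ⟨?_, ?_⟩⟩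
      · intro ν hν
        have : ν = ν0 := by
          by_contra hne
          exact hg.2 ν ν0 hne (congrArg Fin.val (hν.symm.trans h0))
        subst this
        refine ⟨rfl, rfl, Int.modEq_iff_dvd.2 ⟨b * (row w ρ ν + (cel C j m w ν).val - L * L), ?_⟩⟩
        linear_combination (-((row w ρ ν : ℤ) + (cel C j m w ν).val - L * L)) * hab
      · intro ν hν
        have hne : ν0 ≠ ν := fun h => hν (h ▸ h0)
        have := c4 κ ν0 ν hne
        rw [Int.isCoprime_iff_gcd_eq_one]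
        have e : (j ν : ℤ) * -m ν0 + m ν * j ν0 = j ν0 * m ν - j ν * m ν0 := by ring
        rw [e]; exact this
    · refine ⟨0, 1, 0, fun _ => ⟨fun ν hν => absurd ⟨ν, hν⟩ h, fun ν _ => ?_⟩⟩
      simpa using Nat.isCoprime_iff_coprime.2 (c3 κ ν)
  choose x u0 u1 hx using loc
  let s : Option (Fin L) → ℕ := fun o => o.elim C d
  have hs : ∀ o, 0 < s o := by
    rintro (_ | κ)
    · exact Nat.pos_of_ne_zero (NeZero.ne C)
    · exact (Nat.zero_le _).trans_lt (hd κ)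
  have pp : Pairwise (Function.onFun Nat.Coprime s) := by
    rintro (_ | κ) (_ | κ') h
    · exact absurd rfl h
    · exact c2 κ'
    · exact (c2 κ).symm
    · exact c1 (fun h' => h (congrArg some h'))
  have ex0 := fun b : (ZMod C × ZMod C) × Fin R × (Fin L → ZMod D) => crt s hs pp
    (fun o => o.elim (b.1.1.val : ℤ)
      (fun κ => x b.1 b.2.1 κ + ((b.2.2 κ).val : ℤ) * u0 b.1 b.2.1 κ))
  have ex1 := fun b : (ZMod C × ZMod C) × Fin R × (Fin L → ZMod D) => crt s hs pp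
    (fun o => o.elim (b.1.2.val : ℤ) (fun κ => ((b.2.2 κ).val : ℤ) * u1 b.1 b.2.1 κ))
  choose z0 hz0 using ex0
  choose z1 hz1 using ex1
  have P1 : ∀ b ν, j ν * z0 b + m ν * z1 b ≡ (cel C j m b.1 ν).val [ZMOD C] := by
    intro b ν
    refine (((hz0 b none).mul_left _).add ((hz1 b none).mul_left _)).trans ?_
    show j ν * ((b.1.1.val : ℕ) : ℤ) + m ν * ((b.1.2.val : ℕ) : ℤ) ≡ _ [ZMOD C]
    rw [← ZMod.intCast_eq_intCast_iff]
    simp only [Int.cast_add, Int.cast_mul, Int.cast_natCast, ZMod.natCast_zmod_val, cel]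
  have P3 : ∀ b ν κ, j ν * z0 b + m ν * z1 b ≡ j ν * x b.1 b.2.1 κ
      + ((b.2.2 κ).val : ℤ) * (j ν * u0 b.1 b.2.1 κ + m ν * u1 b.1 b.2.1 κ) [ZMOD d κ] := by
    intro b ν κ
    refine (((hz0 b (some κ)).mul_left _).add ((hz1 b (some κ)).mul_left _)).trans ?_
    simp only [Option.elim]
    exact (Int.modEq_iff_dvd.2 ⟨0, by ring⟩)
  have P2 : ∀ b ν, Good L j m b.1 → j ν * z0 b + m ν * z1 b ≡
      row b.1 b.2.1 ν + (cel C j m b.1 ν).val - L * L [ZMOD d (kf hL j m b.1 ν)] := by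
    intro b ν hg
    obtain ⟨h1, h2, h3⟩ := (hx b.1 b.2.1 (kf hL j m b.1 ν) hg).1 ν rfl
    refine (P3 b ν _).trans ?_
    rw [h1, h2]
    refine Int.ModEq.trans ?_ h3
    exact (Int.modEq_iff_dvd.2 ⟨0, by ring⟩)
  have dC : ((C : ℕ) : ℤ) ∣ (C * ∏ κ, d κ : ℕ) := by exact_mod_cast Dvd.intro _ rfl
  have dd : ∀ κ, ((d κ : ℕ) : ℤ) ∣ (C * ∏ κ, d κ : ℕ) := fun κ => by
    exact_mod_cast (Finset.dvd_prod_of_mem d (Finset.mem_univ κ)).mul_left C
  have inr : ∀ w ν (i : ℕ), Good L j m w → i < j ν → (cel C j m w ν).val + i < C ∧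
      kap L ((cel C j m w ν).val + i) = kap L (cel C j m w ν).val := by
    intro w ν i hg hi
    have h1 : (cel C j m w ν).val % L + j ν ≤ L := hg.1 ν
    have h2 := Nat.div_add_mod (cel C j m w ν).val L
    have h3 := (Nat.div_lt_iff_lt_mul hL).2 (ZMod.val_lt (cel C j m w ν))
    have h4 : ((cel C j m w ν).val + i) / L = (cel C j m w ν).val / L := by
      apply Nat.div_eq_of_lt_le
      · rw [mul_comm]; omega
      · rw [mul_comm, mul_add]; omega
    refine ⟨?_, by unfold kap; rw [h4]⟩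
    rw [← h4] at h3
    exact (Nat.div_lt_iff_lt_mul hL).1 h3
  refine ⟨fun b => z0 b.1, fun b => z1 b.1, ?_, ?_⟩
  · rintro ⟨⟨w, ρ, τ⟩, hg, hτ⟩ ν i ⟨⟨w', ρ', τ'⟩, hg', hτ'⟩ ν' i' hi hi' h
    simp only at hg hτ hg' hτ' h
    obtain ⟨a1, a2⟩ := inr w ν i hg hi
    obtain ⟨a1', a2'⟩ := inr w' ν' i' hg' hi'
    have e1 : (cel C j m w ν).val + i = (cel C j m w' ν').val + i' := by
      apply eq_of_modEq _ a1 a1'
      push_cast
      exact (((P1 (w, ρ, τ) ν).add_right i).symm.trans (h.of_dvd dC)).trans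
        ((P1 (w', ρ', τ') ν').add_right i')
    have e2 : kf hL j m w ν = kf hL j m w' ν' := Fin.ext (by
      simp only [kf]; rw [← a2, ← a2', e1])
    have e3 : row w ρ ν = row w' ρ' ν' := by
      have r1 := row_le w ρ ν
      have r2 := row_le w' ρ' ν'
      have r3 := hd (kf hL j m w ν)
      apply eq_of_modEq (d := d (kf hL j m w ν)) _ (by omega) (by omega)
      have q2 := P2 (w', ρ', τ') ν' hg'
      simp only at q2
      rw [← e2] at q2
      have := (((P2 (w, ρ, τ) ν hg).add_right i).symm.trans (h.of_dvd (dd _))).trans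
        (q2.add_right i')
      have e1' : ((cel C j m w ν).val : ℤ) + i = (cel C j m w' ν').val + i' := by exact_mod_cast e1
      obtain ⟨t, ht⟩ := Int.modEq_iff_dvd.1 this
      exact Int.modEq_iff_dvd.2 ⟨t, by simp only at ht; linear_combination ht + e1'⟩
    obtain ⟨rfl, f2, f3, rfl⟩ := row_inj _ _ _ _ _ _ e3
    have e4 : i = i' := by
      have : (cel C j m w ν).val + i ≡ (cel C j m w ν).val + i' [MOD j ν] := by
        rw [e1]; exact (Nat.ModEq.add_right i' f2).symm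
      exact Nat.ModEq.eq_of_lt_of_lt (Nat.ModEq.add_left_cancel' _ this) hi hi'
    subst e4
    have e5 : w = w' := cel_inj (m := m) (hj ν) (ZMod.val_injective C (by omega)) f3
    subst e5
    refine ⟨?_, rfl, rfl⟩
    have e6 : ∀ κ, κ ≠ kf hL j m w ν → τ κ = τ' κ := by
      intro κ hκ
      have cop := (hx w ρ κ hg).2 ν hκ
      have := ((P3 (w, ρ, τ) ν κ).symm.trans ((h.of_dvd (dd κ)).add_right_cancel' _)).trans
        (P3 (w, ρ, τ') ν κ)
      have h2 := Int.modEq_iff_dvd.1 this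
      simp only at h2
      rw [add_sub_add_left_eq_sub, ← sub_mul] at h2
      have h3 := cop.symm.dvd_of_dvd_mul_right h2
      exact ZMod.val_injective D (eq_of_modEq (Int.modEq_iff_dvd.2 h3)
        ((ZMod.val_lt _).trans (hd κ)) ((ZMod.val_lt _).trans (hd κ)))
    have e7 : τ = τ' := by
      funext κ
      by_cases hκ : κ = kf hL j m w ν
      · rw [← Finset.add_sum_erase _ _ (Finset.mem_univ ν)] at hτ hτ'
        have : ∑ ν' ∈ univ.erase ν, τ (kf hL j m w ν') = ∑ ν' ∈ univ.erase ν, τ' (kf hL j m w ν') :=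
          Finset.sum_congr rfl fun ν' hν' => e6 _ fun h' =>
            hg.2 ν' ν (Finset.ne_of_mem_erase hν') (congrArg Fin.val h')
        rw [this, ← hτ', add_left_inj] at hτ
        rw [hκ]; exact hτ
      · exact e6 κ hκ
    subst e7; rfl
  · rintro ⟨⟨w, ρ, τ⟩, hg, hτ⟩ ν i ⟨⟨w', ρ', τ'⟩, hg', hτ'⟩ ν' i' hi hi' h
    simp only at hg hτ hg' hτ' h
    obtain ⟨a1, a2⟩ := inr w ν i hg hi
    obtain ⟨a1', a2'⟩ := inr w' ν' i' hg' hi'
    have e1 : (cel C j m w ν).val + i + ((cel C j m w' ν').val + i') + 1 = C := by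
      have := (((P1 (w, ρ, τ) ν).add_right i).symm.trans (h.of_dvd dC)).trans
        (((P1 (w', ρ', τ') ν').add_right i').neg.sub_right 1)
      have h2 := (Int.modEq_iff_dvd.1 this).neg_right
      have h3 : C ∣ (cel C j m w ν).val + i + ((cel C j m w' ν').val + i') + 1 := by
        rw [← Int.natCast_dvd_natCast]
        refine h2.trans (dvd_of_eq ?_)
        push_cast; ring
      exact Nat.eq_of_dvd_of_lt_two_mul (by omega) h3 (by omega)
    have e2 : kf hL j m w ν = kf hL j m w' ν' := Fin.ext (by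
      simp only [kf]; rw [← a2, ← a2']; exact kap_mirror hL e1)
    have r1 := row_le w ρ ν
    have r2 := row_le w' ρ' ν'
    have r3 := hd (kf hL j m w ν)
    have q2 := P2 (w', ρ', τ') ν' hg'
    simp only at q2
    rw [← e2] at q2
    have := (((P2 (w, ρ, τ) ν hg).add_right i).symm.trans (h.of_dvd (dd _))).trans
      ((q2.add_right i').neg.sub_right 1)
    have h2 := (Int.modEq_iff_dvd.1 this).neg_right
    have e1' : ((cel C j m w ν).val : ℤ) + i + ((cel C j m w' ν').val + i') + 1 = 2 * L * L := by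
      exact_mod_cast e1
    have h3 : d (kf hL j m w ν) ∣ row w ρ ν + row w' ρ' ν' := by
      rw [← Int.natCast_dvd_natCast]
      refine h2.trans (dvd_of_eq ?_)
      push_cast; linear_combination e1'
    have := Nat.le_of_dvd (by omega) h3
    omega

end Vale.Agent.P110
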