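import Vale.Agent.P110.Pack2

namespace Vale.Agent.P110

open Finset

variable {ι : Type} [Fintype ι] [DecidableEq ι]

open Classical in
lemma pack_card [Nonempty ι] {L R : ℕ} [NeZero (2 * L * L)] (hL : 0 < L) (j : ι → ℕ) (m : ι → ℤ)
    (D : ℕ) [NeZero D] :
    (univ.filter (fun w => Good L j m w)).card * R * D ^ L ≤
      Fintype.card {p : (ZMod (2 * L * L) × ZMod (2 * L * L)) × Fin R × (Fin L → ZMod D) //
        Good L j m p.1 ∧ ∑ ν, p.2.2 (kf hL j m p.1 ν) = 0} * D := by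
  rw [Fintype.card_subtype, Finset.card_filter, Finset.card_filter,
    Fintype.sum_prod_type (α₁ := ZMod (2 * L * L) × ZMod (2 * L * L)),
    Finset.sum_mul, Finset.sum_mul, Finset.sum_mul]
  refine Finset.sum_le_sum fun w _ => ?_
  by_cases hg : Good L j m w
  · simp only [hg, if_true, true_and, one_mul]
    rw [Fintype.sum_prod_type]
    simp only [Finset.sum_const, Finset.card_univ, Fintype.card_fin, smul_eq_mul]
    rw [mul_assoc]
    apply Nat.mul_le_mul_left
    have := ker_count (G := Fin L → ZMod D) (H := ZMod D)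
      (∑ ν, Pi.evalAddMonoidHom (fun _ => ZMod D) (kf hL j m w ν))
    simp only [Fintype.card_fun, ZMod.card, Fintype.card_fin, AddMonoidHom.finsetSum_apply,
      Pi.evalAddMonoidHom_apply] at this
    rw [← Finset.card_filter]
    exact this
  · simp [hg]

set_option maxHeartbeats 1000000 in
theorem pack [Nonempty ι] (j : ι → ℕ) (m : ι → ℤ) (hj : ∀ ν, Odd (j ν))
    (hdet : ∀ ν ν', ν ≠ ν' → (j ν : ℤ) * m ν' ≠ j ν' * m ν) {δ : ℝ} (hδ : 0 < δ) :
    ∃ (Q : ℕ) (B : Type) (_ : Fintype B) (z0 z1 : B → ℤ), 0 < Q ∧ Even Q ∧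
      (∀ b ν (i : ℕ) b' ν' (i' : ℕ), i < j ν → i' < j ν' →
        j ν * z0 b + m ν * z1 b + i ≡ j ν' * z0 b' + m ν' * z1 b' + i' [ZMOD Q] →
        b = b' ∧ ν = ν' ∧ i = i') ∧
      (∀ b ν (i : ℕ) b' ν' (i' : ℕ), i < j ν → i' < j ν' →
        ¬ j ν * z0 b + m ν * z1 b + i ≡ -(j ν' * z0 b' + m ν' * z1 b' + i') - 1 [ZMOD Q]) ∧
      (1 - δ) * Q ≤ Fintype.card B * (2 * ∑ ν, (j ν : ℝ)) := by
  classical
  have hj0 : ∀ ν, 0 < j ν := fun ν => (hj ν).pos
  set S1 := ∑ ν, j ν with hS1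
  have hS10 : 0 < S1 := Finset.sum_pos (fun ν _ => hj0 ν) Finset.univ_nonempty
  set Sd := ∑ ν, j ν + ∑ p : ι × ι, ((j p.1 : ℤ) * m p.2 - j p.2 * m p.1).natAbs with hSd
  obtain ⟨a, ha⟩ := pow_unbounded_of_one_lt (2 * Sd / δ) (one_lt_two (α := ℝ))
  set L := 2 ^ a with hLdef
  have hL : 0 < L := by positivity
  have hLr : (0 : ℝ) < L := by exact_mod_cast hL
  have ha' : 2 * (Sd : ℝ) < L * δ := by
    rw [div_lt_iff₀ hδ] at ha; rw [hLdef]; push_cast; exact ha
  haveI : NeZero (2 * L * L) := ⟨by positivity⟩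
  have hjc : ∀ ν, Nat.Coprime (j ν) (2 * L * L) := fun ν =>
    ((hj ν).coprime_two_right.mul_right ((hj ν).coprime_two_right.pow_right a)).mul_right
      ((hj ν).coprime_two_right.pow_right a)
  clear_value L Sd
  set W0 := (2 * L * L) * (∏ ν, j ν) *
    ∏ p : ι × ι, if p.1 = p.2 then 1 else ((j p.1 : ℤ) * m p.2 - j p.2 * m p.1).natAbs with hW0
  have hW00 : 0 < W0 := by
    apply mul_pos (mul_pos (by positivity) (Finset.prod_pos fun ν _ => hj0 ν))
    refine Finset.prod_pos fun p _ => ?_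
    split_ifs with h
    · norm_num
    · exact Int.natAbs_pos.2 (sub_ne_zero.2 (hdet _ _ h))
  set W := W0 * L.factorial with hW
  have hWp : 0 < W := mul_pos hW00 (Nat.factorial_pos _)
  obtain ⟨Y0, hY0⟩ := exists_nat_ge (2 * L ^ 2 / δ)
  set Y := Y0 + L with hY
  have hYp : 0 < Y := by omega
  set X := 2 * S1 * (2 * L * L) * Y with hX
  have hXY : Y ≤ X := Nat.le_mul_of_pos_left _ (by positivity)
  set D := X * W with hD
  have hDp : 0 < D := by positivity
  haveI : NeZero D := ⟨hDp.ne'⟩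
  obtain ⟨m1, m2⟩ := moduli L W0 X
  set d : Fin L → ℕ := fun κ => 1 + (X + κ) * W with hd
  obtain ⟨z0, z1, h1, h2⟩ := pack_core (R := W * Y) hL j m hj0 hjc D (by rw [hD, hX]; ring) d
    (fun κ => by simp only [hd, hD, add_mul]; omega)
    (fun κ κ' h => m2 κ κ' κ.isLt κ'.isLt (fun h' => h (Fin.ext h')))
    (fun κ => m1 κ _ ((Dvd.intro _ rfl).mul_right _))
    (fun κ ν => m1 κ _ (((Finset.dvd_prod_of_mem j (Finset.mem_univ ν)).mul_left _).mul_right _))
    (fun κ ν ν' h => m1 κ _ (Dvd.dvd.mul_left (by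
      have := Finset.dvd_prod_of_mem (fun p : ι × ι => if p.1 = p.2 then 1
        else ((j p.1 : ℤ) * m p.2 - j p.2 * m p.1).natAbs) (Finset.mem_univ (ν, ν'))
      simp only [if_neg h] at this
      exact this) _))
  refine ⟨_, _, inferInstance, z0, z1, ?_, ?_, h1, h2, ?_⟩
  · exact mul_pos (by positivity) (Finset.prod_pos fun κ _ => by simp only [hd]; omega)
  · exact ((even_two.mul_right _).mul_right _).mul_right _
  clear h1 h2 z0 z1 m1 m2
  clear_value W0 W Y X D S1
  have c1 := pack_card (R := W * Y) hL j m D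
  have c2 := bad_count (L := L) j m hjc hdet
  rw [← hSd] at c2
  have c3 := Finset.card_filter_add_card_filter_not (s := univ) (fun w => Good L j m w)
  simp only [Finset.card_univ, Fintype.card_prod, ZMod.card] at c3
  set g := (univ.filter (fun w => Good L j m w)).card
  set bd := (univ.filter (fun w => ¬ Good L j m w)).card
  set nB := Fintype.card {p : (ZMod (2 * L * L) × ZMod (2 * L * L)) × Fin (W * Y) × (Fin L → ZMod D) //
        Good L j m p.1 ∧ ∑ ν, p.2.2 (kf hL j m p.1 ν) = 0}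
  clear_value g bd nB
  set C : ℝ := ((2 * L * L : ℕ) : ℝ) with hC
  have hC0 : 0 < C := by rw [hC]; positivity
  have c2' : (bd : ℝ) * L ≤ C ^ 2 * Sd := by rw [hC]; exact_mod_cast c2
  have c3' : (g : ℝ) + bd = C ^ 2 := by rw [hC, sq]; exact_mod_cast c3
  have g1 : (1 - δ / 2) * C ^ 2 ≤ g := by
    have : (bd : ℝ) * L ≤ δ / 2 * C ^ 2 * L := by nlinarith [sq_nonneg C]
    have := le_of_mul_le_mul_right this hLr
    linarith
  have hDr : (0 : ℝ) < D := by exact_mod_cast hDp
  have hYr : (0 : ℝ) < Y := by exact_mod_cast hYp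
  set y : ℝ := L / Y with hy
  have hy1 : y ≤ 1 := by
    rw [hy, div_le_one hYr]; exact_mod_cast (by omega : L ≤ Y)
  have hy0 : 0 ≤ y := by positivity
  have g2 : (1 - δ / 2) * ∏ κ, (d κ : ℝ) ≤ (D : ℝ) ^ L := by
    have b := one_add_mul_le_pow (a := -y) (by linarith) L
    have b2 : L * y ≤ δ / 2 := by
      rw [hy, ← mul_div_assoc, div_le_iff₀ hYr]
      rw [div_le_iff₀ hδ] at hY0
      have : (Y0 : ℝ) ≤ Y := by exact_mod_cast (by omega : Y0 ≤ Y)
      nlinarith
    calc (1 - δ / 2) * ∏ κ, (d κ : ℝ) ≤ (1 + -y) ^ L * ∏ κ, (d κ : ℝ) := by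
          apply mul_le_mul_of_nonneg_right (by linarith) (by positivity)
      _ = ∏ κ : Fin L, ((1 + -y) * (d κ : ℝ)) := by
          rw [Finset.prod_mul_distrib]; simp
      _ ≤ ∏ κ : Fin L, (D : ℝ) := by
          refine Finset.prod_le_prod (fun κ _ => mul_nonneg (by linarith) (by positivity))
            fun κ _ => ?_
          have t1 : d κ ≤ D + L * W := by
            simp only [hd, hD, add_mul]
            have : (κ + 1) * W ≤ L * W := Nat.mul_le_mul_right _ κ.isLt
            rw [add_mul] at this; omega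
          have t2 : (d κ : ℝ) ≤ D + L * W := by exact_mod_cast t1
          have t3 : (L : ℝ) * W ≤ y * D := by
            rw [hy, div_mul_eq_mul_div, le_div_iff₀ hYr, hD]
            push_cast
            have : (Y : ℝ) ≤ X := by exact_mod_cast hXY
            have : 0 ≤ (L : ℝ) * W := by positivity
            nlinarith
          have t4 : (1 + -y) * (d κ : ℝ) ≤ (1 + -y) * (D + y * D) :=
            mul_le_mul_of_nonneg_left (by linarith) (by linarith)
          nlinarith [mul_nonneg (mul_nonneg hy0 hy0) hDr.le]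
      _ = _ := by simp
  have c1' : (g : ℝ) * (W * Y) * D ^ L ≤ nB * D := by exact_mod_cast c1
  have eD : (D : ℝ) = 2 * S1 * C * (W * Y) := by rw [hD, hX, hC]; push_cast; ring
  have eS : ∑ ν, (j ν : ℝ) = S1 := by rw [hS1]; push_cast; rfl
  rw [eS]
  have eQ : ((2 * L * L * ∏ κ, d κ : ℕ) : ℝ) = C * ∏ κ, (d κ : ℝ) := by rw [hC]; push_cast; ring
  rw [eQ]
  set Pd := ∏ κ, (d κ : ℝ)
  have hPd : 0 ≤ Pd := by positivity
  clear_value Pd C
  have hWY : (0 : ℝ) < W * Y := by positivity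
  have c4 : (g : ℝ) * D ^ L ≤ nB * (2 * S1) * C := by
    apply le_of_mul_le_mul_right _ hWY
    rw [eD] at c1' ⊢
    linarith
  apply le_of_mul_le_mul_right _ hC0
  rcases le_total δ 1 with hδ1 | hδ1
  · have : (1 - δ / 2) * C ^ 2 * ((1 - δ / 2) * Pd) ≤ g * D ^ L :=
      mul_le_mul g1 g2 (mul_nonneg (by linarith) hPd) (by positivity)
    nlinarith [mul_nonneg (mul_nonneg (sq_nonneg δ) (sq_nonneg C)) hPd]
  · have : (1 - δ) * (C * Pd) * C ≤ 0 :=
      mul_nonpos_of_nonpos_of_nonneg (mul_nonpos_of_nonpos_of_nonneg (by linarith) (by positivity))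
        hC0.le
    have : (0 : ℝ) ≤ nB * (2 * S1) * C := by positivity
    linarith

end Vale.Agent.P110
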