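import Vale.Agent.P110.Disc2
import Vale.Agent.P110.Kernel

namespace Vale.Agent.P110

open Finset

theorem to_signs {c : ℝ} (hc : 0 < c) : ∃ ε : ℝ, 0 < ε ∧ ∀ N : ℕ, 0 < N → ∀ a : ℕ → ℝ,
    (∀ k, |a k| ≤ 1 + ε) →
    (∀ θ : ℝ, |‖∑ k ∈ range N, (a k : ℂ) * ee (k * θ)‖ - √N| ≤ ε * √N) →
    ∃ x : ℕ → ℝ, (∀ k, x k = 1 ∨ x k = -1) ∧
      ∀ θ : ℝ, |‖∑ k ∈ range N, (x k : ℂ) * ee (k * θ)‖ - √N| ≤ c * √N := by
  set δ := c / 2400 with hδ
  have hδ0 : 0 < δ := by positivity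
  set ε := min (min (c / 4) (1 / 4)) (δ ^ 8 / 409600000000) with hε
  have hε0 : 0 < ε := by positivity
  have hε1 : ε ≤ c / 4 := (min_le_left _ _).trans (min_le_left _ _)
  have hε2 : ε ≤ 1 / 4 := (min_le_left _ _).trans (min_le_right _ _)
  have hε3 : ε ≤ δ ^ 8 / 409600000000 := min_le_right _ _
  refine ⟨ε, hε0, fun N hN a ha hP => ?_⟩
  have hNr : (0 : ℝ) < N := by exact_mod_cast hN
  set s := √(N : ℝ) with hs
  have hs0 : 0 < s := Real.sqrt_pos.2 hNr
  have hss : s ^ 2 = N := Real.sq_sqrt hNr.le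
  set b : ℕ → ℝ := fun k => a k / (1 + ε) with hb
  have hb1 : ∀ k, |b k| ≤ 1 := fun k => by
    simp only [hb]; rw [abs_div, abs_of_pos (by linarith : 0 < 1 + ε), div_le_one (by linarith)]
    exact ha k
  have hPb : ∀ θ : ℝ, (1 - 2 * ε) * s ≤ ‖∑ k ∈ range N, (b k : ℂ) * ee (k * θ)‖ ∧
      ‖∑ k ∈ range N, (b k : ℂ) * ee (k * θ)‖ ≤ s := by
    intro θ
    have e : ∑ k ∈ range N, (b k : ℂ) * ee (k * θ)
        = (∑ k ∈ range N, (a k : ℂ) * ee (k * θ)) / ((1 + ε : ℝ) : ℂ) := by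
      rw [Finset.sum_div]; refine Finset.sum_congr rfl fun k _ => ?_
      simp only [hb]; push_cast; ring
    rw [e, norm_div, Complex.norm_real, Real.norm_eq_abs, abs_of_pos (by linarith : 0 < 1 + ε),
      le_div_iff₀ (by linarith), div_le_iff₀ (by linarith)]
    have := abs_le.1 (hP θ)
    constructor
    · nlinarith [mul_nonneg (mul_nonneg hε0.le hε0.le) hs0.le]
    · linarith
  have pars := parseval (n := N) (G := N) le_rfl (fun k => (b k : ℂ)) 0
  have hE : ∑ k ∈ range N, (1 - |b k|) ≤ 4 * ε * N := by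
    have a1 : ∑ m ∈ range N, ((1 - 2 * ε) * s) ^ 2
        ≤ ∑ m ∈ range N, ‖∑ k ∈ range N, (b k : ℂ) * ee (k * (0 - m / N))‖ ^ 2 :=
      Finset.sum_le_sum fun m _ => pow_le_pow_left₀ (by nlinarith) (hPb _).1 2
    rw [pars, Finset.sum_const, Finset.card_range, nsmul_eq_mul] at a1
    have a2 := le_of_mul_le_mul_left a1 hNr
    have a3 : ∑ k ∈ range N, ‖(b k : ℂ)‖ ^ 2 ≤ ∑ k ∈ range N, |b k| :=
      Finset.sum_le_sum fun k _ => by
        rw [Complex.norm_real, Real.norm_eq_abs]; nlinarith [hb1 k, abs_nonneg (b k)]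
    rw [Finset.sum_sub_distrib, Finset.sum_const, Finset.card_range, nsmul_eq_mul, mul_one]
    rw [mul_pow, hss] at a2
    nlinarith [mul_nonneg (mul_nonneg hε0.le hε0.le) hNr.le]
  set v : ℕ → Fin (4 * N) × Bool → ℝ := fun k i =>
    if i.2 then (ee (k * ((i.1 : ℕ) / (4 * N : ℕ)))).re else (ee (k * ((i.1 : ℕ) / (4 * N : ℕ)))).im
    with hv
  obtain ⟨x, x1, x2⟩ := rounding v (fun k i => by
      simp only [hv]; split_ifs
      · exact (Complex.abs_re_le_norm _).trans (norm_ee _).le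
      · exact (Complex.abs_im_le_norm _).trans (norm_ee _).le) (range N) (by simp; omega)
    (Δ := δ * s) (E := 4 * ε * N) (by positivity) (by
      simp only [Fintype.card_prod, Fintype.card_fin, Fintype.card_bool]
      have : (δ * s) ^ 8 = δ ^ 8 * N ^ 4 := by rw [← hss]; ring
      rw [this]; push_cast
      rw [le_div_iff₀ (by norm_num)] at hε3
      have := mul_le_mul_of_nonneg_right hε3 (by positivity : (0:ℝ) ≤ N ^ 4)
      nlinarith) b hb1 hE
  refine ⟨x, x1, fun θ => ?_⟩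
  have g := sup_grid (N := N) (fun k => ((x k - b k : ℝ) : ℂ)) (B := 600 * (δ * s)) (fun m hm => by
    rw [Finset.mem_range] at hm
    refine (Complex.norm_le_abs_re_add_abs_im _).trans ?_
    have r1 := x2 (⟨m, hm⟩, true)
    have r2 := x2 (⟨m, hm⟩, false)
    simp only [hv, if_true, Bool.false_eq_true, if_false] at r1 r2
    rw [Complex.re_sum, Complex.im_sum]
    simp only [Complex.re_ofReal_mul, Complex.im_ofReal_mul]
    linarith) hN θ
  have e : ∑ k ∈ range N, ((x k - b k : ℝ) : ℂ) * ee (k * θ)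
      = ∑ k ∈ range N, (x k : ℂ) * ee (k * θ) - ∑ k ∈ range N, (b k : ℂ) * ee (k * θ) := by
    rw [← Finset.sum_sub_distrib]; refine Finset.sum_congr rfl fun k _ => ?_
    push_cast; ring
  rw [e] at g
  have t := abs_le.1 ((abs_norm_sub_norm_le _ _).trans g)
  have := hPb θ
  have e2 : δ * s = c * s / 2400 := by rw [hδ]; ring
  have : ε * s ≤ c / 4 * s := by gcongr
  rw [abs_le]; constructor <;> nlinarith [t.1, t.2]

end Vale.Agent.P110
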