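import Vale.Agent.P110.KL
import Vale.Agent.P110.Fresnel

namespace Vale.Agent.P110

open Complex Real Finset MeasureTheory Filter Topology

structure Prof (P T T1 : ℝ → ℝ) (K γ r0 : ℝ) : Prop where
  dP : ∀ y, HasDerivAt P (T y) y
  dT : ∀ y, HasDerivAt T (T1 y) y
  one_le : ∀ y, 1 ≤ T1 y
  le_K : ∀ y ∈ Set.Icc (0:ℝ) 1, T1 y ≤ K
  lip : ∀ y ∈ Set.Icc (0:ℝ) 1, ∀ y' ∈ Set.Icc (0:ℝ) 1, |T1 y - T1 y'| ≤ K * |y - y'|
  steep : ∀ y ∈ Set.Icc (0:ℝ) 1, (y ≤ 2 * r0 ∨ 1 - 2 * r0 ≤ y) → γ ≤ T1 y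
  r0_pos : 0 < r0
  r0_le : r0 ≤ 1 / 4
  γ_pos : 0 < γ

lemma mvt {f f' : ℝ → ℝ} (hf : ∀ y, HasDerivAt f (f' y) y) {a b : ℝ} (hab : a ≤ b) :
    ∃ ξ, a ≤ ξ ∧ ξ ≤ b ∧ f b - f a = f' ξ * (b - a) := by
  rcases eq_or_lt_of_le hab with rfl | h
  · exact ⟨a, le_rfl, le_rfl, by simp⟩
  obtain ⟨ξ, hξ, e⟩ := exists_hasDerivAt_eq_slope f f' h
    (fun x _ => (hf x).continuousAt.continuousWithinAt) (fun x _ => hf x)
  refine ⟨ξ, hξ.1.le, hξ.2.le, ?_⟩
  rw [e]; field_simp [sub_ne_zero.2 h.ne']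

lemma mvt_abs {f f' : ℝ → ℝ} (hf : ∀ y, HasDerivAt f (f' y) y) {c h B : ℝ}
    (hB : ∀ y, |y - c| ≤ h → |f' y| ≤ B) {y : ℝ} (hy : |y - c| ≤ h) :
    |f y - f c| ≤ B * h := by
  have hB0 : 0 ≤ B := (abs_nonneg _).trans (hB y hy)
  have a := abs_le.1 hy
  rcases le_total y c with h1 | h1
  · obtain ⟨ξ, h2, h3, e⟩ := mvt hf h1
    rw [abs_sub_comm, e, abs_mul]
    exact mul_le_mul (hB ξ (abs_le.2 ⟨by linarith, by linarith⟩))
      (by rw [abs_sub_comm]; exact hy) (abs_nonneg _) hB0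
  · obtain ⟨ξ, h2, h3, e⟩ := mvt hf h1
    rw [e, abs_mul]
    exact mul_le_mul (hB ξ (abs_le.2 ⟨by linarith, by linarith⟩)) hy (abs_nonneg _) hB0

variable {P T T1 : ℝ → ℝ} {K γ r0 : ℝ}

lemma Prof.grow (h : Prof P T T1 K γ r0) {a b : ℝ} (hab : a ≤ b) : b - a ≤ T b - T a := by
  obtain ⟨ξ, _, _, e⟩ := mvt h.dT hab
  rw [e]; nlinarith [h.one_le ξ]

lemma Prof.mono (h : Prof P T T1 K γ r0) {a b : ℝ} (hab : a ≤ b) : T a ≤ T b := by
  linarith [h.grow hab]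

lemma Prof.K_pos (h : Prof P T T1 K γ r0) : 1 ≤ K :=
  (h.one_le 0).trans (h.le_K 0 (by simp))

lemma Prof.taylor (h : Prof P T T1 K γ r0) {ys d y : ℝ} (h0 : 0 ≤ ys - d) (h1 : ys + d ≤ 1)
    (hy : |y - ys| ≤ d) :
    |(P y - T ys * y) - (P ys - T ys * ys) - T1 ys * (y - ys) ^ 2 / 2| ≤ K * d ^ 3 := by
  have hd : 0 ≤ d := (abs_nonneg _).trans hy
  have g2 : ∀ x, HasDerivAt (fun x => T x - T ys - T1 ys * (x - ys)) (T1 x - T1 ys) x := by
    intro x
    have := ((h.dT x).sub_const (T ys)).sub (((hasDerivAt_id x).sub_const ys).const_mul (T1 ys))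
    refine this.congr_deriv (by simp)
  have g1 : ∀ x, HasDerivAt (fun x => P x - T ys * x - T1 ys * (x - ys) ^ 2 / 2)
      (T x - T ys - T1 ys * (x - ys)) x := by
    intro x
    have := ((h.dP x).sub ((hasDerivAt_id x).const_mul (T ys))).sub
      (((((hasDerivAt_id x).sub_const ys).pow 2).const_mul (T1 ys)).div_const 2)
    refine this.congr_deriv ?_
    simp; ring
  have b2 : ∀ x, |x - ys| ≤ d → |T x - T ys - T1 ys * (x - ys)| ≤ K * d * d := by
    intro x hx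
    have := mvt_abs g2 (c := ys) (h := d) (B := K * d) (fun z hz => by
      have a := abs_le.1 hz
      refine (h.lip z ⟨by linarith, by linarith⟩ ys ⟨by linarith, by linarith⟩).trans ?_
      exact mul_le_mul_of_nonneg_left hz (by linarith [h.K_pos])) hx
    simpa using this
  have := mvt_abs g1 b2 hy
  simp only [sub_self] at this
  have e : P y - T ys * y - (P ys - T ys * ys) - T1 ys * (y - ys) ^ 2 / 2
    = P y - T ys * y - T1 ys * (y - ys) ^ 2 / 2 - (P ys - T ys * ys - T1 ys * 0 ^ 2 / 2) := by ring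
  rw [e]; linarith

/-- The discrete phase. -/
noncomputable def ph (P : ℝ → ℝ) (c : ℝ) (M : ℕ) (y0 u : ℝ) (i : ℕ) : ℝ :=
  c * M * (P ((i + y0) / M) - u * ((i + y0) / M))

lemma Prof.diff (h : Prof P T T1 K γ r0) (c : ℝ) {M : ℕ} (hM : 0 < M) (y0 u : ℝ) :
    ∃ ξ : ℕ → ℝ, ∀ i : ℕ, (i + y0) / M ≤ ξ i ∧ ξ i ≤ (i + 1 + y0) / M ∧
      ph P c M y0 u (i + 1) - ph P c M y0 u i = c * (T (ξ i) - u) := by
  have hMr : (0 : ℝ) < M := by exact_mod_cast hM
  have : ∀ i : ℕ, ∃ ξ, (i + y0) / M ≤ ξ ∧ ξ ≤ (i + 1 + y0) / M ∧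
      ph P c M y0 u (i + 1) - ph P c M y0 u i = c * (T ξ - u) := by
    intro i
    obtain ⟨ξ, h1, h2, e⟩ := mvt h.dP (a := (i + y0) / M) (b := (i + 1 + y0) / M)
      (by gcongr; linarith)
    refine ⟨ξ, h1, h2, ?_⟩
    unfold ph
    push_cast
    have e2 : P ((i + 1 + y0) / M) = P ((i + y0) / M) + T ξ / M := by
      rw [sub_eq_iff_eq_add] at e; rw [e]; field_simp; ring
    rw [e2]; field_simp; ring
  choose ξ hξ using this
  exact ⟨ξ, hξ⟩

lemma Prof.caseB (h : Prof P T T1 K γ r0) {c lam y0 u s a g : ℝ} {M : ℕ} (ha : 0 < a)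
    (hc : c = a ^ 2) (hg : 0 < g) (hγ : γ = g ^ 2) (hs : 0 < s) (hM : (M : ℝ) = s ^ 2)
    (hy0 : 0 ≤ y0) (hy1 : y0 ≤ 1) (hu : ∀ y ∈ Set.Icc (0:ℝ) 1, |c * (T y - u)| ≤ 1 - lam)
    (hB : u < T r0 ∨ T (1 - r0) < u) (h1 : a * g / s ≤ lam) (h2 : g / (a * s) ≤ r0) :
    a / s * ‖∑ i ∈ range M, ee (ph P c M y0 u i)‖ ≤ 4 / g + 4 * a / s := by
  have hMr : (0 : ℝ) < M := by rw [hM]; positivity
  have hMn : 0 < M := by exact_mod_cast hMr
  have hc0 : 0 < c := by rw [hc]; positivity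
  obtain ⟨ξ, hξ⟩ := h.diff c hMn y0 u
  have hξ0 : ∀ i : ℕ, 0 ≤ ξ i := fun i => le_trans (by positivity) (hξ i).1
  have hξ1 : ∀ i : ℕ, i + 1 < M → ξ i ≤ 1 := by
    intro i hi
    refine (hξ i).2.1.trans ?_
    rw [div_le_one hMr]
    have : ((i + 2 : ℕ) : ℝ) ≤ M := by exact_mod_cast hi
    push_cast at this; linarith
  set ρ := g / (a * s) with hρ
  have hρ0 : 0 < ρ := by positivity
  have hcρ : c * ρ = a * g / s := by rw [hc, hρ]; field_simp
  have key := b1 (ph P c M y0 u) M (⌈2 * s / (a * g)⌉₊ + 1) (lam := a * g / s) (by positivity)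
    (fun i hi => by
      rw [(hξ i).2.2, (hξ (i + 1)).2.2]
      have : ξ i ≤ ξ (i + 1) := (hξ i).2.1.trans (by have := (hξ (i + 1)).1; push_cast at this; exact this)
      have := h.mono this
      nlinarith)
    (fun i hi => by
      rw [(hξ i).2.2]
      have := hu (ξ i) ⟨hξ0 i, hξ1 i hi⟩
      linarith)
    (fun i j hij hj hi' hj' => by
      rw [(hξ i).2.2, ← hcρ, abs_mul, abs_of_pos hc0, mul_lt_mul_iff_right₀ hc0] at hi'
      rw [(hξ j).2.2, ← hcρ, abs_mul, abs_of_pos hc0, mul_lt_mul_iff_right₀ hc0] at hj'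
      have ai := abs_lt.1 hi'
      have aj := abs_lt.1 hj'
      rcases Nat.eq_or_lt_of_le hij with rfl | hlt
      · omega
      have hijr : (i : ℝ) + 1 ≤ j := by exact_mod_cast hlt
      have hle : ξ i ≤ ξ j := (hξ i).2.1.trans (le_trans (by gcongr) (hξ j).1)
      have hgap : ((j : ℝ) - i - 1) / M ≤ ξ j - ξ i := by
        have e : ((j : ℝ) - i - 1) / M = (j + y0) / M - (i + 1 + y0) / M := by ring
        rw [e]; linarith [(hξ i).2.1, (hξ j).1]
      obtain ⟨z, z1, z2, e⟩ := mvt h.dT hle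
      have hz : γ ≤ T1 z := by
        apply h.steep z ⟨(hξ0 i).trans z1, z2.trans (hξ1 j hj)⟩
        rcases hB with hB | hB
        · left
          by_contra hcon
          have := h.grow (a := r0) (b := ξ j) (by linarith [h.r0_pos])
          linarith
        · right
          by_contra hcon
          have := h.grow (a := ξ i) (b := 1 - r0) (by linarith [h.r0_pos])
          linarith
      have h3 : γ * (((j : ℝ) - i - 1) / M) ≤ 2 * ρ := by
        have : γ * (((j : ℝ) - i - 1) / M) ≤ T1 z * (ξ j - ξ i) :=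
          mul_le_mul hz hgap (div_nonneg (by linarith) hMr.le) (by linarith [h.one_le z])
        linarith
      have h4 : (j : ℝ) - i - 1 ≤ 2 * s / (a * g) := by
        rw [hγ, hM, hρ] at h3
        rw [le_div_iff₀ (by positivity)]
        have e1 : g ^ 2 * (((j : ℝ) - i - 1) / s ^ 2) = ((j - i - 1) * (a * g)) * (g / (a * s ^ 2)) := by
          field_simp
        have e2 : 2 * (g / (a * s)) = (2 * s) * (g / (a * s ^ 2)) := by field_simp
        rw [e1, e2] at h3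
        exact le_of_mul_le_mul_right h3 (by positivity)
      have h5 := Nat.le_ceil (2 * s / (a * g))
      have : (j : ℝ) ≤ ((⌈2 * s / (a * g)⌉₊ + 1 + i : ℕ) : ℝ) := by push_cast; linarith
      have : j ≤ ⌈2 * s / (a * g)⌉₊ + 1 + i := by exact_mod_cast this
      omega)
  have h5 := Nat.ceil_lt_add_one (show 0 ≤ 2 * s / (a * g) by positivity)
  push_cast at key
  have h6 : ‖∑ i ∈ range M, ee (ph P c M y0 u i)‖ ≤ 4 * s / (a * g) + 4 := by
    have e : 2 / (a * g / s) = 2 * s / (a * g) := by field_simp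
    have e2 : 4 * s / (a * g) = 2 * s / (a * g) + 2 * s / (a * g) := by ring
    linarith
  refine (mul_le_mul_of_nonneg_left h6 (by positivity)).trans (le_of_eq ?_)
  field_simp

end Vale.Agent.P110
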