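import Vale.Agent.P110.SP

namespace Vale.Agent.P110

open Complex Real Finset MeasureTheory Filter Topology

variable {P T T1 : ℝ → ℝ} {K γ r0 : ℝ}

lemma near_sum (φ : ℕ → ℝ) (f : ℝ → ℝ) (hf : Continuous f) {M : ℕ} (hM : 0 < M) (y0 : ℝ)
    {A B : ℕ} (hAB : A ≤ B) {E : ℝ}
    (hE : ∀ i : ℕ, A ≤ i → i < B → ∀ x, (i + y0) / M ≤ x → x ≤ (i + 1 + y0) / M → |φ i - f x| ≤ E) :
    ‖∑ i ∈ Ico A B, ee (φ i) - M * ∫ x in ((A + y0) / M)..((B + y0) / M), ee (f x)‖
      ≤ ((B : ℝ) - A) * (7 * E) := by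
  have hMr : (0 : ℝ) < M := by exact_mod_cast hM
  have hc : Continuous fun x => ee (f x) := continuous_ee.comp hf
  have := intervalIntegral.sum_integral_adjacent_intervals_Ico (μ := volume)
    (f := fun x => ee (f x))
    (a := fun i : ℕ => ((i : ℝ) + y0) / M) hAB (fun k _ => hc.intervalIntegrable _ _)
  rw [← this, Finset.mul_sum, ← Finset.sum_sub_distrib]
  refine (norm_sum_le _ _).trans ?_
  have : ∀ i ∈ Ico A B, ‖ee (φ i) - M * ∫ x in ((i + y0) / M)..(((i + 1 : ℕ) + y0) / M), ee (f x)‖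
      ≤ 7 * E := by
    intro i hi
    rw [Finset.mem_Ico] at hi
    have hle : ((i : ℝ) + y0) / M ≤ (((i + 1 : ℕ) : ℝ) + y0) / M := by
      push_cast; gcongr; linarith
    have hlen : (((i + 1 : ℕ) : ℝ) + y0) / M - ((i : ℝ) + y0) / M = 1 / M := by
      push_cast; ring
    have e : ee (φ i) - M * ∫ x in ((i + y0) / M)..(((i + 1 : ℕ) + y0) / M), ee (f x)
        = M * ∫ x in ((i + y0) / M)..(((i + 1 : ℕ) + y0) / M), (ee (φ i) - ee (f x)) := by
      rw [intervalIntegral.integral_sub (by simp) (hc.intervalIntegrable _ _),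
        intervalIntegral.integral_const, hlen]
      have : (M : ℂ) ≠ 0 := by exact_mod_cast hM.ne'
      simp only [Complex.real_smul]; push_cast; field_simp
    rw [e, norm_mul, Complex.norm_natCast]
    have := intervalIntegral.norm_integral_le_of_norm_le_const
      (a := ((i : ℝ) + y0) / M) (b := (((i + 1 : ℕ) : ℝ) + y0) / M) (C := 7 * E)
      (f := fun x => ee (φ i) - ee (f x)) (fun x hx => by
        rw [Set.uIoc_of_le hle] at hx
        refine (norm_ee_sub_le _ _).trans ?_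
        have := hE i hi.1 hi.2 x hx.1.le (by have := hx.2; push_cast at this; exact this)
        linarith)
    rw [hlen, abs_of_pos (by positivity)] at this
    refine (mul_le_mul_of_nonneg_left this hMr.le).trans (le_of_eq ?_)
    field_simp
  refine (Finset.sum_le_sum this).trans (le_of_eq ?_)
  simp [Nat.cast_sub hAB]

set_option maxHeartbeats 1600000 in
lemma Prof.caseA (h : Prof P T T1 K γ r0) {Φ : ℂ}
    (hΦ : ∀ R1 R2 : ℝ, 0 < R1 → 0 < R2 →
      ‖(∫ x in (-R1)..R2, ee (x ^ 2 / 2)) - Φ‖ ≤ 1 / R1 + 1 / R2)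
    {c lam y0 ys s a R : ℝ} {M : ℕ} (ha : 0 < a)
    (hc : c = a ^ 2) (hR : 0 < R) (hs : 0 < s) (hM : (M : ℝ) = s ^ 2)
    (hy0 : 0 ≤ y0) (hy1 : y0 ≤ 1) (hu : ∀ y ∈ Set.Icc (0:ℝ) 1, |c * (T y - T ys)| ≤ 1 - lam)
    (hA1 : r0 ≤ ys) (hA2 : ys ≤ 1 - r0) (h1 : c * R / (2 * s) ≤ lam) (h2 : 2 * R / s ≤ r0)
    (h3 : 2 ≤ R * s) :
    ‖((a / s : ℝ) : ℂ) * ∑ i ∈ range M, ee (ph P c M y0 (T ys) i)
      - ((1 / √(T1 ys) : ℝ) : ℂ) * Φ * ee (c * M * (P ys - T ys * ys))‖
      ≤ 8 / (a * R) + (a + 21 * a * R * (c * K * (8 * R ^ 3 + 2 * R))) / s := by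
  have hMr : (0 : ℝ) < M := by rw [hM]; positivity
  have hMn : 0 < M := by exact_mod_cast hMr
  have hc0 : 0 < c := by rw [hc]; positivity
  have hK := h.K_pos
  obtain ⟨ξ, hξ⟩ := h.diff c hMn y0 (T ys)
  have hξ0 : ∀ i : ℕ, 0 ≤ ξ i := fun i => le_trans (by positivity) (hξ i).1
  have hξ1 : ∀ i : ℕ, i + 1 < M → ξ i ≤ 1 := by
    intro i hi
    refine (hξ i).2.1.trans ?_
    rw [div_le_one hMr]
    have : ((i + 2 : ℕ) : ℝ) ≤ M := by exact_mod_cast hi
    push_cast at this; linarith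
  set r := R / s with hr
  have hr0 : 0 < r := by positivity
  have h2' : 2 * r ≤ r0 := by rw [hr, ← mul_div_assoc]; exact h2
  have hrM : r * M = R * s := by rw [hr, hM]; field_simp
  have hinv : 1 / (M : ℝ) ≤ r / 2 := by
    rw [div_le_div_iff₀ hMr (by norm_num)]; linarith
  set A := ⌊(ys - r) * M⌋₊ with hA
  set B := ⌊(ys + r) * M⌋₊ with hB
  have hA_le : (A : ℝ) ≤ (ys - r) * M := Nat.floor_le (mul_nonneg (by linarith) hMr.le)
  have hA_gt : (ys - r) * M < A + 1 := Nat.lt_floor_add_one _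
  have hB_le : (B : ℝ) ≤ (ys + r) * M := Nat.floor_le (mul_nonneg (by linarith) hMr.le)
  have hB_gt : (ys + r) * M < B + 1 := Nat.lt_floor_add_one _
  have hAB : A ≤ B := Nat.floor_mono (mul_le_mul_of_nonneg_right (by linarith) hMr.le)
  have hBM : B + 2 ≤ M := by
    have : (B : ℝ) + 2 ≤ M := by
      have := mul_le_mul_of_nonneg_right (show ys + r ≤ 1 - r by linarith) hMr.le
      linarith
    exact_mod_cast this
  have hyA : (A + 1 : ℝ) / M ≤ ys - r / 2 := by
    have : (A : ℝ) / M ≤ ys - r := by rw [div_le_iff₀ hMr]; exact hA_le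
    rw [add_div]; linarith
  have hyA' : ys - 2 * r ≤ (A : ℝ) / M := by
    have : ys - r < (A + 1 : ℝ) / M := by rw [lt_div_iff₀ hMr]; exact hA_gt
    rw [add_div] at this; linarith
  have hyB : ys + r / 2 ≤ (B : ℝ) / M := by
    have : ys + r < (B + 1 : ℝ) / M := by rw [lt_div_iff₀ hMr]; exact hB_gt
    rw [add_div] at this; linarith
  have hyB' : (B + 1 : ℝ) / M ≤ ys + 2 * r := by
    have : (B : ℝ) / M ≤ ys + r := by rw [div_le_iff₀ hMr]; exact hB_le
    rw [add_div]; linarith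
  have hlam : c * r / 2 ≤ lam := by
    have : c * r / 2 = c * R / (2 * s) := by rw [hr]; field_simp
    linarith
  have hmono : ∀ i, ph P c M y0 (T ys) (i + 1) - ph P c M y0 (T ys) i
      ≤ ph P c M y0 (T ys) (i + 2) - ph P c M y0 (T ys) (i + 1) := by
    intro i
    rw [(hξ i).2.2, (hξ (i + 1)).2.2]
    have : ξ i ≤ ξ (i + 1) :=
      (hξ i).2.1.trans (by have := (hξ (i + 1)).1; push_cast at this; exact this)
    have := mul_le_mul_of_nonneg_left (sub_le_sub_right (h.mono this) (T ys)) hc0.le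
    exact this
  have s1 : ‖∑ i ∈ Ico 0 A, ee (ph P c M y0 (T ys) i)‖ ≤ 1 / (c * r / 2) := by
    apply kl_neg _ _ _ (by positivity) (fun i _ _ => hmono i)
    intro i _ hi
    rw [(hξ i).2.2]
    have b1 := abs_le.1 (hu (ξ i) ⟨hξ0 i, hξ1 i (by omega)⟩)
    refine ⟨by linarith [b1.1], ?_⟩
    have hiA : (i : ℝ) + 1 ≤ A := by exact_mod_cast hi
    have : ξ i ≤ ys - r / 2 := (hξ i).2.1.trans (le_trans (div_le_div_of_nonneg_right (by linarith) hMr.le) hyA)
    have := h.grow (a := ξ i) (b := ys) (by linarith)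
    have := mul_le_mul_of_nonneg_left (show T (ξ i) - T ys ≤ -(r / 2) by linarith) hc0.le
    linarith
  obtain ⟨m, rfl⟩ : ∃ m, M = m + 1 := ⟨M - 1, by omega⟩
  set M := m + 1 with hMdef
  have s3 : ‖∑ i ∈ Ico B m, ee (ph P c M y0 (T ys) i)‖ ≤ 1 / (c * r / 2) := by
    apply kl _ _ _ (by positivity) (fun i _ _ => hmono i)
    intro i hi hi2
    rw [(hξ i).2.2]
    have b1 := abs_le.1 (hu (ξ i) ⟨hξ0 i, hξ1 i (by omega)⟩)
    refine ⟨?_, by linarith [b1.2]⟩
    have hiB : (B : ℝ) ≤ i := by exact_mod_cast hi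
    have : ys + r / 2 ≤ ξ i := hyB.trans (le_trans (div_le_div_of_nonneg_right (by linarith) hMr.le) (hξ i).1)
    have := h.grow (a := ys) (b := ξ i) (by linarith)
    have := mul_le_mul_of_nonneg_left (show r / 2 ≤ T (ξ i) - T ys by linarith) hc0.le
    linarith
  have hys : ys ∈ Set.Icc (0:ℝ) 1 := ⟨by linarith [h.r0_pos], by linarith [h.r0_pos]⟩
  set τ := T1 ys with hτ
  have hτ1 : 1 ≤ τ := h.one_le ys
  have hτK : τ ≤ K := h.le_K ys hys
  set q := √τ with hq
  have hq1 : 1 ≤ q := Real.one_le_sqrt.2 hτ1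
  have hqq : q ^ 2 = τ := Real.sq_sqrt (by linarith)
  set w := a * s * q with hw
  have hw0 : 0 < w := by positivity
  set L := c * M * (P ys - T ys * ys) with hL
  set E := c * K * (8 * R ^ 3 + 2 * R) / s with hE
  have s2 := near_sum (ph P c M y0 (T ys)) (fun x => L + (w * x - w * ys) ^ 2 / 2) (by fun_prop)
    hMn y0 hAB (E := E) (fun i hi1 hi2 x hx1 hx2 => by
      have hiA : (A : ℝ) ≤ i := by exact_mod_cast hi1
      have hiB : (i : ℝ) + 1 ≤ B := by exact_mod_cast hi2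
      set y := ((i : ℝ) + y0) / M with hy
      have hy_lo : ys - 2 * r ≤ y := hyA'.trans (by rw [hy]; gcongr; linarith)
      have hx_hi : x ≤ ys + 2 * r := hx2.trans (le_trans (div_le_div_of_nonneg_right (by linarith) hMr.le) hyB')
      have hxy : x - y ≤ 1 / M := by
        have : ((i : ℝ) + 1 + y0) / M = y + 1 / M := by rw [hy]; ring
        linarith
      have t := h.taylor (ys := ys) (d := 2 * r) (y := y) (by linarith) (by linarith)
        (abs_le.2 ⟨by linarith, by linarith⟩)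
      have e : ph P c M y0 (T ys) i - (L + (w * x - w * ys) ^ 2 / 2)
          = c * M * ((P y - T ys * y) - (P ys - T ys * ys) - τ * (y - ys) ^ 2 / 2)
            + c * M * τ / 2 * ((y - x) * (y + x - 2 * ys)) := by
        unfold ph
        rw [← hy, hL, hw, ← hqq, hM, hc]; ring
      rw [e]
      refine (abs_add_le _ _).trans ?_
      have u1 : |c * M * ((P y - T ys * y) - (P ys - T ys * ys) - τ * (y - ys) ^ 2 / 2)|
          ≤ c * M * (K * (2 * r) ^ 3) := by
        rw [abs_mul, abs_of_pos (by positivity)]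
        exact mul_le_mul_of_nonneg_left t (by positivity)
      have u2 : |c * M * τ / 2 * ((y - x) * (y + x - 2 * ys))|
          ≤ c * M * K / 2 * (1 / M * (4 * r)) := by
        rw [abs_mul, abs_of_pos (by positivity), abs_mul]
        apply mul_le_mul (by gcongr) _ (by positivity) (by positivity)
        apply mul_le_mul _ _ (abs_nonneg _) (by positivity)
        · exact abs_le.2 ⟨by linarith, by linarith [(by positivity : (0:ℝ) < 1 / M)]⟩
        · exact abs_le.2 ⟨by linarith, by linarith⟩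
      have e2 : c * M * (K * (2 * r) ^ 3) + c * M * K / 2 * (1 / M * (4 * r)) = E := by
        rw [hE, hr, hM]; field_simp; ring
      linarith)
  have hint : ∫ x in ((A + y0) / M)..((B + y0) / M), ee (L + (w * x - w * ys) ^ 2 / 2)
      = ee L * (((w⁻¹ : ℝ) : ℂ) * ∫ x in (-(w * (ys - (A + y0) / M)))..(w * ((B + y0) / M - ys)),
          ee (x ^ 2 / 2)) := by
    simp only [ee_add]
    rw [intervalIntegral.integral_const_mul,
      intervalIntegral.integral_comp_mul_sub (fun v => ee (v ^ 2 / 2)) hw0.ne', Complex.real_smul]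
    congr 3 <;> ring
  have hR1 : a * R / 2 ≤ w * (ys - (A + y0) / M) := by
    have : (A + y0 : ℝ) / M ≤ ys - r / 2 := le_trans (by gcongr) hyA
    have e : a * R / 2 = a * s * 1 * (r / 2) := by rw [hr]; field_simp
    rw [e, hw]; gcongr; linarith
  have hR2 : a * R / 2 ≤ w * ((B + y0) / M - ys) := by
    have : ys + r / 2 ≤ (B + y0 : ℝ) / M := hyB.trans (by gcongr; linarith)
    have e : a * R / 2 = a * s * 1 * (r / 2) := by rw [hr]; field_simp
    rw [e, hw]; gcongr; linarith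
  have haR : 0 < a * R / 2 := by positivity
  have fr := hΦ _ _ (haR.trans_le hR1) (haR.trans_le hR2)
  have fr2 := one_div_le_one_div_of_le haR hR1
  have fr3 := one_div_le_one_div_of_le haR hR2
  rw [hint] at s2
  set F := ∫ x in (-(w * (ys - (A + y0) / M)))..(w * ((B + y0) / M - ys)), ee (x ^ 2 / 2) with hF
  rw [Finset.sum_range_succ, Finset.range_eq_Ico,
    ← Finset.sum_Ico_consecutive _ (Nat.zero_le B) (by omega : B ≤ m),
    ← Finset.sum_Ico_consecutive _ (Nat.zero_le A) hAB]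
  set S1 := ∑ i ∈ Ico 0 A, ee (ph P c M y0 (T ys) i)
  set S2 := ∑ i ∈ Ico A B, ee (ph P c M y0 (T ys) i)
  set S3 := ∑ i ∈ Ico B m, ee (ph P c M y0 (T ys) i)
  have hsc : (s : ℂ) ≠ 0 := by exact_mod_cast hs.ne'
  have hac : (a : ℂ) ≠ 0 := by exact_mod_cast ha.ne'
  have hqc : (q : ℂ) ≠ 0 := by exact_mod_cast (by linarith : q ≠ 0)
  have hMc : (M : ℂ) = (s : ℂ) ^ 2 := by exact_mod_cast hM
  have e : ((a / s : ℝ) : ℂ) * (S1 + S2 + S3 + ee (ph P c M y0 (T ys) m))
      - ((1 / q : ℝ) : ℂ) * Φ * ee L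
      = ((a / s : ℝ) : ℂ) * (S1 + S3 + ee (ph P c M y0 (T ys) m)
          + (S2 - M * (ee L * (((w⁻¹ : ℝ) : ℂ) * F))))
        + ((1 / q : ℝ) : ℂ) * ee L * (F - Φ) := by
    rw [hw, hMc]; push_cast; field_simp; ring
  rw [e]
  refine (norm_add_le _ _).trans ?_
  rw [norm_mul, norm_mul, norm_mul, norm_ee, Complex.norm_real, Complex.norm_real, Real.norm_eq_abs,
    Real.norm_eq_abs, abs_of_pos (by positivity), abs_of_pos (by positivity), mul_one]
  have n1 : ‖S1 + S3 + ee (ph P c M y0 (T ys) m) + (S2 - M * (ee L * (((w⁻¹ : ℝ) : ℂ) * F)))‖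
      ≤ 1 / (c * r / 2) + 1 / (c * r / 2) + 1 + 3 * (R * s) * (7 * E) := by
    refine (norm_add_le _ _).trans (add_le_add ?_ (s2.trans ?_))
    · refine (norm_add_le _ _).trans (add_le_add ((norm_add_le _ _).trans (add_le_add s1 s3)) ?_)
      rw [norm_ee]
    · apply mul_le_mul_of_nonneg_right _ (by positivity)
      linarith
  have n2 : 1 / q * ‖F - Φ‖ ≤ 1 * (1 / (a * R / 2) + 1 / (a * R / 2)) := by
    apply mul_le_mul _ (by linarith) (norm_nonneg _) (by norm_num)
    rw [div_le_one (by linarith)]; exact hq1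
  refine (add_le_add (mul_le_mul_of_nonneg_left n1 (by positivity)) n2).trans (le_of_eq ?_)
  rw [hE, hr, hc]; field_simp; ring

end Vale.Agent.P110
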