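import Vale.Agent.P110.Arc
import Vale.Agent.P110.Cells
import Vale.Agent.P110.Model

namespace Vale.Agent.P110

open Real Finset Filter Topology

lemma slots {ε : ℝ} {P T amp Leg : ℝ → ℝ} {φ0 K : ℝ} (h : SPD ε P T amp Leg φ0 K) {B : Type}
    [Fintype B] {β : ℝ} (hβ : 0 < β) (η u : ℝ) :
    ∑ b : B, amp ((u - (η + (Fintype.equivFin B b : ℕ) * (β * T 1))) / β) ≤ 1 := by
  classical
  have hT := h.T1_ge
  have key : ∀ b : B, amp ((u - (η + (Fintype.equivFin B b : ℕ) * (β * T 1))) / β) ≠ 0 →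
      ⌊(u - η) / (β * T 1)⌋ = (Fintype.equivFin B b : ℕ) := by
    intro b hb
    obtain ⟨h1, h2⟩ := h.amp_supp _ hb
    rw [lt_div_iff₀ hβ] at h1
    rw [div_lt_iff₀ hβ] at h2
    rw [Int.floor_eq_iff, le_div_iff₀ (by positivity), div_lt_iff₀ (by positivity)]
    push_cast; constructor <;> linarith
  by_cases hex : ∃ b : B, amp ((u - (η + (Fintype.equivFin B b : ℕ) * (β * T 1))) / β) ≠ 0
  · obtain ⟨b, hb⟩ := hex
    rw [Finset.sum_eq_single b]
    · exact h.amp_le _
    · intro b' _ hne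
      by_contra h'
      have := (key b' h').symm.trans (key b hb)
      exact hne ((Fintype.equivFin B).injective (Fin.ext (by exact_mod_cast this)))
    · simp
  · push Not at hex
    simp [hex]

lemma err_aux {c S X A E e Y : ℝ} (hc : 0 ≤ c) (he : 0 ≤ e) (h : |S - X * A * E| ≤ X * e + Y)
    (h1 : c * X ≤ 2) (h2 : c * Y ≤ e) : |2 * (c * S) - 2 * (c * X) * A * E| ≤ 6 * e := by
  have a : 2 * (c * S) - 2 * (c * X) * A * E = 2 * c * (S - X * A * E) := by ring
  rw [a, abs_mul, abs_of_nonneg (by positivity : 0 ≤ 2 * c)]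
  have := mul_le_mul_of_nonneg_left h (by positivity : 0 ≤ 2 * c)
  have := mul_le_mul_of_nonneg_right h1 he
  linarith

set_option maxHeartbeats 2000000 in
theorem flat_real {ε : ℝ} (hε : 0 < ε) (N0 : ℕ) : ∃ N : ℕ, N0 ≤ N ∧ 0 < N ∧ ∃ a : ℕ → ℝ,
    (∀ k, |a k| ≤ 1 + ε) ∧
    ∀ θ : ℝ, |‖∑ k ∈ range N, (a k : ℂ) * ee (k * θ)‖ - √N| ≤ ε * √N := by
  classical
  obtain ⟨η, hη, hη1, hη2⟩ : ∃ η : ℝ, 0 < η ∧ η ≤ 1 / 100 ∧ 100 * η ≤ ε :=
    ⟨min ε 1 / 100, by positivity, by have := min_le_right ε 1; linarith,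
      by have := min_le_left ε 1; linarith⟩
  obtain ⟨ι, _, _, _, j, m, ω, hj, hdet, hF⟩ := model hη
  obtain ⟨Q0, B, L, _, _, z0, z1, sL, hQ0, til, hcov⟩ := cells j m hj hdet (δ := η ^ 2) (by positivity)
  set Γ : ℝ := 2 * ∑ ν, (j ν : ℝ) with hΓ
  have hj1 : ∀ ν, 1 ≤ j ν := fun ν => (hj ν).pos
  have hjΓ : ∀ ν, (j ν : ℝ) ≤ Γ := fun ν => by
    have := Finset.single_le_sum (f := fun ν => (j ν : ℝ)) (fun _ _ => by positivity)
      (Finset.mem_univ ν)
    have : (0 : ℝ) ≤ j ν := by positivity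
    linarith
  have hΓ0 : 0 < Γ := by
    obtain ⟨ν⟩ := ‹Nonempty ι›
    have : (1 : ℝ) ≤ j ν := by exact_mod_cast hj1 ν
    linarith [hjΓ ν]
  set Q : ℝ := ((2 * Q0 : ℕ) : ℝ) with hQ
  have hQ1 : 1 ≤ Q := by rw [hQ]; exact_mod_cast (by omega : 1 ≤ 2 * Q0)
  set len : (B × ι) ⊕ L → ℕ := Sum.elim (fun p => j p.2) fun _ => 1 with hlen
  set s : (B × ι) ⊕ L → ℤ := Sum.elim (fun p => j p.2 * z0 p.1 + m p.2 * z1 p.1) sL with hs
  have hlen1 : ∀ α, 1 ≤ len α := by rintro (p | l); exacts [hj1 _, le_rfl]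
  have tc := til.card (by omega)
  set nb : ℝ := ((Fintype.card B : ℕ) : ℝ) with hnb
  set nl : ℝ := ((Fintype.card L : ℕ) : ℝ) with hnl
  have tc' : nb * Γ + 2 * nl ≤ Q := by
    have : (2 : ℝ) * ∑ α, (len α : ℝ) ≤ Q := by rw [hQ]; exact_mod_cast tc
    rw [Fintype.sum_sum_type, Fintype.sum_prod_type] at this
    simp only [hlen, Sum.elim_inl, Sum.elim_inr, Finset.sum_const, Finset.card_univ, nsmul_eq_mul,
      Nat.cast_one, mul_one] at this
    rw [hΓ]; linarith
  have hlenQ : ∀ α, len α ≤ 2 * Q0 := fun α => by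
    have := Finset.single_le_sum (f := len) (fun _ _ => Nat.zero_le _) (Finset.mem_univ α)
    omega
  have hcardA : (Fintype.card ((B × ι) ⊕ L) : ℝ) ≤ Q := by
    have := Finset.card_nsmul_le_sum univ len 1 fun α _ => hlen1 α
    rw [smul_eq_mul, mul_one, Finset.card_univ] at this
    rw [hQ]; exact_mod_cast this.trans ((Nat.le_mul_of_pos_left _ two_pos).trans tc)
  have hnl0 : 0 ≤ nl := by positivity
  have hnb0 : 0 ≤ nb := by positivity
  obtain ⟨P, T, amp, Leg, φ0, K, hsp⟩ := sp_exists (ε := η / Q) (by positivity)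
  have hT := hsp.T1_ge
  have hT2 : T 1 ≤ 1 + η := hsp.T1_le.trans (by linarith [div_le_self hη.le hQ1])
  have hK := hsp.K_pos
  set β1 : ℝ := (1 - 3 * η) * Γ / (Q * T 1) with hβ1
  set β2 : ℝ := (1 - 3 * η) / (nl * T 1) with hβ2
  have h3η : 0 < 1 - 3 * η := by linarith
  have hβ10 : 0 < β1 := by positivity
  let ββ : (B × ι) ⊕ L → ℝ := Sum.elim (fun _ => β1) fun _ => β2
  let tt : (B × ι) ⊕ L → ℝ := Sum.elim (fun p => η + (Fintype.equivFin B p.1 : ℕ) * (β1 * T 1))
    fun l => η + (Fintype.equivFin L l : ℕ) * (β2 * T 1)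
  let θθ : (B × ι) ⊕ L → ℝ := Sum.elim (fun p => ω p.2 - φ0) fun _ => 0
  have hnl1 : L → 1 ≤ nl := fun l => by
    rw [hnl]; exact_mod_cast Fintype.card_pos_iff.2 ⟨l⟩
  have hββ : ∀ α, 0 < ββ α := by
    rintro (p | l)
    · exact hβ10
    · have := hnl1 l
      show 0 < β2
      positivity
  have htt : ∀ α, η ≤ tt α ∧ tt α + ββ α * T 1 ≤ 1 - 2 * η := by
    rintro (p | l)
    · show η ≤ η + (Fintype.equivFin B p.1 : ℕ) * (β1 * T 1) ∧
        η + (Fintype.equivFin B p.1 : ℕ) * (β1 * T 1) + β1 * T 1 ≤ 1 - 2 * η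
      have a1 : ((Fintype.equivFin B p.1 : ℕ) : ℝ) + 1 ≤ nb := by
        rw [hnb]; exact_mod_cast (Fintype.equivFin B p.1).isLt
      have a2 : nb * (β1 * T 1) ≤ 1 - 3 * η := by
        rw [show nb * (β1 * T 1) = (1 - 3 * η) * (nb * Γ / Q) by rw [hβ1]; field_simp]
        exact mul_le_of_le_one_right h3η.le (by rw [div_le_one (by linarith)]; linarith)
      have a3 := mul_le_mul_of_nonneg_right a1 (show 0 ≤ β1 * T 1 by positivity)
      exact ⟨le_add_of_nonneg_right (by positivity), by linarith⟩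
    · show η ≤ η + (Fintype.equivFin L l : ℕ) * (β2 * T 1) ∧
        η + (Fintype.equivFin L l : ℕ) * (β2 * T 1) + β2 * T 1 ≤ 1 - 2 * η
      have := hnl1 l
      have a1 : ((Fintype.equivFin L l : ℕ) : ℝ) + 1 ≤ nl := by
        rw [hnl]; exact_mod_cast (Fintype.equivFin L l).isLt
      have a2 : nl * (β2 * T 1) = 1 - 3 * η := by rw [hβ2]; field_simp
      have a3 := mul_le_mul_of_nonneg_right a1 (show 0 ≤ β2 * T 1 by positivity)
      exact ⟨le_add_of_nonneg_right (by positivity), by linarith⟩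
  obtain ⟨R0, hR0⟩ := exists_nat_ge (2 * ((4 / η + 5) * Q / η) ^ 2)
  set R := R0 + 1 with hR
  have hRr : (1 : ℝ) ≤ R := by rw [hR]; push_cast; linarith [(Nat.cast_nonneg R0 : (0:ℝ) ≤ R0)]
  have hR1 : 2 * ((4 / η + 5) * Q / η) ^ 2 ≤ R + 2 := by rw [hR]; push_cast; linarith
  set C : ℝ := 30 * (14 + 7 * K) * (Q0 * (R + 2)) with hC
  have E1 := (show Tendsto (fun M : ℕ => Q0 * (M * (R + 2))) atTop atTop from
    tendsto_atTop_mono (fun M => (Nat.le_mul_of_pos_right M (by omega)).trans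
      (Nat.le_mul_of_pos_left _ hQ0)) tendsto_id).eventually
    (pside (ε := ε) (η := η) (C := C) hε hη (by linarith))
  have E2 := eventually_all.2 fun α => (show Tendsto (fun M : ℕ => len α * (M * R)) atTop atTop from
    tendsto_atTop_mono (fun M => (Nat.le_mul_of_pos_right M (by omega)).trans
      (Nat.le_mul_of_pos_left _ (hlen1 α))) tendsto_id).eventually
    (hsp.main (ββ α / 2) (1 / 4) (half_pos (hββ α)) (by norm_num))
  obtain ⟨M, ⟨n2, w, hn2, hn20, hw, hP⟩, hM2, hM3, hM4⟩ :=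
    (E1.and (E2.and ((eventually_ge_atTop 16).and (eventually_ge_atTop N0)))).exists
  clear E1 E2
  set N := Q0 * (M * (R + 2)) with hN
  have hMN : M ≤ N := (Nat.le_mul_of_pos_right M (by omega)).trans (Nat.le_mul_of_pos_left _ hQ0)
  have hNp : 0 < N := by omega
  have hNr : (0 : ℝ) < N := by exact_mod_cast hNp
  have hMr : (16 : ℝ) ≤ M := by exact_mod_cast hM3
  have hA16 : ∀ α, 16 ≤ len α * M := fun α => hM3.trans (Nat.le_mul_of_pos_left _ (hlen1 α))
  have hMM : ∀ α, M ≤ len α * (M * R) := fun α =>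
    (Nat.le_mul_of_pos_right M (by omega)).trans (Nat.le_mul_of_pos_left _ (hlen1 α))
  choose g τ hg1 hg2 using fun α => arc hsp (hA16 α) (M := len α * (M * R))
    (by have := hMM α; omega) (θθ α) hη (by linarith) (htt α).1 (hββ α) (htt α).2 (by linarith)
    (fun u hu => hM2 α (1 / 2) u (by norm_num) (by norm_num) hu)
  have en : ∀ α, len α * M + len α * (M * R) + len α * M = len α * (M * (R + 2)) := fun α => by ring
  simp only [en] at hg1 hg2
  have til2 := til.refine (M := M * (R + 2)) (by positivity)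
  rw [mul_assoc, ← hN] at til2
  obtain ⟨H, σ, H1, H2, H3, H4, H5, H6⟩ := glue2 N hNp _ _ g τ (δ := (14 + 7 * K) / M)
    (fun α => (hg1 α).mono (by
      have a1 : (M : ℝ) ≤ (len α * M : ℕ) := by exact_mod_cast Nat.le_mul_of_pos_left _ (hlen1 α)
      have a2 : (M : ℝ) ≤ (len α * (M * R) : ℕ) := by exact_mod_cast hMM α
      rw [add_div]
      gcongr)) til2.inj til2.mir til2.surj
  have eC : 30 * ((14 + 7 * K) / M) = C / N := by
    have : (0 : ℝ) < Q0 := by exact_mod_cast hQ0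
    rw [hC, hN]; push_cast; field_simp
  rw [eC] at H4 H5
  have final := hP H σ H1 H2 H3 H4 H5
  set c : ℝ := √N / (2 * N) with hc
  have hc0 : 0 ≤ c := by positivity
  have hcc : c ^ 2 = 1 / (4 * N) := by
    rw [hc, div_pow, Real.sq_sqrt hNr.le]; field_simp; norm_num
  have hNQ : (N : ℝ) = Q / 2 * (M * (R + 2)) := by rw [hN, hQ]; push_cast; ring
  have hX : ∀ α, c * √((len α * (M * R) : ℕ) / (ββ α / 2))
      = √(len α * (R / ((R + 2) * Q * ββ α))) := by
    intro α
    have := hββ α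
    rw [← sq_eq_sq₀ (by positivity) (by positivity), mul_pow, hcc, Real.sq_sqrt (by positivity),
      Real.sq_sqrt (by positivity), hNQ]
    push_cast; field_simp; ring
  set ρ : ℝ := √(R * T 1 / ((R + 2) * (1 - 3 * η))) with hρ
  have hρ0 : 0 ≤ ρ := Real.sqrt_nonneg _
  have hρ1 : ρ ≤ 1 + 3 * η := by
    rw [hρ, Real.sqrt_le_left (by positivity), div_le_iff₀ (by positivity)]
    have a1 : 1 + η ≤ (1 + 3 * η) ^ 2 * (1 - 3 * η) := by nlinarith [mul_pos hη hη]
    calc R * T 1 ≤ (R + 2) * (1 + η) := mul_le_mul (by linarith) hT2 (by linarith) (by linarith)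
      _ ≤ (R + 2) * ((1 + 3 * η) ^ 2 * (1 - 3 * η)) := by gcongr
      _ = _ := by ring
  have hX1 : ∀ p : B × ι, c * √((len (Sum.inl p) * (M * R) : ℕ) / (ββ (Sum.inl p) / 2))
      = √(j p.2 / Γ) * ρ := by
    intro p
    rw [hX, hρ, ← Real.sqrt_mul (by positivity)]
    congr 1
    show (j p.2 : ℝ) * (R / ((R + 2) * Q * β1)) = _
    rw [hβ1]; field_simp
  have hX2 : ∀ l : L, c * √((len (Sum.inr l) * (M * R) : ℕ) / (ββ (Sum.inr l) / 2)) ≤ 2 * η := by
    intro l
    have := hnl1 l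
    rw [hX, Real.sqrt_le_left (by positivity)]
    show ((1 : ℕ) : ℝ) * (R / ((R + 2) * Q * β2)) ≤ _
    have e : ((1 : ℕ) : ℝ) * (R / ((R + 2) * Q * β2))
        = R / (R + 2) * (T 1 / (1 - 3 * η)) * (nl / Q) := by rw [hβ2]; push_cast; field_simp
    have a1 : R / (R + 2 : ℝ) ≤ 1 := by rw [div_le_one (by linarith)]; linarith
    have a2 : T 1 / (1 - 3 * η) ≤ 2 := by rw [div_le_iff₀ h3η]; linarith
    have a3 : nl / Q ≤ η ^ 2 := by rw [div_le_iff₀ (by linarith)]; linarith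
    rw [e]
    refine (mul_le_mul (mul_le_mul a1 a2 (by positivity) (by norm_num)) a3 (by positivity)
      (by norm_num)).trans ?_
    nlinarith [sq_nonneg η]
  have hX3 : ∀ α, c * √((len α * (M * R) : ℕ) / (ββ α / 2)) ≤ 2 := by
    rintro (p | l)
    · rw [hX1]
      have : √(j p.2 / Γ) ≤ 1 := Real.sqrt_le_one.2 ((div_le_one hΓ0).2 (hjΓ _))
      exact (mul_le_of_le_one_left hρ0 this).trans (by linarith)
    · linarith [hX2 l]
  have hY : ∀ α, c * (2 * ((4 / η + 5) * √((len α * M : ℕ) : ℝ))) ≤ η / Q := by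
    intro α
    have a1 : (len α : ℝ) ≤ Q := by rw [hQ]; exact_mod_cast hlenQ α
    rw [← sq_le_sq₀ (by positivity) (by positivity), mul_pow, mul_pow, mul_pow, hcc,
      Real.sq_sqrt (by positivity), hNQ]
    push_cast
    calc 1 / (4 * (Q / 2 * (M * (R + 2)))) * (2 ^ 2 * ((4 / η + 5) ^ 2 * (len α * M)))
        ≤ 1 / (4 * (Q / 2 * (M * (R + 2)))) * (2 ^ 2 * ((4 / η + 5) ^ 2 * (Q * M))) := by gcongr
      _ = 2 * ((4 / η + 5) * Q / η) ^ 2 / (R + 2) * (η / Q) ^ 2 := by field_simp; ring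
      _ ≤ _ := mul_le_of_le_one_left (by positivity) ((div_le_one (by positivity)).2 hR1)
  have bound : ∀ k : ℤ, -η ≤ k / N → (k / N : ℝ) ≤ 1 → |(bco N H k).re| ≤ 1 + ε := by
    intro k k1 k2
    set u : ℝ := k / N with hu
    rw [H6 k, Complex.ofReal_re]
    set Z : (B × ι) ⊕ L → ℝ := fun α => 2 * (c * √((len α * (M * R) : ℕ) / (ββ α / 2))) *
      amp ((u - tt α) / ββ α) * (ee (θθ α + φ0 - u * ((s α * (M * (R + 2) : ℕ) : ℤ)
        + (len α * M : ℕ)) / 2 + ββ α / 2 * (len α * (M * R) : ℕ) * Leg ((u - tt α) / ββ α))).re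
      with hZ
    have err : ∀ α, |2 * ((c : ℂ) * ∑ i ∈ range (len α * (M * (R + 2))), g α i *
        ee (-(k * (((s α * (M * (R + 2) : ℕ) : ℤ) : ℝ) + i + 1 / 2) / (2 * N)))).re - Z α|
        ≤ 6 * (η / Q) := by
      intro α
      have a := hg2 α u ((s α * (M * (R + 2) : ℕ) : ℤ) : ℝ) k1 k2
      have e1 : ∀ x : ℝ, k * x / (2 * N) = u * x / 2 := fun x => by rw [hu]; field_simp
      simp only [e1, hZ]
      have a2 := (Complex.abs_re_le_norm _).trans a
      rw [Complex.sub_re, Complex.re_ofReal_mul] at a2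
      rw [Complex.re_ofReal_mul]
      exact err_aux hc0 (by positivity) a2 (hX3 α) (hY α)
    have err2 : |∑ α, 2 * ((c : ℂ) * ∑ i ∈ range (len α * (M * (R + 2))), g α i *
        ee (-(k * (((s α * (M * (R + 2) : ℕ) : ℤ) : ℝ) + i + 1 / 2) / (2 * N)))).re - ∑ α, Z α|
        ≤ 6 * η := by
      rw [← Finset.sum_sub_distrib]
      refine (Finset.abs_sum_le_sum_abs _ _).trans ((Finset.sum_le_sum fun α _ => err α).trans ?_)
      rw [Finset.sum_const, Finset.card_univ, nsmul_eq_mul]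
      refine (mul_le_mul_of_nonneg_right hcardA (by positivity)).trans (le_of_eq ?_)
      field_simp
    have m1 : |∑ p : B × ι, Z (Sum.inl p)| ≤ ρ * (1 + η) := by
      rw [Fintype.sum_prod_type]
      refine (Finset.abs_sum_le_sum_abs _ _).trans ((Finset.sum_le_sum (g := fun b => ρ * (1 + η) *
        amp ((u - (η + (Fintype.equivFin B b : ℕ) * (β1 * T 1))) / β1)) fun b _ => ?_).trans ?_)
      · set v := (u - (η + (Fintype.equivFin B b : ℕ) * (β1 * T 1))) / β1 with hv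
        have := hF (-(u * (z0 b * (M * (R + 2)) + M) / 2) + β1 / 2 * (M * R) * Leg v)
          (-(u * (z1 b * (M * (R + 2))) / 2))
        have e : ∀ ν, Z (Sum.inl (b, ν)) = ρ * amp v * (2 * √(j ν / Γ) *
            (ee (j ν * (-(u * (z0 b * (M * (R + 2)) + M) / 2) + β1 / 2 * (M * R) * Leg v)
              + m ν * (-(u * (z1 b * (M * (R + 2))) / 2)) + ω ν)).re) := by
          intro ν
          simp only [hZ, hX1]
          have e2 : θθ (Sum.inl (b, ν)) + φ0 - u * ((s (Sum.inl (b, ν)) * (M * (R + 2) : ℕ) : ℤ)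
              + (len (Sum.inl (b, ν)) * M : ℕ)) / 2 + ββ (Sum.inl (b, ν)) / 2 *
              (len (Sum.inl (b, ν)) * (M * R) : ℕ) * Leg ((u - tt (Sum.inl (b, ν))) / ββ (Sum.inl (b, ν)))
              = j ν * (-(u * (z0 b * (M * (R + 2)) + M) / 2) + β1 / 2 * (M * R) * Leg v)
              + m ν * (-(u * (z1 b * (M * (R + 2))) / 2)) + ω ν := by
            simp only [θθ, ββ, tt, hs, hlen, Sum.elim_inl, ← hv]
            push_cast; ring
          rw [e2]
          simp only [ββ, tt, Sum.elim_inl, ← hv]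
          ring
        simp only [e]
        rw [← Finset.mul_sum, abs_mul, abs_of_nonneg (mul_nonneg hρ0 (hsp.amp_nonneg _))]
        refine (mul_le_mul_of_nonneg_left this (mul_nonneg hρ0 (hsp.amp_nonneg _))).trans
          (le_of_eq ?_)
        ring
      · rw [← Finset.mul_sum]
        exact mul_le_of_le_one_right (by positivity) (slots hsp hβ10 η u)
    have m2 : |∑ l : L, Z (Sum.inr l)| ≤ 4 * η := by
      rcases isEmpty_or_nonempty L with hL | ⟨⟨l0⟩⟩
      · simp; positivity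
      refine (Finset.abs_sum_le_sum_abs _ _).trans ((Finset.sum_le_sum (g := fun l => 4 * η *
        amp ((u - (η + (Fintype.equivFin L l : ℕ) * (β2 * T 1))) / β2)) fun l _ => ?_).trans ?_)
      · simp only [hZ]
        rw [abs_mul, abs_mul, abs_of_nonneg (hsp.amp_nonneg _), abs_of_nonneg (by positivity)]
        refine (mul_le_of_le_one_right (mul_nonneg (by positivity) (hsp.amp_nonneg _))
          ((Complex.abs_re_le_norm _).trans (norm_ee _).le)).trans ?_
        exact mul_le_mul_of_nonneg_right (by linarith [hX2 l]) (hsp.amp_nonneg _)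
      · rw [← Finset.mul_sum]
        exact mul_le_of_le_one_right (by positivity) (slots hsp (hββ (Sum.inr l0)) η u)
    rw [Fintype.sum_sum_type Z] at err2
    have a1 := abs_le.1 err2
    have a2 := abs_le.1 m1
    have a3 := abs_le.1 m2
    have a4 : ρ * (1 + η) ≤ 1 + 5 * η := by nlinarith
    rw [abs_le]; constructor <;> linarith [a1.1, a1.2, a2.1, a2.2, a3.1, a3.2]
  refine ⟨N, hM4.trans hMN, hNp, fun k => if k < N then w k * (bco N H (k + 1 - n2)).re else 0,
    fun k => ?_, fun θ => ?_⟩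
  · dsimp only
    split_ifs with hk
    · rw [abs_mul, abs_of_nonneg (hw k).1]
      refine (mul_le_of_le_one_left (abs_nonneg _) (hw k).2).trans (bound _ ?_ ?_)
      · rw [le_div_iff₀ hNr]; push_cast
        linarith [(Nat.cast_nonneg k : (0:ℝ) ≤ k)]
      · rw [div_le_one hNr]
        have : ((k : ℤ) + 1 - n2) ≤ N := by omega
        exact_mod_cast this
    · simp; linarith
  · refine le_trans (le_of_eq ?_) (final θ)
    congr 3
    refine Finset.sum_congr rfl fun k hk => ?_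
    dsimp only
    rw [if_pos (Finset.mem_range.1 hk), H6, Complex.ofReal_re, Complex.ofReal_mul]

end Vale.Agent.P110
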